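import Mathlib

/-!
# P310: digits in base `p`
-/

namespace Vale.Agent.P310

/-- The digits of `n` in base `p` (least significant digit first). -/
def dig (p : ℕ) {m : ℕ} (n : ℕ) : Fin m → ZMod p := fun i => ((n / p ^ (i : ℕ) : ℕ) : ZMod p)

/-- The number with the given digits. -/
def numOf {p m : ℕ} (v : Fin m → ZMod p) : ℕ := ∑ i, (v i).val * p ^ (i : ℕ)

section
variable {p m : ℕ} [NeZero p]

omit [NeZero p] in
theorem numOf_snoc (v : Fin (m + 1) → ZMod p) :
    numOf v = numOf (fun i : Fin m => v i.castSucc) + (v (Fin.last m)).val * p ^ m := by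
  unfold numOf
  rw [Fin.sum_univ_castSucc]
  simp

theorem numOf_lt (v : Fin m → ZMod p) : numOf v < p ^ m := by
  induction m with
  | zero => simp [numOf]
  | succ m ih =>
    rw [numOf_snoc, pow_succ]
    have h1 := ih (fun i : Fin m => v i.castSucc)
    have h2 : (v (Fin.last m)).val + 1 ≤ p := ZMod.val_lt _
    calc numOf (fun i : Fin m => v i.castSucc) + (v (Fin.last m)).val * p ^ m
        < p ^ m + (v (Fin.last m)).val * p ^ m := by omega
      _ = p ^ m * ((v (Fin.last m)).val + 1) := by ring
      _ ≤ p ^ m * p := Nat.mul_le_mul_left _ h2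

omit [NeZero p] in
theorem numOf_dig_mod (n : ℕ) : numOf (dig p n : Fin m → ZMod p) = n % p ^ m := by
  induction m with
  | zero => simp [numOf, Nat.mod_one]
  | succ m ih =>
    rw [numOf_snoc]
    have h1 : numOf (fun i : Fin m => (dig p n : Fin (m + 1) → ZMod p) i.castSucc) = n % p ^ m := by
      rw [← ih]
      rfl
    have h2 : ((dig p n : Fin (m + 1) → ZMod p) (Fin.last m)).val = n / p ^ m % p := by
      simp [dig, ZMod.val_natCast]
    rw [h1, h2, pow_succ, Nat.mod_mul, mul_comm (p ^ m)]

theorem numOf_dig {n : ℕ} (hn : n < p ^ m) : numOf (dig p n : Fin m → ZMod p) = n := by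
  rw [numOf_dig_mod, Nat.mod_eq_of_lt hn]

theorem dig_numOf (v : Fin m → ZMod p) : dig p (numOf v) = v := by
  induction m with
  | zero => funext i; exact i.elim0
  | succ m ih =>
    have hp : 0 < p := Nat.pos_of_ne_zero (NeZero.ne p)
    have h1 := numOf_lt (fun i : Fin m => v i.castSucc)
    funext i
    refine Fin.lastCases ?_ (fun i => ?_) i
    · unfold dig
      rw [numOf_snoc, Fin.val_last, Nat.add_mul_div_right _ _ (by positivity),
        Nat.div_eq_of_lt h1, zero_add]
      exact ZMod.natCast_zmod_val _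
    · have h2 : dig p (numOf (fun i : Fin m => v i.castSucc)) i = v i.castSucc :=
        congrFun (ih (fun i : Fin m => v i.castSucc)) i
      refine Eq.trans ?_ h2
      unfold dig
      rw [numOf_snoc v, Fin.val_castSucc]
      have h4 : p ^ m = p ^ (i : ℕ) * p * p ^ (m - 1 - i) := by
        rw [← pow_succ, ← pow_add]
        congr 1
        omega
      have h5 : (v (Fin.last m)).val * p ^ m =
          p ^ (i : ℕ) * (p * ((v (Fin.last m)).val * p ^ (m - 1 - i))) := by
        rw [h4]; ring
      rw [h5, Nat.add_mul_div_left _ _ (by positivity)]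
      push_cast
      simp

theorem numOf_injective : Function.Injective (numOf : (Fin m → ZMod p) → ℕ) := by
  intro v w h
  rw [← dig_numOf v, h, dig_numOf]

theorem val_dig (n : ℕ) (i : Fin m) : (dig p n i).val = n / p ^ (i : ℕ) % p := by
  simp [dig, ZMod.val_natCast]

/-- comparison of numbers by their digits -/
theorem numOf_lt_iff (v w : Fin m → ZMod p) :
    numOf v < numOf w ↔ ∃ j, (v j).val < (w j).val ∧ ∀ i, j < i → v i = w i := by
  induction m with
  | zero =>
    constructor
    · intro h
      simp [numOf] at h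
    · rintro ⟨j, _⟩
      exact j.elim0
  | succ m ih =>
    have hv := numOf_lt (fun i : Fin m => v i.castSucc)
    have hw := numOf_lt (fun i : Fin m => w i.castSucc)
    rw [numOf_snoc v, numOf_snoc w]
    constructor
    · intro h
      rcases lt_trichotomy (v (Fin.last m)).val (w (Fin.last m)).val with h1 | h1 | h1
      · refine ⟨Fin.last m, h1, fun i hi => ?_⟩
        exact absurd hi (not_lt.mpr (Fin.le_last i))
      · rw [h1] at h
        obtain ⟨j, hj1, hj2⟩ := (ih (fun i : Fin m => v i.castSucc)
          (fun i : Fin m => w i.castSucc)).mp (by omega)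
        refine ⟨j.castSucc, hj1, fun i => ?_⟩
        refine Fin.lastCases (fun _ => ZMod.val_injective p h1) (fun i hi => ?_) i
        exact hj2 i (by simpa using hi)
      · exfalso
        have h2 : (w (Fin.last m)).val * p ^ m + p ^ m ≤ (v (Fin.last m)).val * p ^ m := by
          have := Nat.mul_le_mul_right (p ^ m) (Nat.succ_le_of_lt h1)
          rw [Nat.succ_mul] at this
          exact this
        omega
    · rintro ⟨j, hj1, hj2⟩
      revert hj1 hj2
      refine Fin.lastCases (fun hj1 _ => ?_) (fun j hj1 hj2 => ?_) j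
      · have h2 : (v (Fin.last m)).val * p ^ m + p ^ m ≤ (w (Fin.last m)).val * p ^ m := by
          have := Nat.mul_le_mul_right (p ^ m) (Nat.succ_le_of_lt hj1)
          rw [Nat.succ_mul] at this
          exact this
        omega
      · have h1 : v (Fin.last m) = w (Fin.last m) := hj2 _ (Fin.castSucc_lt_last j)
        have h2 := (ih (fun i : Fin m => v i.castSucc) (fun i : Fin m => w i.castSucc)).mpr
          ⟨j, hj1, fun i hi => hj2 _ (by simpa using hi)⟩
        rw [h1]
        omega

theorem numOf_all_neg_one (hp : 2 ≤ p) (v : Fin m → ZMod p) (h : ∀ i, v i = -1) :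
    numOf v + 1 = p ^ m := by
  have hval : ((-1 : ZMod p)).val = p - 1 := by
    obtain ⟨q, rfl⟩ : ∃ q, p = q + 1 := ⟨p - 1, by omega⟩
    rw [ZMod.val_neg_one]
    rfl
  induction m with
  | zero => simp [numOf]
  | succ m ih =>
    rw [numOf_snoc, h, hval, pow_succ]
    have h1 := ih (fun i : Fin m => v i.castSucc) (fun i => h _)
    have h2 : (p - 1) * p ^ m + p ^ m = p ^ m * p := by
      obtain ⟨q, rfl⟩ : ∃ q, p = q + 1 := ⟨p - 1, by omega⟩
      simp only [Nat.add_sub_cancel]
      ring
    omega

omit [NeZero p] in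
theorem numOf_zero' (v : Fin m → ZMod p) (h : ∀ i, v i = 0) : numOf v = 0 := by
  unfold numOf
  apply Finset.sum_eq_zero
  intro i _
  rw [h i, ZMod.val_zero, zero_mul]

theorem val_add_one_digit (hp : 2 ≤ p) (a : ZMod p) (ha : a ≠ -1) : (a + 1).val = a.val + 1 := by
  have hone : ((1 : ZMod p)).val = 1 := by
    rw [ZMod.val_one_eq_one_mod]
    exact Nat.mod_eq_of_lt (by omega)
  rw [ZMod.val_add, hone]
  apply Nat.mod_eq_of_lt
  have h1 : a.val < p := ZMod.val_lt a
  by_contra h2
  have h3 : a.val = p - 1 := by omega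
  apply ha
  have h4 : (a.val : ZMod p) = a := ZMod.natCast_zmod_val a
  rw [← h4, h3, Nat.cast_sub (by omega), ZMod.natCast_self]
  simp

/-- the successor: carry position `j` -/
theorem numOf_succ (hp : 2 ≤ p) (v : Fin m → ZMod p) (j : Fin m) (h : ∀ i < j, v i = -1)
    (hj : v j ≠ -1) : numOf (fun i => v i + if i ≤ j then 1 else 0) = numOf v + 1 := by
  induction m with
  | zero => exact j.elim0
  | succ m ih =>
    rw [numOf_snoc, numOf_snoc v]
    revert h hj
    refine Fin.lastCases (fun h hj => ?_) (fun j h hj => ?_) j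
    · have h1 : numOf (fun i : Fin m => v i.castSucc + if i.castSucc ≤ Fin.last m then 1 else 0) =
          0 := by
        apply numOf_zero'
        intro i
        rw [if_pos (Fin.le_last _), h _ (Fin.castSucc_lt_last i)]
        ring
      have h2 := numOf_all_neg_one hp (fun i : Fin m => v i.castSucc)
        (fun i => h _ (Fin.castSucc_lt_last i))
      rw [h1, if_pos le_rfl, val_add_one_digit hp _ hj, zero_add, add_mul, one_mul]
      omega
    · have h1 := ih (fun i : Fin m => v i.castSucc) j
        (fun i hi => h _ (by simpa using hi)) hj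
      have h2 : ¬ (Fin.last m ≤ j.castSucc) := not_le.mpr (Fin.castSucc_lt_last j)
      rw [if_neg h2, add_zero]
      have h3 : (fun i : Fin m => v i.castSucc + if i.castSucc ≤ j.castSucc then 1 else 0) =
          fun i : Fin m => v i.castSucc + if i ≤ j then 1 else 0 := by
        funext i
        simp
      rw [h3, h1]
      omega

theorem exists_carry (hp : 2 ≤ p) (v : Fin m → ZMod p) (h : numOf v + 1 < p ^ m) :
    ∃ j, (∀ i < j, v i = -1) ∧ v j ≠ -1 := by
  have h1 : ∃ j, v j ≠ -1 := by
    by_contra hcon
    push Not at hcon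
    exact absurd (numOf_all_neg_one hp v hcon) (ne_of_lt h)
  obtain ⟨j0, hj0⟩ := h1
  have hne : (Finset.univ.filter fun j => v j ≠ -1).Nonempty :=
    ⟨j0, Finset.mem_filter.mpr ⟨Finset.mem_univ _, hj0⟩⟩
  refine ⟨(Finset.univ.filter fun j => v j ≠ -1).min' hne, fun i hi => ?_, ?_⟩
  · by_contra hcon
    have h2 := Finset.min'_le (Finset.univ.filter fun j => v j ≠ -1) i
      (Finset.mem_filter.mpr ⟨Finset.mem_univ _, hcon⟩)
    exact absurd hi (not_lt.mpr h2)
  · exact (Finset.mem_filter.mp (Finset.min'_mem _ hne)).2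

end

end Vale.Agent.P310
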