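import Vale.Agent.Lib.P310.Horn

/-!
# P310: shapes (Horn systems given by integer data, independent of the modulus), Boolean digit
formulas, conditional Horn systems
-/

namespace Vale.Agent.P310

/-- The checksum address of free rows: `m` free rows and the last row making the sum zero. -/
def addr {m : ℕ} {X : Type} [AddCommGroup X] (x : Fin m → X) : Fin (m + 1) → X :=
  Fin.snoc (α := fun _ => X) x (-∑ i, x i)

/-- A Horn system given by integer data. Registers: `0 = t`, `1 = r`, `2, 3, 4 = c0, c1, c2`.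
Table rules (`tab ρ = some b`) have a condition in row `0`: the registers `c0, c1, c2` are in the
table (`b = true`), or not in the table (`b = false`). -/
structure Shape (m : ℕ) where
  Pred : Type
  Rule : Type
  finRule : Finite Rule
  pred : Rule → Fin 3 → Pred
  ish : Rule → Fin 3 → Fin m → Fin 5 → ℤ
  ish_bdd : ∀ ρ j i r, ish ρ j i r = 0 ∨ ish ρ j i r = 1
  tab : Rule → Option Bool
  P0 : Pred
  Pg : Pred

/-- The Horn system of a shape, for the modulus `p` and the table `T`. -/
def Shape.toHorn {m : ℕ} (S : Shape m) (p : ℕ) (T : Set (ZMod p × ZMod p × ZMod p)) :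
    Horn (m + 1) (Fin 5 → ZMod p) where
  Pred := S.Pred
  Rule := S.Rule
  pred := S.pred
  shift ρ j := addr fun i r => (S.ish ρ j i r : ZMod p)
  cond ρ i u := ∀ b, S.tab ρ = some b → i = 0 → ((u 2, u 3, u 4) ∈ T ↔ b = true)
  P0 := S.P0
  Pg := S.Pg

/-- Boolean formulas about the digits `(reg, i)` of the two registers `0 = t`, `1 = r`; `Y` is the
type of the symbols of the table. -/
inductive BF (m : ℕ) (Y : Type)
  | tt
  | atom (y : Y) (d₁ d₂ : Fin 2 × Fin m)
  | raw (d₀ d₁ d₂ : Fin 2 × Fin m)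
  | and (φ ψ : BF m Y)
  | or (φ ψ : BF m Y)
  | not (φ : BF m Y)

/-- The meaning of a formula; `num` numbers the symbols. -/
def BF.eval {m : ℕ} {Y : Type} (num : Y → ℕ) {p : ℕ} (T : Set (ZMod p × ZMod p × ZMod p))
    (z : Fin m → Fin 2 → ZMod p) : BF m Y → Prop
  | .tt => True
  | .atom y d₁ d₂ => ((num y : ZMod p), z d₁.2 d₁.1, z d₂.2 d₂.1) ∈ T
  | .raw d₀ d₁ d₂ => (z d₀.2 d₀.1, z d₁.2 d₁.1, z d₂.2 d₂.1) ∈ T
  | .and φ ψ => φ.eval num T z ∧ ψ.eval num T z
  | .or φ ψ => φ.eval num T z ∨ ψ.eval num T z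
  | .not φ => ¬ φ.eval num T z

/-- A conditional Horn system over the registers `t, r`: rules
`head (z + ish 0) ← body1 (z + ish 1) ∧ body2 (z + ish 2)` if the formula `cond` holds at `z`. -/
structure CShape (m : ℕ) (Y : Type) where
  Pred : Type
  Rule : Type
  finRule : Finite Rule
  pred : Rule → Fin 3 → Pred
  ish : Rule → Fin 3 → Fin m → Fin 2 → ℤ
  ish_bdd : ∀ ρ j i r, ish ρ j i r = 0 ∨ ish ρ j i r = 1
  cond : Rule → BF m Y
  start : Pred
  goal : Pred

/-- integer vectors modulo `p` -/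
def modp {m s : ℕ} (p : ℕ) (x : Fin m → Fin s → ℤ) : Fin m → Fin s → ZMod p :=
  fun i r => (x i r : ZMod p)

/-- The derivable atoms of a conditional Horn system. -/
inductive CShape.Known {m : ℕ} {Y : Type} (C : CShape m Y) (num : Y → ℕ) {p : ℕ}
    (T : Set (ZMod p × ZMod p × ZMod p)) : C.Pred → (Fin m → Fin 2 → ZMod p) → Prop
  | start : CShape.Known C num T C.start 0
  | rule (ρ : C.Rule) (z : Fin m → Fin 2 → ZMod p) (hc : (C.cond ρ).eval num T z)
      (h1 : CShape.Known C num T (C.pred ρ 1) (z + modp p (C.ish ρ 1)))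
      (h2 : CShape.Known C num T (C.pred ρ 2) (z + modp p (C.ish ρ 2))) :
      CShape.Known C num T (C.pred ρ 0) (z + modp p (C.ish ρ 0))

end Vale.Agent.P310
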