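import Vale.Agent.Lib.P310.CoreGraph
import Vale.Agent.Lib.P310.Shape
import Vale.Agent.Lib.P310.Digits

/-!
# P310: the adjacency of the pair of graphs as a Boolean formula of digit tables (definitions)

A gadget vertex is given by 6 digits: digit `0` is (the code of) the label, digits `1..5` are the
view. `a b : Fin 6 → Fin 2 × Fin m` are the positions of the digits of two vertices.
-/

namespace Vale.Agent.P310

/-- the symbols of the table -/
inductive Sy (m : ℕ)
  | zero | max | one | eq | lt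
  | sh (c : Fin (4 * m + 1))
  | rel (g : Bool) (π : Fin 5 → Fin (4 * m + 1))
  | plain | tabP | tabN | wall
  | ordLt (g : Bool) | ordEq (g : Bool) | ordOrd
  | isLab
  | ltN (j : Fin 7) | eqN (j : Fin 7)

/-- codes of the symbols -/
def syCode (m : ℕ) : Sy m → (Fin 20 × Fin (4 * m + 1)) × (Bool × (Fin 5 → Fin (4 * m + 1))) × Fin 7
  | .zero => ((0, 0), (false, 0), 0)
  | .max => ((1, 0), (false, 0), 0)
  | .one => ((2, 0), (false, 0), 0)
  | .eq => ((3, 0), (false, 0), 0)
  | .lt => ((4, 0), (false, 0), 0)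
  | .sh c => ((5, c), (false, 0), 0)
  | .rel g π => ((6, 0), (g, π), 0)
  | .plain => ((7, 0), (false, 0), 0)
  | .tabP => ((8, 0), (false, 0), 0)
  | .tabN => ((9, 0), (false, 0), 0)
  | .wall => ((10, 0), (false, 0), 0)
  | .ordLt g => ((11, 0), (g, 0), 0)
  | .ordEq g => ((12, 0), (g, 0), 0)
  | .ordOrd => ((13, 0), (false, 0), 0)
  | .isLab => ((14, 0), (false, 0), 0)
  | .ltN j => ((15, 0), (false, 0), j)
  | .eqN j => ((16, 0), (false, 0), j)

instance finite_sy (m : ℕ) : Finite (Sy m) := by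
  apply Finite.of_injective (syCode m)
  intro a b h
  cases a <;> cases b <;> simp_all [syCode]

/-- a numbering of the symbols -/
noncomputable def syNum {m : ℕ} (y : Sy m) : ℕ := (Finite.equivFin (Sy m) y : ℕ)

theorem syNum_lt {m : ℕ} (y : Sy m) : syNum y < Nat.card (Sy m) := (Finite.equivFin (Sy m) y).2

/-- the numbers of different symbols are different modulo `p` -/
theorem syNum_inj {m p : ℕ} (hp : Nat.card (Sy m) < p) {y y' : Sy m}
    (h : ((syNum y : ℕ) : ZMod p) = ((syNum y' : ℕ) : ZMod p)) : y = y' := by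
  have h1 : syNum y < p := lt_trans (syNum_lt y) hp
  have h2 : syNum y' < p := lt_trans (syNum_lt y') hp
  rw [ZMod.natCast_eq_natCast_iff', Nat.mod_eq_of_lt h1, Nat.mod_eq_of_lt h2] at h
  exact (Finite.equivFin (Sy m)).injective (Fin.ext h)

section
variable {m : ℕ} (S : Shape m) {B D : ℕ}

/-- label level: the local assignment has the right parity in the graph number `g` -/
def LPar (g : Bool) : Lab (m + 1) S.Rule B D → Prop
  | .rule _ _ _ α => ∑ s, α s = 0
  | .ax _ α => ∑ i, α i = 0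
  | .goal α => ∑ i, α i = if g then 1 else 0
  | _ => False

/-- label level: the two vertices share a variable and agree on it, if the difference of their
views is `π - 2m`; the nodes are different -/
def LRel (π : Fin 5 → Fin (4 * m + 1)) :
    Lab (m + 1) S.Rule B D → Lab (m + 1) S.Rule B D → Prop
  | .rule i ρ γ α, .rule i' ρ' γ' α' => i = i' ∧ ∃ s s', (ρ, s) ≠ (ρ', s') ∧
      S.pred ρ s.part = S.pred ρ' s'.part ∧ γ + wireGen (ρ, s) = γ' + wireGen (ρ', s') ∧
      α s = α' s' ∧ ∀ j, ((π j : ℕ) : ℤ) - 2 * m =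
        addr (S.ish ρ s.part) i j - addr (S.ish ρ' s'.part) i j
  | .rule i ρ γ α, .ax γ' α' => ∃ s, S.pred ρ s.part = S.P0 ∧ γ + wireGen (ρ, s) = γ' ∧
      α s = α' i ∧ ∀ j, ((π j : ℕ) : ℤ) - 2 * m = addr (S.ish ρ s.part) i j
  | .ax γ' α', .rule i ρ γ α => ∃ s, S.pred ρ s.part = S.P0 ∧ γ + wireGen (ρ, s) = γ' ∧
      α s = α' i ∧ ∀ j, ((π j : ℕ) : ℤ) - 2 * m = - addr (S.ish ρ s.part) i j
  | .rule i ρ γ α, .goal α' => ∃ s, S.pred ρ s.part = S.Pg ∧ γ + wireGen (ρ, s) = 0 ∧
      α s = α' i ∧ ∀ j, ((π j : ℕ) : ℤ) - 2 * m = addr (S.ish ρ s.part) i j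
  | .goal α', .rule i ρ γ α => ∃ s, S.pred ρ s.part = S.Pg ∧ γ + wireGen (ρ, s) = 0 ∧
      α s = α' i ∧ ∀ j, ((π j : ℕ) : ℤ) - 2 * m = - addr (S.ish ρ s.part) i j
  | _, _ => False

/-- labels of vertices without a condition on the view -/
def LPlain : Lab (m + 1) S.Rule B D → Prop
  | .rule i ρ _ _ => i ≠ 0 ∨ S.tab ρ = none
  | _ => False

/-- labels of vertices of table rules in row `0` -/
def LTab (b : Bool) : Lab (m + 1) S.Rule B D → Prop
  | .rule i ρ _ _ => i = 0 ∧ S.tab ρ = some b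
  | _ => False

/-- labels of axiom and goal vertices -/
def LWall : Lab (m + 1) S.Rule B D → Prop
  | .ax _ _ => True
  | .goal _ => True
  | _ => False

/-- The table relation of a symbol. `code` is the code of the labels, `n` is the number of
vertices of the graphs. -/
def tb (cidx : Cls (m + 1) S.Rule B → ℕ) {p : ℕ} (code : Lab (m + 1) S.Rule B D → ZMod p)
    (n : ℕ) : Sy m → ZMod p → ZMod p → Prop
  | .zero, a, _ => a = 0
  | .max, a, _ => a = -1
  | .one, a, _ => a = 1
  | .eq, a, b => a = b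
  | .lt, a, b => a.val < b.val
  | .sh c, a, b => b = a + ((c : ℕ) : ZMod p) - ((2 * m : ℕ) : ZMod p)
  | .rel g π, a, b => ∃ l l', code l = a ∧ code l' = b ∧ LPar S g l ∧ LPar S g l' ∧
      LRel S π l l'
  | .plain, a, _ => ∃ l, code l = a ∧ LPlain S l
  | .tabP, a, _ => ∃ l, code l = a ∧ LTab S true l
  | .tabN, a, _ => ∃ l, code l = a ∧ LTab S false l
  | .wall, a, _ => ∃ l, code l = a ∧ LWall S l
  | .ordLt g, a, b => ∃ c e l' c', code (.ord c e) = a ∧ code l' = b ∧ LPar S g l' ∧
      l'.cls = some c' ∧ cidx c < cidx c'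
  | .ordEq g, a, b => ∃ c e l', code (.ord c e) = a ∧ code l' = b ∧ LPar S g l' ∧
      l'.cls = some c
  | .ordOrd, a, b => ∃ l l', code l = a ∧ code l' = b ∧ l.IsOrd ∧ l'.IsOrd
  | .isLab, a, _ => ∃ l, code l = a
  | .ltN j, a, _ => a.val < n / p ^ (j : ℕ) % p
  | .eqN j, a, _ => a.val = n / p ^ (j : ℕ) % p

/-- The table. -/
def table (cidx : Cls (m + 1) S.Rule B → ℕ) {p : ℕ}
    (code : Lab (m + 1) S.Rule B D → ZMod p) (n : ℕ) : Set (ZMod p × ZMod p × ZMod p) :=
  {x | ∃ y : Sy m, x.1 = (syNum y : ZMod p) ∧ tb S cidx code n y x.2.1 x.2.2}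

end

section
variable {m : ℕ} {Y : Type}

/-- conjunction and disjunction of finite families of formulas -/
def BF.all : List (BF m Y) → BF m Y
  | [] => .tt
  | φ :: l => .and φ (BF.all l)

def BF.any : List (BF m Y) → BF m Y
  | [] => .not .tt
  | φ :: l => .or φ (BF.any l)

theorem BF.eval_all {num : Y → ℕ} {p : ℕ}
    {T : Set (ZMod p × ZMod p × ZMod p)} {z : Fin m → Fin 2 → ZMod p} (l : List (BF m Y)) :
    (BF.all l).eval num T z ↔ ∀ φ ∈ l, φ.eval num T z := by
  induction l with
  | nil => simp [BF.all, BF.eval]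
  | cons a l ih => simp [BF.all, BF.eval, ih]

theorem BF.eval_any {num : Y → ℕ} {p : ℕ}
    {T : Set (ZMod p × ZMod p × ZMod p)} {z : Fin m → Fin 2 → ZMod p} (l : List (BF m Y)) :
    (BF.any l).eval num T z ↔ ∃ φ ∈ l, φ.eval num T z := by
  induction l with
  | nil => simp [BF.any, BF.eval]
  | cons a l ih => simp [BF.any, BF.eval, ih]

end

section
variable {m : ℕ}

/-- existence of the vertex with digits `d`: condition on the view -/
def vldF (d : Fin 6 → Fin 2 × Fin m) : BF m (Sy m) :=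
  BF.any [.atom .plain (d 0) (d 0),
    .and (.atom .tabP (d 0) (d 0)) (.raw (d 3) (d 4) (d 5)),
    .and (.atom .tabN (d 0) (d 0)) (.not (.raw (d 3) (d 4) (d 5))),
    BF.all (.atom .wall (d 0) (d 0) ::
      (List.finRange 5).map fun j => .atom .zero (d j.succ) (d j.succ))]

/-- all the patterns of differences of views -/
noncomputable def patterns (m : ℕ) : List (Fin 5 → Fin (4 * m + 1)) :=
  (Finset.univ : Finset (Fin 5 → Fin (4 * m + 1))).toList

/-- gadget edges -/
noncomputable def gadF (g : Bool) (a b : Fin 6 → Fin 2 × Fin m) : BF m (Sy m) :=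
  BF.all [vldF a, vldF b,
    BF.any ((patterns m).map fun π => BF.all (.atom (.rel g π) (a 0) (b 0) ::
      (List.finRange 5).map fun j => .atom (.sh (π j)) (a j.succ) (b j.succ)))]

/-- the view of `a` is at most the view of `b` in the order of the ranks (most significant
digit `4`) -/
def leF (a b : Fin 6 → Fin 2 × Fin m) : BF m (Sy m) :=
  BF.any (BF.all ((List.finRange 5).map fun j => .atom .eq (a j.succ) (b j.succ)) ::
    (List.finRange 5).map fun j => BF.all (.atom .lt (a j.succ) (b j.succ) ::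
      ((List.finRange 5).filter fun j' => j < j').map fun j' =>
        .atom .eq (a j'.succ) (b j'.succ)))

/-- edges of order vertices and gadget vertices -/
def ordF (g : Bool) (a b : Fin 6 → Fin 2 × Fin m) : BF m (Sy m) :=
  .and (vldF b) (.or (.atom (.ordLt g) (a 0) (b 0))
    (.and (.atom (.ordEq g) (a 0) (b 0)) (leF a b)))

/-- The adjacency formula. -/
noncomputable def adjF (g : Bool) (a b : Fin 6 → Fin 2 × Fin m) : BF m (Sy m) :=
  BF.any [gadF g a b, ordF g a b, ordF g b a,
    .and (.atom .ordOrd (a 0) (b 0))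
      (.not (BF.all ((List.finRange 6).map fun j => .atom .eq (a j) (b j))))]

end

/-- the rank of a view -/
def viewRank {p : ℕ} (u : Fin 5 → ZMod p) : ℕ := numOf u

section
variable {m : ℕ} (S : Shape m) {B D : ℕ} (cidx : Cls (m + 1) S.Rule B → ℕ) {p : ℕ} 
  (hp : Nat.card (Sy m) < p) (code : Lab (m + 1) S.Rule B D → ZMod p)
  (n : ℕ) (T : Set (ZMod p × ZMod p × ZMod p))
  (hT : T = table S cidx code n)

include hp hT in
/-- the meaning of an atom -/
theorem atom_eval (z : Fin m → Fin 2 → ZMod p) (y : Sy m) (d₁ d₂ : Fin 2 × Fin m) :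
    (BF.atom y d₁ d₂).eval syNum T z ↔ tb S cidx code n y (z d₁.2 d₁.1) (z d₂.2 d₂.1) := by
  simp only [BF.eval, hT, table, Set.mem_ofPred_eq]
  constructor
  · rintro ⟨y', hy', h⟩
    rw [syNum_inj hp hy']
    exact h
  · intro h
    exact ⟨y, rfl, h⟩

end

end Vale.Agent.P310
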