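import Vale.Agent.Lib.P310.Horn

/-!
# P310: nodes and wires, elementary facts (module EXT-A)
-/

namespace Vale.Agent.P310

theorem wireGen_self {R : Type} {B : ℕ} (a : R × Slot B) : wireGen a a = 1 := by
  classical
  unfold wireGen
  exact Pi.single_eq_same a 1

theorem wireGen_of_ne {R : Type} {B : ℕ} {a b : R × Slot B} (hab : b ≠ a) : wireGen a b = 0 := by
  classical
  unfold wireGen
  exact Pi.single_eq_of_ne hab 1

theorem wireGen_inj {R : Type} {B : ℕ} {a b : R × Slot B} (he : wireGen a = wireGen b) :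
    a = b := by
  by_contra hne
  have h1 := congrFun he a
  rw [wireGen_self, wireGen_of_ne hne] at h1
  exact absurd h1 (by decide)

theorem wireGen_sidon {R : Type} {B : ℕ} (a b c d : R × Slot B) (hab : a ≠ b)
    (he : wireGen a - wireGen b = wireGen c - wireGen d) : a = c ∧ b = d := by
  have h1 := congrFun he a
  simp only [Pi.sub_apply] at h1
  rw [wireGen_self, wireGen_of_ne hab] at h1
  have hac : a = c := by
    by_contra hne
    rw [wireGen_of_ne hne] at h1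
    by_cases had : a = d
    · rw [had, wireGen_self] at h1
      exact absurd h1 (by decide)
    · rw [wireGen_of_ne had] at h1
      exact absurd h1 (by decide)
  refine ⟨hac, ?_⟩
  rw [hac] at he
  exact wireGen_inj (sub_right_injective he)

variable {M : ℕ} {X : Type} [AddCommGroup X] {h : Horn M X} {B : ℕ}

/-- in a rule node, the slot is determined by the wire label -/
theorem slotVar_inj (i : Fin M) (ρ : h.Rule) (γ : Wire h.Rule B) (u : X) :
    Function.Injective (slotVar (B := B) i ρ γ u) := by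
  intro s s' he
  unfold slotVar at he
  rw [Prod.mk.injEq, Prod.mk.injEq, Prod.mk.injEq] at he
  have h1 := wireGen_inj (add_left_cancel he.2.2.1)
  rw [Prod.mk.injEq] at h1
  exact h1.2

/-- (L1) -/
theorem vars_unique (y : Node h B) {i : Fin M} {P : h.Pred} {γ : Wire h.Rule B} {u u' : X}
    (h1 : (i, P, γ, u) ∈ y.vars) (h2 : (i, P, γ, u') ∈ y.vars) : u = u' := by
  cases y with
  | rule i₀ ρ γ₀ u₀ =>
    obtain ⟨s, hs⟩ := h1
    obtain ⟨s', hs'⟩ := h2
    unfold slotVar at hs hs'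
    rw [Prod.mk.injEq, Prod.mk.injEq, Prod.mk.injEq] at hs hs'
    obtain ⟨a1, a2, a3, a4⟩ := hs
    obtain ⟨b1, b2, b3, b4⟩ := hs'
    rw [a3] at b3
    have h3 := wireGen_inj (add_left_cancel b3)
    rw [Prod.mk.injEq] at h3
    rw [a4, b4, h3.2]
  | ax γ₀ =>
    obtain ⟨j, hj⟩ := h1
    obtain ⟨j', hj'⟩ := h2
    rw [Prod.mk.injEq, Prod.mk.injEq, Prod.mk.injEq] at hj hj'
    rw [hj.2.2.2, hj'.2.2.2]
  | goal =>
    obtain ⟨j, hj⟩ := h1
    obtain ⟨j', hj'⟩ := h2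
    rw [Prod.mk.injEq, Prod.mk.injEq, Prod.mk.injEq] at hj hj'
    rw [hj.2.2.2, hj'.2.2.2]

/-- two rule nodes with different (rule, wire label) have at most one (predicate, wire label) of
their variables in common -/
theorem wire_unique {ρ ρ' : h.Rule} {γ γ' : Wire h.Rule B} (hne : (ρ, γ) ≠ (ρ', γ'))
    {s₁ s₂ s₁' s₂' : Slot B}
    (e₁ : γ + wireGen (ρ, s₁) = γ' + wireGen (ρ', s₁'))
    (e₂ : γ + wireGen (ρ, s₂) = γ' + wireGen (ρ', s₂')) : s₁ = s₂ ∧ s₁' = s₂' := by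
  have hd : wireGen (ρ, s₁) - wireGen (ρ, s₂) = wireGen (ρ', s₁') - wireGen (ρ', s₂') := by
    have h1 : wireGen (ρ, s₁) - wireGen (ρ, s₂) =
        (γ + wireGen (ρ, s₁)) - (γ + wireGen (ρ, s₂)) := by abel
    rw [h1, e₁, e₂]
    abel
  have h12 : s₁ = s₂ := by
    by_contra hs
    have h2 := wireGen_sidon (ρ, s₁) (ρ, s₂) (ρ', s₁') (ρ', s₂')
      (fun h3 => hs (Prod.mk.inj h3).2) hd
    obtain ⟨h3, h4⟩ := Prod.mk.inj h2.1
    rw [h3, h4] at e₁
    have h5 := add_right_cancel e₁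
    exact hne (Prod.ext h3 h5)
  refine ⟨h12, ?_⟩
  rw [h12, sub_self] at hd
  have h3 := wireGen_inj (sub_eq_zero.1 hd.symm)
  exact (Prod.mk.inj h3).2

/-- (L2) -/
theorem vars_inter_subsingleton (hP : h.P0 ≠ h.Pg) {y y' : Node h B} (hne : y ≠ y')
    {v w : Var h B} (hv : v ∈ y.vars) (hv' : v ∈ y'.vars) (hw : w ∈ y.vars) (hw' : w ∈ y'.vars)
    (hrule : ∃ i ρ γ u, y = Node.rule i ρ γ u) : v = w := by
  obtain ⟨i, ρ, γ, u, rfl⟩ := hrule
  obtain ⟨s₁, hs₁⟩ := hv
  obtain ⟨s₂, hs₂⟩ := hw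
  cases y' with
  | rule i' ρ' γ' u' =>
    obtain ⟨s₁', hs₁'⟩ := hv'
    obtain ⟨s₂', hs₂'⟩ := hw'
    have f1 := hs₁.symm.trans hs₁'
    have f2 := hs₂.symm.trans hs₂'
    unfold slotVar at f1 f2
    rw [Prod.mk.injEq, Prod.mk.injEq, Prod.mk.injEq] at f1 f2
    by_cases hρ : (ρ, γ) = (ρ', γ')
    · exfalso
      obtain ⟨hρ1, hρ2⟩ := Prod.mk.inj hρ
      subst hρ1
      subst hρ2
      have h3 := (Prod.mk.inj (wireGen_inj (add_left_cancel f1.2.2.1))).2
      have h4 := f1.2.2.2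
      have h5 := f1.1
      subst h5
      rw [h3] at h4
      have h6 := add_right_cancel h4
      rw [h6] at hne
      exact hne rfl
    · have h3 := (wire_unique hρ f1.2.2.1 f2.2.2.1).1
      rw [hs₁, hs₂, h3]
  | ax γ' =>
    obtain ⟨j, hj⟩ := hv'
    obtain ⟨j', hj'⟩ := hw'
    have f1 := hs₁.symm.trans hj
    have f2 := hs₂.symm.trans hj'
    unfold slotVar at f1 f2
    rw [Prod.mk.injEq] at f1 f2
    rw [hj, hj', ← f1.1, ← f2.1]
  | goal =>
    obtain ⟨j, hj⟩ := hv'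
    obtain ⟨j', hj'⟩ := hw'
    have f1 := hs₁.symm.trans hj
    have f2 := hs₂.symm.trans hj'
    unfold slotVar at f1 f2
    rw [Prod.mk.injEq] at f1 f2
    rw [hj, hj', ← f1.1, ← f2.1]

end Vale.Agent.P310
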