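import Vale.Agent.Lib.P310.AdjVld
import Vale.Agent.Lib.P310.ExtA

/-!
# P310: gadget edges as a formula (module ADJ-GAD)
-/

namespace Vale.Agent.P310

private theorem addr_intCast {m p : ℕ} (x : Fin m → Fin 5 → ℤ) (i : Fin (m + 1)) (r : Fin 5) :
    addr (fun i r => (x i r : ZMod p)) i r = ((addr x i r : ℤ) : ZMod p) := by
  unfold addr
  refine Fin.lastCases ?_ (fun i => ?_) i
  · simp [Fin.snoc_last]
  · simp [Fin.snoc_castSucc]

private theorem abs_addr_le {m : ℕ} (x : Fin m → Fin 5 → ℤ) (hx : ∀ i r, x i r = 0 ∨ x i r = 1)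
    (i : Fin (m + 1)) (r : Fin 5) : |addr x i r| ≤ m := by
  unfold addr
  refine Fin.lastCases ?_ (fun i => ?_) i
  · simp only [Fin.snoc_last, Pi.neg_apply, Finset.sum_apply, abs_neg]
    refine (Finset.abs_sum_le_sum_abs _ _).trans ?_
    refine (Finset.sum_le_card_nsmul _ _ 1 fun i _ => ?_).trans ?_
    · rcases hx i r with h | h <;> simp [h]
    · simp
  · simp only [Fin.snoc_castSucc]
    have hm : 1 ≤ m := Nat.succ_le_of_lt (Nat.zero_lt_of_lt i.2)
    have hm' : (1 : ℤ) ≤ m := by exact_mod_cast hm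
    rcases hx i r with h | h
    · rw [h]; simp
    · rw [h]; simp; omega

private theorem exists_pattern {m : ℕ} (d : Fin 5 → ℤ) (hd : ∀ j, |d j| ≤ 2 * m) :
    ∃ π : Fin 5 → Fin (4 * m + 1), ∀ j, ((π j : ℕ) : ℤ) - 2 * m = d j := by
  have h1 : ∀ j, 0 ≤ d j + 2 * m ∧ d j + 2 * m ≤ 4 * m := fun j => by
    have := abs_le.mp (hd j)
    omega
  refine ⟨fun j => ⟨(d j + 2 * m).toNat, ?_⟩, fun j => ?_⟩
  · have := h1 j
    omega
  · have := h1 j
    simp only
    omega

private theorem quad_eq {α₁ α₂ α₃ α₄ : Type} {a a' : α₁} {b b' : α₂} {c c' : α₃} {d d' : α₄}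
    (h : (a, b, c, d) = (a', b', c', d')) : a = a' ∧ b = b' ∧ c = c' ∧ d = d' := by
  simpa using h

private theorem pattern_cast {m p : ℕ} {c : ℕ} {d : ℤ} (h : ((c : ℕ) : ℤ) - 2 * m = d) :
    ((c : ℕ) : ZMod p) - ((2 * m : ℕ) : ZMod p) = (d : ZMod p) := by
  rw [← h]
  push_cast
  ring

section
variable {m : ℕ} (S : Shape m) {B D : ℕ} {p : ℕ} (T : Set (ZMod p × ZMod p × ZMod p))

private theorem shift_eq (ρ : S.Rule) (j : Fin 3) (i : Fin (m + 1)) (r : Fin 5) :
    (S.toHorn p T).shift ρ j i r = ((addr (S.ish ρ j) i r : ℤ) : ZMod p) :=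
  addr_intCast _ _ _

private theorem abs_ish_le (ρ : S.Rule) (j : Fin 3) (i : Fin (m + 1)) (r : Fin 5) :
    |addr (S.ish ρ j) i r| ≤ m :=
  abs_addr_le _ (S.ish_bdd ρ j) i r

private theorem wireGen_inj_gad {R : Type} {B : ℕ} {a b : R × Slot B}
    (h : (wireGen a : Wire R B) = wireGen b) : a = b := by
  classical
  by_contra hab
  have h1 := congrFun h a
  unfold wireGen at h1
  rw [Pi.single_eq_same, Pi.single_eq_of_ne hab] at h1
  exact absurd h1 (by decide)

/-- sharing of a variable in terms of labels and differences of views -/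
private theorem share_iff (hP : S.P0 ≠ S.Pg) (g : Bool) (l l' : Lab (m + 1) S.Rule B D)
    (u u' : Fin 5 → ZMod p) (hv : l.Valid (S.toHorn p T) g u)
    (hv' : l'.Valid (S.toHorn p T) g u') :
    (∃ π : Fin 5 → Fin (4 * m + 1), LRel S π l l' ∧
      ∀ j, u' j = u j + ((π j : ℕ) : ZMod p) - ((2 * m : ℕ) : ZMod p)) ↔
    (l.node (S.toHorn p T) u ≠ l'.node (S.toHorn p T) u' ∧
      ∃ v c, l.Holds (S.toHorn p T) u v c ∧ l'.Holds (S.toHorn p T) u' v c) := by
  have hm0 : (0 : ℤ) ≤ m := by positivity
  cases l with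
  | rule i ρ γ α =>
    cases l' with
    | rule i' ρ' γ' α' =>
      constructor
      · rintro ⟨π, ⟨rfl, s, s', hne, hpred, hwire, hα, hπ⟩, hu⟩
        refine ⟨?_, slotVar i ρ γ u s, α s, ⟨s, rfl, rfl⟩, ⟨s', ?_, hα.symm⟩⟩
        · intro h
          simp only [Lab.node, Option.some.injEq] at h
          obtain ⟨-, rfl, rfl, -⟩ := h
          apply hne
          exact wireGen_inj_gad (add_left_cancel hwire)
        · unfold slotVar
          refine Prod.ext rfl (Prod.ext hpred (Prod.ext hwire ?_))
          funext j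
          simp only [Pi.add_apply]
          rw [shift_eq, shift_eq, hu j, add_sub_assoc, pattern_cast (hπ j)]
          push_cast
          ring
      · rintro ⟨hnode, v, c, ⟨s, hs, hc⟩, ⟨s', hs', hc'⟩⟩
        rw [hs] at hs'
        unfold slotVar at hs'
        obtain ⟨rfl, hpred, hwire, hview⟩ := quad_eq hs'
        obtain ⟨π, hπ⟩ := exists_pattern (m := m)
          (fun j => addr (S.ish ρ s.part) i j - addr (S.ish ρ' s'.part) i j) (fun j => by
            have h1 := abs_le.mp (abs_ish_le S ρ s.part i j)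
            have h2 := abs_le.mp (abs_ish_le S ρ' s'.part i j)
            rw [abs_le]
            constructor <;> linarith)
        refine ⟨π, ⟨rfl, s, s', ?_, hpred, hwire, by rw [hc, hc'], hπ⟩, ?_⟩
        · intro h
          obtain ⟨rfl, rfl⟩ := Prod.mk.inj h
          apply hnode
          have hγ : γ = γ' := by
            funext w
            have hw := congrFun hwire w
            exact add_right_cancel (G := ZMod 3) hw
          have huu : u = u' := add_right_cancel hview
          rw [hγ, huu]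
          rfl
        · intro j
          have h3 := congrFun hview j
          simp only [Pi.add_apply] at h3
          rw [shift_eq, shift_eq] at h3
          rw [add_sub_assoc, pattern_cast (hπ j)]
          push_cast
          linear_combination -h3
    | ax γ' α' =>
      obtain ⟨hu0, -⟩ := hv'
      constructor
      · rintro ⟨π, ⟨s, hpred, hwire, hα, hπ⟩, hu⟩
        refine ⟨by simp [Lab.node], slotVar i ρ γ u s, α s, ⟨s, rfl, rfl⟩, ⟨i, ?_, hα.symm⟩⟩
        unfold slotVar
        refine Prod.ext rfl (Prod.ext hpred (Prod.ext hwire ?_))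
        funext j
        simp only [Pi.add_apply, Pi.zero_apply]
        have h3 := hu j
        rw [hu0, add_sub_assoc, pattern_cast (hπ j)] at h3
        rw [shift_eq]
        simpa using h3.symm
      · rintro ⟨hnode, v, c, ⟨s, hs, hc⟩, ⟨i', hi', hc'⟩⟩
        rw [hs] at hi'
        unfold slotVar at hi'
        obtain ⟨rfl, hpred, hwire, hview⟩ := quad_eq hi'
        obtain ⟨π, hπ⟩ := exists_pattern (m := m)
          (fun j => addr (S.ish ρ s.part) i j) (fun j => by
            have h1 := abs_ish_le S ρ s.part i j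
            linarith)
        refine ⟨π, ⟨s, hpred, hwire, by rw [hc, hc'], hπ⟩, ?_⟩
        intro j
        have h3 := congrFun hview j
        simp only [Pi.add_apply, Pi.zero_apply] at h3
        rw [shift_eq] at h3
        rw [add_sub_assoc, pattern_cast (hπ j), hu0]
        exact h3.symm
    | goal α' =>
      obtain ⟨hu0, -⟩ := hv'
      constructor
      · rintro ⟨π, ⟨s, hpred, hwire, hα, hπ⟩, hu⟩
        refine ⟨by simp [Lab.node], slotVar i ρ γ u s, α s, ⟨s, rfl, rfl⟩, ⟨i, ?_, hα.symm⟩⟩
        unfold slotVar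
        refine Prod.ext rfl (Prod.ext hpred (Prod.ext hwire ?_))
        funext j
        simp only [Pi.add_apply, Pi.zero_apply]
        have h3 := hu j
        rw [hu0, add_sub_assoc, pattern_cast (hπ j)] at h3
        rw [shift_eq]
        simpa using h3.symm
      · rintro ⟨hnode, v, c, ⟨s, hs, hc⟩, ⟨i', hi', hc'⟩⟩
        rw [hs] at hi'
        unfold slotVar at hi'
        obtain ⟨rfl, hpred, hwire, hview⟩ := quad_eq hi'
        obtain ⟨π, hπ⟩ := exists_pattern (m := m)
          (fun j => addr (S.ish ρ s.part) i j) (fun j => by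
            have h1 := abs_ish_le S ρ s.part i j
            linarith)
        refine ⟨π, ⟨s, hpred, hwire, by rw [hc, hc'], hπ⟩, ?_⟩
        intro j
        have h3 := congrFun hview j
        simp only [Pi.add_apply, Pi.zero_apply] at h3
        rw [shift_eq] at h3
        rw [add_sub_assoc, pattern_cast (hπ j), hu0]
        exact h3.symm
    | ord c e => exact hv'.elim
    | hub e => exact hv'.elim
  | ax γ α =>
    obtain ⟨hu0, -⟩ := hv
    cases l' with
    | rule i ρ γ' α' =>
      constructor
      · rintro ⟨π, ⟨s, hpred, hwire, hα, hπ⟩, hu⟩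
        refine ⟨by simp [Lab.node], slotVar i ρ γ' u' s, α' s, ⟨i, ?_, hα.symm⟩, ⟨s, rfl, rfl⟩⟩
        unfold slotVar
        refine Prod.ext rfl (Prod.ext hpred (Prod.ext hwire ?_))
        funext j
        simp only [Pi.add_apply, Pi.zero_apply]
        have h3 := hu j
        rw [hu0, add_sub_assoc, pattern_cast (hπ j)] at h3
        rw [shift_eq, h3]
        simp
      · rintro ⟨hnode, v, c, ⟨i', hi', hc'⟩, ⟨s, hs, hc⟩⟩
        rw [hs] at hi'
        unfold slotVar at hi'
        obtain ⟨rfl, hpred, hwire, hview⟩ := quad_eq hi'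
        obtain ⟨π, hπ⟩ := exists_pattern (m := m)
          (fun j => - addr (S.ish ρ s.part) i j) (fun j => by
            have h1 := abs_ish_le S ρ s.part i j
            rw [abs_neg]
            linarith)
        refine ⟨π, ⟨s, hpred, hwire, by rw [hc, hc'], hπ⟩, ?_⟩
        intro j
        have h3 := congrFun hview j
        simp only [Pi.add_apply, Pi.zero_apply] at h3
        rw [shift_eq] at h3
        rw [add_sub_assoc, pattern_cast (hπ j), hu0]
        push_cast
        simp only [Pi.zero_apply]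
        linear_combination h3
    | ax γ' α' =>
      obtain ⟨hu0', -⟩ := hv'
      constructor
      · rintro ⟨π, h, -⟩
        exact h.elim
      · rintro ⟨hnode, v, c, ⟨i, hi, -⟩, ⟨i', hi', -⟩⟩
        rw [hi] at hi'
        obtain ⟨-, -, rfl, -⟩ := quad_eq hi'
        exact absurd rfl hnode
    | goal α' =>
      constructor
      · rintro ⟨π, h, -⟩
        exact h.elim
      · rintro ⟨hnode, v, c, ⟨i, hi, -⟩, ⟨i', hi', -⟩⟩
        rw [hi] at hi'
        exact absurd (quad_eq hi').2.1 hP
    | ord c e => exact hv'.elim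
    | hub e => exact hv'.elim
  | goal α =>
    obtain ⟨hu0, -⟩ := hv
    cases l' with
    | rule i ρ γ' α' =>
      constructor
      · rintro ⟨π, ⟨s, hpred, hwire, hα, hπ⟩, hu⟩
        refine ⟨by simp [Lab.node], slotVar i ρ γ' u' s, α' s, ⟨i, ?_, hα.symm⟩, ⟨s, rfl, rfl⟩⟩
        unfold slotVar
        refine Prod.ext rfl (Prod.ext hpred (Prod.ext hwire ?_))
        funext j
        simp only [Pi.add_apply, Pi.zero_apply]
        have h3 := hu j
        rw [hu0, add_sub_assoc, pattern_cast (hπ j)] at h3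
        rw [shift_eq, h3]
        simp
      · rintro ⟨hnode, v, c, ⟨i', hi', hc'⟩, ⟨s, hs, hc⟩⟩
        rw [hs] at hi'
        unfold slotVar at hi'
        obtain ⟨rfl, hpred, hwire, hview⟩ := quad_eq hi'
        obtain ⟨π, hπ⟩ := exists_pattern (m := m)
          (fun j => - addr (S.ish ρ s.part) i j) (fun j => by
            have h1 := abs_ish_le S ρ s.part i j
            rw [abs_neg]
            linarith)
        refine ⟨π, ⟨s, hpred, hwire, by rw [hc, hc'], hπ⟩, ?_⟩
        intro j
        have h3 := congrFun hview j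
        simp only [Pi.add_apply, Pi.zero_apply] at h3
        rw [shift_eq] at h3
        rw [add_sub_assoc, pattern_cast (hπ j), hu0]
        push_cast
        simp only [Pi.zero_apply]
        linear_combination h3
    | ax γ' α' =>
      constructor
      · rintro ⟨π, h, -⟩
        exact h.elim
      · rintro ⟨hnode, v, c, ⟨i, hi, -⟩, ⟨i', hi', -⟩⟩
        rw [hi] at hi'
        exact absurd (quad_eq hi').2.1 hP.symm
    | goal α' =>
      constructor
      · rintro ⟨π, h, -⟩
        exact h.elim
      · rintro ⟨hnode, -⟩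
        exact absurd rfl hnode
    | ord c e => exact hv'.elim
    | hub e => exact hv'.elim
  | ord c e => exact hv.elim
  | hub e => exact hv.elim

end

section
variable {m : ℕ} (S : Shape m) {B D : ℕ} (cidx : Cls (m + 1) S.Rule B → ℕ) {p : ℕ} [NeZero p]
  (hp : Nat.card (Sy m) < p) (code : Lab (m + 1) S.Rule B D → ZMod p)
  (hcode : Function.Injective code) (n : ℕ) (T : Set (ZMod p × ZMod p × ZMod p))
  (hT : T = table S cidx code n)

include hp hT hcode in
theorem gadF_eval (hP : S.P0 ≠ S.Pg) (z : Fin m → Fin 2 → ZMod p) (g : Bool)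
    (a b : Fin 6 → Fin 2 × Fin m) (l l' : Lab (m + 1) S.Rule B D)
    (hl : code l = z (a 0).2 (a 0).1) (hl' : code l' = z (b 0).2 (b 0).1) :
    (gadF g a b).eval syNum T z ↔
      GadAdj (S.toHorn p T) g l (fun j => z (a j.succ).2 (a j.succ).1)
        l' (fun j => z (b j.succ).2 (b j.succ).1) := by
  have hva := vldF_eval S cidx hp code hcode n T hT z g a l hl
  have hvb := vldF_eval S cidx hp code hcode n T hT z g b l' hl'
  have hmid : (gadF g a b).eval syNum T z ↔ (vldF a).eval syNum T z ∧ (vldF b).eval syNum T z ∧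
      ∃ π : Fin 5 → Fin (4 * m + 1), (LPar S g l ∧ LPar S g l' ∧ LRel S π l l') ∧
        ∀ j : Fin 5, z (b j.succ).2 (b j.succ).1 = z (a j.succ).2 (a j.succ).1 +
          ((π j : ℕ) : ZMod p) - ((2 * m : ℕ) : ZMod p) := by
    unfold gadF
    rw [BF.eval_all]
    simp only [List.mem_cons, List.not_mem_nil, or_false, forall_eq_or_imp, forall_eq]
    refine and_congr_right fun _ => and_congr_right fun _ => ?_
    rw [BF.eval_any]
    simp only [List.mem_map, exists_exists_and_eq_and]
    constructor
    · rintro ⟨π, -, h⟩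
      rw [BF.eval_all] at h
      refine ⟨π, ?_, fun j => ?_⟩
      · have h1 := h (.atom (.rel g π) (a 0) (b 0)) (List.mem_cons_self ..)
        rw [atom_eval S cidx hp code n T hT] at h1
        obtain ⟨l₁, l₁', e1, e2, h2⟩ := h1
        have e3 : l₁ = l := hcode (e1.trans hl.symm)
        have e4 : l₁' = l' := hcode (e2.trans hl'.symm)
        rw [e3, e4] at h2
        exact h2
      · have h1 := h (.atom (.sh (π j)) (a j.succ) (b j.succ))
          (List.mem_cons_of_mem _ (List.mem_map.mpr ⟨j, List.mem_finRange j, rfl⟩))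
        rw [atom_eval S cidx hp code n T hT] at h1
        exact h1
    · rintro ⟨π, h1, h2⟩
      refine ⟨π, by simp [patterns], ?_⟩
      rw [BF.eval_all]
      intro φ hφ
      rcases List.mem_cons.mp hφ with rfl | hφ
      · rw [atom_eval S cidx hp code n T hT]
        exact ⟨l, l', hl, hl', h1⟩
      · obtain ⟨j, -, rfl⟩ := List.mem_map.mp hφ
        rw [atom_eval S cidx hp code n T hT]
        exact h2 j
  rw [hmid]
  unfold GadAdj
  constructor
  · rintro ⟨h1, h2, π, ⟨h3, h4, h5⟩, h6⟩
    have hv := hva.mp ⟨h1, h3⟩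
    have hv' := hvb.mp ⟨h2, h4⟩
    exact ⟨hv, hv', (share_iff S T hP g l l' _ _ hv hv').mp ⟨π, h5, h6⟩⟩
  · rintro ⟨hv, hv', h⟩
    obtain ⟨π, h5, h6⟩ := (share_iff S T hP g l l' _ _ hv hv').mpr h
    obtain ⟨h1, h3⟩ := hva.mpr hv
    obtain ⟨h2, h4⟩ := hvb.mpr hv'
    exact ⟨h1, h2, π, ⟨h3, h4, h5⟩, h6⟩

end

end Vale.Agent.P310
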