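import Vale.Agent.Lib.P310.AdjOrd
import Vale.Agent.Lib.P310.AdjGad

/-!
# P310: the adjacency formula (module ADJ-FORM)
-/

namespace Vale.Agent.P310

section
variable {m : ℕ} (S : Shape m) {B D : ℕ} (cidx : Cls (m + 1) S.Rule B → ℕ) {p : ℕ} [NeZero p]
  (hp : Nat.card (Sy m) < p) (code : Lab (m + 1) S.Rule B D → ZMod p)
  (hcode : Function.Injective code) (n : ℕ) (T : Set (ZMod p × ZMod p × ZMod p))
  (hT : T = table S cidx code n)

include hp hT hcode in
/-- The adjacency formula is correct. -/
theorem adjF_eval (hP : S.P0 ≠ S.Pg) (z : Fin m → Fin 2 → ZMod p) (g : Bool)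
    (a b : Fin 6 → Fin 2 × Fin m) (l l' : Lab (m + 1) S.Rule B D)
    (hl : code l = z (a 0).2 (a 0).1) (hl' : code l' = z (b 0).2 (b 0).1) :
    (adjF g a b).eval syNum T z ↔
      PairAdj (S.toHorn p T) cidx viewRank g l (fun j => z (a j.succ).2 (a j.succ).1)
        l' (fun j => z (b j.succ).2 (b j.succ).1) := by
  have h1 := gadF_eval S cidx hp code hcode n T hT hP z g a b l l' hl hl'
  have h2 := ordF_eval S cidx hp code hcode n T hT z g a b l l' hl hl'
  have h3 := ordF_eval S cidx hp code hcode n T hT z g b a l' l hl' hl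
  have h4 : (BF.and (.atom (Sy.ordOrd : Sy m) (a 0) (b 0))
      (.not (BF.all ((List.finRange 6).map fun j => .atom (Sy.eq : Sy m) (a j) (b j))))).eval syNum T z ↔
      (l.IsOrd ∧ l'.IsOrd ∧ (l, (fun j => z (a j.succ).2 (a j.succ).1 : Fin 5 → ZMod p)) ≠
        (l', (fun j => z (b j.succ).2 (b j.succ).1 : Fin 5 → ZMod p))) := by
    have ha1 : (BF.atom (Sy.ordOrd : Sy m) (a 0) (b 0)).eval syNum T z ↔ (l.IsOrd ∧ l'.IsOrd) := by
      rw [atom_eval S cidx hp code n T hT]
      simp only [tb]
      constructor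
      · rintro ⟨l1, l2, e1, e2, o1, o2⟩
        rw [← hl] at e1
        rw [← hl'] at e2
        rw [hcode e1] at o1
        rw [hcode e2] at o2
        exact ⟨o1, o2⟩
      · rintro ⟨o1, o2⟩
        exact ⟨l, l', hl, hl', o1, o2⟩
    have ha2 : (BF.all ((List.finRange 6).map fun j => BF.atom (Sy.eq : Sy m) (a j) (b j))).eval syNum T z ↔
        ((l, (fun j => z (a j.succ).2 (a j.succ).1 : Fin 5 → ZMod p)) =
          (l', (fun j => z (b j.succ).2 (b j.succ).1 : Fin 5 → ZMod p))) := by
      rw [BF.eval_all]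
      constructor
      · intro h
        have h' : ∀ j : Fin 6, z (a j).2 (a j).1 = z (b j).2 (b j).1 := by
          intro j
          have := h (BF.atom (Sy.eq : Sy m) (a j) (b j)) (List.mem_map.2 ⟨j, List.mem_finRange j, rfl⟩)
          rw [atom_eval S cidx hp code n T hT] at this
          exact this
        refine Prod.ext ?_ ?_
        · exact hcode (by rw [hl, hl', h' 0])
        · funext j
          exact h' j.succ
      · intro h φ hφ
        obtain ⟨j, -, rfl⟩ := List.mem_map.1 hφ
        rw [atom_eval S cidx hp code n T hT]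
        show z (a j).2 (a j).1 = z (b j).2 (b j).1
        obtain ⟨e1, e2⟩ := Prod.mk.inj h
        refine Fin.cases ?_ (fun i => ?_) j
        · rw [← hl, ← hl', e1]
        · exact congrFun e2 i
    simp only [BF.eval]
    have ha1' := ha1
    simp only [BF.eval] at ha1'
    rw [ha1', ha2]
    tauto
  simp only [adjF, BF.eval_any, List.mem_cons, List.not_mem_nil, or_false, exists_eq_or_imp,
    exists_eq_left]
  rw [h1, h2, h3, h4]
  rfl

end

end Vale.Agent.P310
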