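import Vale.Agent.Lib.P310.AdjVld

/-!
# P310: order edges as a formula (module ADJ-ORD)
-/

namespace Vale.Agent.P310

section
variable {m : ℕ} (S : Shape m) {B D : ℕ} (cidx : Cls (m + 1) S.Rule B → ℕ) {p : ℕ} [NeZero p]
  (hp : Nat.card (Sy m) < p) (code : Lab (m + 1) S.Rule B D → ZMod p)
  (hcode : Function.Injective code) (n : ℕ) (T : Set (ZMod p × ZMod p × ZMod p))
  (hT : T = table S cidx code n)

include hp hT in
theorem leF_eval (z : Fin m → Fin 2 → ZMod p) (a b : Fin 6 → Fin 2 × Fin m) :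
    (leF a b).eval syNum T z ↔
      viewRank (fun j => z (a j.succ).2 (a j.succ).1) ≤
        viewRank (fun j => z (b j.succ).2 (b j.succ).1) := by
  have hA := atom_eval S cidx hp code n T hT z
  have h1 : (leF a b).eval syNum T z ↔
      (∀ j : Fin 5, z (a j.succ).2 (a j.succ).1 = z (b j.succ).2 (b j.succ).1) ∨
      ∃ j : Fin 5, (z (a j.succ).2 (a j.succ).1).val < (z (b j.succ).2 (b j.succ).1).val ∧
        ∀ i : Fin 5, j < i → z (a i.succ).2 (a i.succ).1 = z (b i.succ).2 (b i.succ).1 := by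
    unfold leF
    rw [BF.eval_any]
    constructor
    · rintro ⟨φ, hφ, hev⟩
      rw [List.mem_cons] at hφ
      rcases hφ with rfl | hφ
      · left
        rw [BF.eval_all] at hev
        intro j
        exact (hA .eq (a j.succ) (b j.succ)).mp
          (hev _ (List.mem_map.mpr ⟨j, List.mem_finRange j, rfl⟩))
      · right
        obtain ⟨j, _, rfl⟩ := List.mem_map.mp hφ
        rw [BF.eval_all] at hev
        refine ⟨j, (hA .lt (a j.succ) (b j.succ)).mp (hev _ (List.mem_cons_self ..)), ?_⟩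
        intro i hi
        exact (hA .eq (a i.succ) (b i.succ)).mp (hev _ (List.mem_cons_of_mem _
          (List.mem_map.mpr ⟨i, List.mem_filter.mpr ⟨List.mem_finRange i, by simpa using hi⟩,
            rfl⟩)))
    · rintro (h | ⟨j, hj, h⟩)
      · refine ⟨_, List.mem_cons_self .., ?_⟩
        rw [BF.eval_all]
        intro φ hφ
        obtain ⟨j, _, rfl⟩ := List.mem_map.mp hφ
        exact (hA .eq (a j.succ) (b j.succ)).mpr (h j)
      · refine ⟨_, List.mem_cons_of_mem _ (List.mem_map.mpr ⟨j, List.mem_finRange j, rfl⟩), ?_⟩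
        rw [BF.eval_all]
        intro φ hφ
        rcases List.mem_cons.mp hφ with rfl | hφ
        · exact (hA .lt (a j.succ) (b j.succ)).mpr hj
        · obtain ⟨i, hi, rfl⟩ := List.mem_map.mp hφ
          exact (hA .eq (a i.succ) (b i.succ)).mpr
            (h i (by simpa using (List.mem_filter.mp hi).2))
  rw [h1]
  unfold viewRank
  rw [le_iff_lt_or_eq, numOf_lt_iff, or_comm]
  refine or_congr Iff.rfl ⟨fun h => ?_, fun h => ?_⟩
  · congr 1
    funext j
    exact h j
  · exact fun j => congrFun (numOf_injective h) j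

include hp hT hcode in
theorem ordF_eval (z : Fin m → Fin 2 → ZMod p) (g : Bool)
    (a b : Fin 6 → Fin 2 × Fin m) (l l' : Lab (m + 1) S.Rule B D)
    (hl : code l = z (a 0).2 (a 0).1) (hl' : code l' = z (b 0).2 (b 0).1) :
    (ordF g a b).eval syNum T z ↔
      OrdAdj (S.toHorn p T) cidx viewRank g l (fun j => z (a j.succ).2 (a j.succ).1)
        l' (fun j => z (b j.succ).2 (b j.succ).1) := by
  have hA := atom_eval S cidx hp code n T hT z
  have hV := vldF_eval S cidx hp code hcode n T hT z g b l' hl'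
  have hL := leF_eval S cidx hp code n T hT z a b
  constructor
  · rintro ⟨h1, h2⟩
    rcases h2 with h2 | ⟨h2, h3⟩
    · obtain ⟨c, e, l₁, c', e1, e2, e3, e4, e5⟩ := (hA (.ordLt g) (a 0) (b 0)).mp h2
      have f1 : Lab.ord c e = l := hcode (e1.trans hl.symm)
      have f2 : l₁ = l' := hcode (e2.trans hl'.symm)
      subst f2
      exact ⟨c, e, c', f1.symm, hV.mp ⟨h1, e3⟩, e4, Or.inl e5⟩
    · obtain ⟨c, e, l₁, e1, e2, e3, e4⟩ := (hA (.ordEq g) (a 0) (b 0)).mp h2
      have f1 : Lab.ord c e = l := hcode (e1.trans hl.symm)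
      have f2 : l₁ = l' := hcode (e2.trans hl'.symm)
      subst f2
      exact ⟨c, e, c, f1.symm, hV.mp ⟨h1, e3⟩, e4, Or.inr ⟨rfl, hL.mp h3⟩⟩
  · rintro ⟨c, e, c', h1, h2, h3, h4⟩
    obtain ⟨k1, k2⟩ := hV.mpr h2
    refine ⟨k1, ?_⟩
    rcases h4 with h4 | ⟨rfl, h4⟩
    · left
      exact (hA (.ordLt g) (a 0) (b 0)).mpr ⟨c, e, l', c', h1 ▸ hl, hl', k2, h3, h4⟩
    · right
      exact ⟨(hA (.ordEq g) (a 0) (b 0)).mpr ⟨c, e, l', h1 ▸ hl, hl', k2, h3⟩, hL.mpr h4⟩

end

end Vale.Agent.P310
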