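import Vale.Agent.Lib.P310.AdjDefs

/-!
# P310: existence of vertices as a formula (module ADJ-VLD)
-/

namespace Vale.Agent.P310

section
variable {m : ℕ} (S : Shape m) {B D : ℕ} (cidx : Cls (m + 1) S.Rule B → ℕ) {p : ℕ} [NeZero p]
  (hp : Nat.card (Sy m) < p) (code : Lab (m + 1) S.Rule B D → ZMod p)
  (hcode : Function.Injective code) (n : ℕ) (T : Set (ZMod p × ZMod p × ZMod p))
  (hT : T = table S cidx code n)

include hp hT hcode in
/-- the condition on the view and on the parity -/
theorem vldF_eval (z : Fin m → Fin 2 → ZMod p) (g : Bool) (a : Fin 6 → Fin 2 × Fin m)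
    (l : Lab (m + 1) S.Rule B D) (hl : code l = z (a 0).2 (a 0).1) :
    ((vldF a).eval syNum T z ∧ LPar S g l) ↔
      l.Valid (S.toHorn p T) g (fun j => z (a j.succ).2 (a j.succ).1) := by
  have hex : ∀ P : Lab (m + 1) S.Rule B D → Prop,
      (∃ l', code l' = z (a 0).2 (a 0).1 ∧ P l') ↔ P l := by
    intro P
    constructor
    · rintro ⟨l', h1, h2⟩
      rw [← hl] at h1
      rwa [← hcode h1]
    · intro h
      exact ⟨l, hl, h⟩
  have h1 : (BF.atom (Y := Sy m) Sy.plain (a 0) (a 0)).eval syNum T z ↔ LPlain S l := by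
    rw [atom_eval S cidx hp code n T hT]; exact hex _
  have h2 : (BF.atom (Y := Sy m) Sy.tabP (a 0) (a 0)).eval syNum T z ↔ LTab S true l := by
    rw [atom_eval S cidx hp code n T hT]; exact hex _
  have h3 : (BF.atom (Y := Sy m) Sy.tabN (a 0) (a 0)).eval syNum T z ↔ LTab S false l := by
    rw [atom_eval S cidx hp code n T hT]; exact hex _
  have h4 : (BF.atom (Y := Sy m) Sy.wall (a 0) (a 0)).eval syNum T z ↔ LWall S l := by
    rw [atom_eval S cidx hp code n T hT]; exact hex _
  have h5 : (BF.raw (a 3) (a 4) (a 5) : BF m (Sy m)).eval syNum T z ↔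
      (z (a 3).2 (a 3).1, z (a 4).2 (a 4).1, z (a 5).2 (a 5).1) ∈ T := Iff.rfl
  have h6 : (BF.all ((.atom Sy.wall (a 0) (a 0) : BF m (Sy m)) ::
      (List.finRange 5).map fun j => .atom Sy.zero (a j.succ) (a j.succ))).eval syNum T z ↔
      (LWall S l ∧ (fun j : Fin 5 => z (a j.succ).2 (a j.succ).1) = 0) := by
    rw [BF.eval_all]
    simp only [List.mem_cons, List.mem_map, List.mem_finRange, true_and, forall_eq_or_imp, h4]
    refine and_congr Iff.rfl ?_
    constructor
    · intro h
      funext j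
      have := h _ ⟨j, rfl⟩
      rw [atom_eval S cidx hp code n T hT] at this
      exact this
    · rintro h _ ⟨j, rfl⟩
      rw [atom_eval S cidx hp code n T hT]
      exact congrFun h j
  have hev : (vldF a).eval syNum T z ↔ (LPlain S l ∨
      (LTab S true l ∧ (z (a 3).2 (a 3).1, z (a 4).2 (a 4).1, z (a 5).2 (a 5).1) ∈ T) ∨
      (LTab S false l ∧ ¬ (z (a 3).2 (a 3).1, z (a 4).2 (a 4).1, z (a 5).2 (a 5).1) ∈ T) ∨
      (LWall S l ∧ (fun j : Fin 5 => z (a j.succ).2 (a j.succ).1) = 0)) := by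
    unfold vldF
    rw [BF.eval_any]
    simp only [List.mem_cons, List.not_mem_nil, or_false, exists_eq_or_imp, exists_eq_left]
    rw [h1, h6]
    simp only [BF.eval] at h2 h3 h5 ⊢
    rw [h2, h3]
  rw [hev]
  cases l with
  | rule i ρ γ α =>
    simp only [LPlain, LTab, LWall, LPar, Lab.Valid, Shape.toHorn, false_and, or_false]
    refine and_congr ?_ Iff.rfl
    change _ ↔ ∀ b, S.tab ρ = some b → i = 0 →
      ((z (a 3).2 (a 3).1, z (a 4).2 (a 4).1, z (a 5).2 (a 5).1) ∈ T ↔ b = true)
    by_cases hi : i = 0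
    · cases ht : S.tab ρ with
      | none => simp
      | some b => cases b <;> simp [hi]
    · simp [hi]
  | ax γ α =>
    simp [LPlain, LTab, LWall, LPar, Lab.Valid]
  | goal α =>
    simp [LPlain, LTab, LWall, LPar, Lab.Valid]
  | ord c e => simp [LPar, Lab.Valid]
  | hub e => simp [LPar, Lab.Valid]

end

end Vale.Agent.P310
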