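import Vale.Agent.Lib.P310.CompDefs

/-!
# P310: completeness of the compiled system (module COMPCOMPLETE)
-/

set_option linter.unusedSectionVars false

namespace Vale.Agent.P310

namespace Comp

section tools
variable {m : ℕ} {X : Type} [AddCommGroup X]

private theorem cc_addr_zero : addr (0 : Fin m → X) = 0 := by
  funext i
  refine Fin.lastCases ?_ (fun j => ?_) i
  · simp [addr]
  · simp [addr]

private theorem cc_addr_add (x y : Fin m → X) : addr (x + y) = addr x + addr y := by
  funext i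
  refine Fin.lastCases ?_ (fun j => ?_) i
  · simp [addr, Finset.sum_add_distrib]
    abel
  · simp [addr]

private theorem cc_sum_addr (x : Fin m → X) : ∑ i, addr x i = 0 := by
  rw [Fin.sum_univ_castSucc]
  simp [addr]

end tools

section
variable {m : ℕ} {Y : Type} [Finite Y] (C : CShape m Y) (num : Y → ℕ) (hm : 1 ≤ m) (L : ℕ)
  {p : ℕ} (T : Set (ZMod p × ZMod p × ZMod p))

/-- the atom is derivable at the address of the free rows -/
private def Kn (P : Pr C) (x : Fin m → Fin 5 → ZMod p) : Prop :=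
  ((shape C num hm L).toHorn p T).Known P (addr x)

private theorem cc_row_zero (x : Fin m → Fin 5 → ZMod p) : addr x 0 = x ⟨0, hm⟩ := by
  have h : (0 : Fin (m + 1)) = Fin.castSucc ⟨0, hm⟩ := by
    ext
    simp
  rw [h]
  simp only [addr, Fin.snoc_castSucc]

/-- one application of a rule -/
private theorem cc_step (ρ : Ru C L) (x : Fin m → Fin 5 → ZMod p)
    (hc : ∀ b, (shape C num hm L).tab ρ = some b →
      ((x ⟨0, hm⟩ 2, x ⟨0, hm⟩ 3, x ⟨0, hm⟩ 4) ∈ T ↔ b = true))
    (h1 : Kn C num hm L T (pr C num hm ρ).2.1 (x + modp p (sh C hm ρ).2.1))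
    (h2 : Kn C num hm L T (pr C num hm ρ).2.2 (x + modp p (sh C hm ρ).2.2)) :
    Kn C num hm L T (pr C num hm ρ).1 (x + modp p (sh C hm ρ).1) := by
  have key := Horn.Known.rule (h := (shape C num hm L).toHorn p T) ρ (addr x) (cc_sum_addr x)
    (by
      intro i b hb hi
      rw [hi, cc_row_zero hm x]
      exact hc b hb)
    (by
      have := h1
      unfold Kn at this
      rw [cc_addr_add] at this
      exact this)
    (by
      have := h2
      unfold Kn at this
      rw [cc_addr_add] at this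
      exact this)
  unfold Kn
  rw [cc_addr_add]
  exact key

private theorem cc_ax : Kn C num hm L T .p0 (0 : Fin m → Fin 5 → ZMod p) := by
  unfold Kn
  rw [cc_addr_zero]
  exact Horn.Known.ax

/-- rules without shifts and without condition -/
private theorem cc_step0 (ρ : Ru C L) (x : Fin m → Fin 5 → ZMod p)
    (hc : (shape C num hm L).tab ρ = none) (hs : sh C hm ρ = (0, 0, 0))
    (h1 : Kn C num hm L T (pr C num hm ρ).2.1 x)
    (h2 : Kn C num hm L T (pr C num hm ρ).2.2 x) :
    Kn C num hm L T (pr C num hm ρ).1 x := by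
  have h0 : modp p (0 : Fin m → Fin 5 → ℤ) = 0 := by
    funext i r
    simp [modp]
  have := cc_step C num hm L T ρ x (fun b hb => by rw [hc] at hb; exact absurd hb (by simp))
    (by rw [hs, h0, add_zero]; exact h1) (by rw [hs, h0, add_zero]; exact h2)
  rw [hs, h0, add_zero] at this
  exact this

end

section closure
variable {m : ℕ} {p : ℕ}

/-- the unit vector -/
private def un (i : Fin m) (r : Fin 5) : Fin m → Fin 5 → ZMod p :=
  fun i' r' => if i' = i ∧ r' = r then 1 else 0

private theorem cc_modp_e (i : Fin m) (r : Fin 5) : modp p (e i r) = un (p := p) i r := by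
  funext i' r'
  unfold modp e un
  split_ifs <;> simp

private theorem cc_closure [NeZero p] (Q : (Fin m → Fin 5 → ZMod p) → Prop)
    (u : Fin m → Fin 5 → ZMod p) (h : ∀ x, Q x → Q (x + u)) (a : ZMod p)
    (x : Fin m → Fin 5 → ZMod p) (hx : Q x) : Q (x + a • u) := by
  have h1 : ∀ n : ℕ, Q (x + (n : ZMod p) • u) := by
    intro n
    induction n with
    | zero => simpa using hx
    | succ n ih =>
      have := h _ ih
      rw [add_assoc] at this
      have e1 : ((n : ZMod p) • u + u) = ((n + 1 : ℕ) : ZMod p) • u := by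
        rw [Nat.cast_add, Nat.cast_one, add_smul, one_smul]
      rwa [e1] at this
  have := h1 a.val
  rwa [ZMod.natCast_zmod_val] at this

private theorem cc_closure_sum [NeZero p] (Q : (Fin m → Fin 5 → ZMod p) → Prop)
    (A : Finset (Fin m × Fin 5)) (h : ∀ ir ∈ A, ∀ x, Q x → Q (x + un ir.1 ir.2))
    (y x : Fin m → Fin 5 → ZMod p) (hx : Q x) : Q (x + ∑ ir ∈ A, y ir.1 ir.2 • un ir.1 ir.2) := by
  classical
  induction A using Finset.induction_on with
  | empty => simpa using hx
  | insert a A ha ih =>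
    rw [Finset.sum_insert ha, add_comm (y a.1 a.2 • _), ← add_assoc]
    exact cc_closure Q _ (h a (Finset.mem_insert_self a A)) _ _
      (ih fun ir hir => h ir (Finset.mem_insert_of_mem hir))

private theorem cc_sum_un (A : Finset (Fin m × Fin 5)) (y : Fin m → Fin 5 → ZMod p)
    (i : Fin m) (r : Fin 5) :
    (∑ ir ∈ A, y ir.1 ir.2 • un ir.1 ir.2 : Fin m → Fin 5 → ZMod p) i r =
      if (i, r) ∈ A then y i r else 0 := by
  classical
  rw [Finset.sum_apply, Finset.sum_apply]
  have h1 : ∀ ir ∈ A, (y ir.1 ir.2 • un ir.1 ir.2 : Fin m → Fin 5 → ZMod p) i r =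
      if ir = (i, r) then y i r else 0 := by
    intro ir _
    obtain ⟨i', r'⟩ := ir
    simp only [Pi.smul_apply, un, smul_eq_mul, Prod.mk.injEq]
    by_cases h2 : i' = i ∧ r' = r
    · obtain ⟨rfl, rfl⟩ := h2
      simp
    · rw [if_neg h2, if_neg (fun h3 => h2 ⟨h3.1.symm, h3.2.symm⟩), mul_zero]
  rw [Finset.sum_congr rfl h1, Finset.sum_ite_eq']

/-- passing from `x` to `y` when they agree outside `A` -/
private theorem cc_move [NeZero p] (Q : (Fin m → Fin 5 → ZMod p) → Prop)
    (A : Set (Fin m × Fin 5)) (h : ∀ ir ∈ A, ∀ x, Q x → Q (x + un ir.1 ir.2))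
    (x y : Fin m → Fin 5 → ZMod p) (hxy : ∀ i r, (i, r) ∉ A → x i r = y i r) (hx : Q x) : Q y := by
  classical
  have h1 := cc_closure_sum Q (Finset.univ.filter fun ir => ir ∈ A)
    (fun ir hir => h ir (Finset.mem_filter.1 hir).2) (y - x) x hx
  have h2 : x + ∑ ir ∈ Finset.univ.filter (fun ir => ir ∈ A),
      (y - x) ir.1 ir.2 • un ir.1 ir.2 = y := by
    funext i r
    rw [Pi.add_apply, Pi.add_apply, cc_sum_un]
    by_cases h3 : (i, r) ∈ A
    · rw [if_pos (by simpa using h3)]
      simp
    · rw [if_neg (by simpa using h3), hxy i r h3, add_zero]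
  rwa [h2] at h1

theorem cc_dr_or_cr (r : Fin 5) : (∃ d : Fin 2, r = dr d) ∨ (∃ c : Fin 3, r = cr c) := by
  by_cases h : (r : ℕ) < 2
  · exact Or.inl ⟨⟨r, h⟩, rfl⟩
  · refine Or.inr ⟨⟨(r : ℕ) - 2, by omega⟩, ?_⟩
    ext
    simp only [cr]
    omega

theorem cc_cr_ne_dr (c : Fin 3) (d : Fin 2) : cr c ≠ dr d := by
  intro h
  have := congrArg Fin.val h
  simp only [cr, dr] at this
  omega

theorem cc_cr_inj {c c' : Fin 3} (h : cr c = cr c') : c = c' := by
  have := congrArg Fin.val h
  simp only [cr] at this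
  ext
  omega

end closure

section
variable {m : ℕ} {Y : Type} [Finite Y] (C : CShape m Y) (num : Y → ℕ) (hm : 1 ≤ m) (L : ℕ)
  {p : ℕ} [NeZero p] (T : Set (ZMod p × ZMod p × ZMod p))

private theorem cc_full (x : Fin m → Fin 5 → ZMod p) : Kn C num hm L T .full x := by
  have h0 : Kn C num hm L T .full (0 : Fin m → Fin 5 → ZMod p) :=
    cc_step0 C num hm L T .full0 0 rfl rfl (cc_ax C num hm L T) (cc_ax C num hm L T)
  refine cc_move (Kn C num hm L T .full) Set.univ ?_ 0 x (fun i r h => (h trivial).elim) h0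
  rintro ⟨i, r⟩ - x hx
  have h00 : modp p (0 : Fin m → Fin 5 → ℤ) = 0 := by
    funext i r
    simp [modp]
  have := cc_step C num hm L T (.fullS i r) x (fun b hb => absurd hb (by simp [shape]))
    (by
      change Kn C num hm L T .full (x + modp p 0)
      rw [h00, add_zero]
      exact hx)
    (by
      change Kn C num hm L T .full (x + modp p 0)
      rw [h00, add_zero]
      exact hx)
  change Kn C num hm L T .full (x + modp p (e i r)) at this
  rwa [cc_modp_e] at this

private theorem cc_tab (b : Bool) (x : Fin m → Fin 5 → ZMod p)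
    (hx : (x ⟨0, hm⟩ 2, x ⟨0, hm⟩ 3, x ⟨0, hm⟩ 4) ∈ T ↔ b = true) :
    Kn C num hm L T (.tab b) x := by
  have h00 : modp p (0 : Fin m → Fin 5 → ℤ) = 0 := by
    funext i r
    simp [modp]
  have := cc_step C num hm L T (.tabR b) x
    (fun b' hb => by
      have h1 : b = b' := by
        simpa [shape] using hb
      rw [← h1]
      exact hx)
    (cc_full C num hm L T _) (cc_full C num hm L T _)
  change Kn C num hm L T (.tab b) (x + modp p 0) at this
  rwa [h00, add_zero] at this

private theorem cc_sy (n : ℕ) (hn : n ≤ L) (x : Fin m → Fin 5 → ZMod p)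
    (hx : x ⟨0, hm⟩ (cr 0) = n) : Kn C num hm L T (.sy n) x := by
  have h00 : modp p (0 : Fin m → Fin 5 → ℤ) = 0 := by
    funext i r
    simp [modp]
  induction n generalizing x with
  | zero =>
    have h0 : Kn C num hm L T (.sy 0) (0 : Fin m → Fin 5 → ZMod p) :=
      cc_step0 C num hm L T .sy0 0 rfl rfl (cc_ax C num hm L T) (cc_ax C num hm L T)
    refine cc_move (Kn C num hm L T (.sy 0)) {ir | ¬ (ir.1 = ⟨0, hm⟩ ∧ ir.2 = cr 0)} ?_ 0 x ?_ h0
    · rintro ⟨i, r⟩ hir x hx
      have hir' : ¬ (i = ⟨0, hm⟩ ∧ r = cr 0) := hir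
      have hpr : pr C num hm (.syE i r : Ru C L) = (.sy 0, .sy 0, .sy 0) := by
        simp only [pr]
        rw [if_neg hir']
      have := cc_step C num hm L T (.syE i r) x (fun b hb => absurd hb (by simp [shape]))
        (by
          rw [hpr]
          change Kn C num hm L T (.sy 0) (x + modp p 0)
          rw [h00, add_zero]
          exact hx)
        (by
          rw [hpr]
          change Kn C num hm L T (.sy 0) (x + modp p 0)
          rw [h00, add_zero]
          exact hx)
      rw [hpr] at this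
      change Kn C num hm L T (.sy 0) (x + modp p (e i r)) at this
      rwa [cc_modp_e] at this
    · intro i r hir
      have h1 : i = ⟨0, hm⟩ ∧ r = cr 0 := by
        by_contra h
        exact hir h
      rw [h1.1, h1.2, hx]
      simp
  | succ n ih =>
    have h1 := ih (by omega) (x - un ⟨0, hm⟩ (cr 0)) (by
      rw [Pi.sub_apply, Pi.sub_apply, hx]
      simp [un])
    have := cc_step C num hm L T (.syS ⟨n, by omega⟩) (x - un ⟨0, hm⟩ (cr 0))
      (fun b hb => absurd hb (by simp [shape]))
      (by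
        change Kn C num hm L T (.sy n) (_ + modp p 0)
        rw [h00, add_zero]
        exact h1)
      (by
        change Kn C num hm L T (.sy n) (_ + modp p 0)
        rw [h00, add_zero]
        exact h1)
    change Kn C num hm L T (.sy (n + 1)) (_ + modp p (e ⟨0, hm⟩ (cr 0))) at this
    rwa [cc_modp_e, sub_add_cancel] at this

private theorem cc_al (c : Fin 3) (d : Fin 2 × Fin m) (x : Fin m → Fin 5 → ZMod p)
    (hx : x ⟨0, hm⟩ (cr c) = x d.2 (dr d.1)) : Kn C num hm L T (.al c d) x := by
  have h00 : modp p (0 : Fin m → Fin 5 → ℤ) = 0 := by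
    funext i r
    simp [modp]
  have h0 : Kn C num hm L T (.al c d) (0 : Fin m → Fin 5 → ZMod p) :=
    cc_step0 C num hm L T (.al0 c d) 0 rfl rfl (cc_ax C num hm L T) (cc_ax C num hm L T)
  set u : Fin m → Fin 5 → ZMod p := un ⟨0, hm⟩ (cr c) + un d.2 (dr d.1) with hu
  have hmu : modp p (fun i r => max (e ⟨0, hm⟩ (cr c) i r) (e d.2 (dr d.1) i r)) = u := by
    funext i r
    simp only [modp, hu, Pi.add_apply, un, e]
    by_cases h1 : i = ⟨0, hm⟩ ∧ r = cr c
    · have h2 : ¬ (i = d.2 ∧ r = dr d.1) := fun h => cc_cr_ne_dr c d.1 (h1.2.symm.trans h.2)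
      rw [if_pos h1, if_neg h2, if_pos h1, if_neg h2]
      simp
    · rw [if_neg h1, if_neg h1]
      split_ifs <;> simp
  have hB : ∀ x, Kn C num hm L T (.al c d) x → Kn C num hm L T (.al c d) (x + u) := by
    intro x hx
    have := cc_step C num hm L T (.alB c d) x (fun b hb => absurd hb (by simp [shape]))
      (by
        change Kn C num hm L T (.al c d) (x + modp p 0)
        rw [h00, add_zero]
        exact hx)
      (by
        change Kn C num hm L T (.al c d) (x + modp p 0)
        rw [h00, add_zero]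
        exact hx)
    change Kn C num hm L T (.al c d)
      (x + modp p (fun i r => max (e ⟨0, hm⟩ (cr c) i r) (e d.2 (dr d.1) i r))) at this
    rwa [hmu] at this
  have h1 := cc_closure (Kn C num hm L T (.al c d)) u hB (x d.2 (dr d.1)) 0 h0
  refine cc_move (Kn C num hm L T (.al c d))
    {ir | ¬ ((ir.1 = ⟨0, hm⟩ ∧ ir.2 = cr c) ∨ (ir.1 = d.2 ∧ ir.2 = dr d.1))} ?_ _ x ?_ h1
  · rintro ⟨i, r⟩ hir x hx
    have hir' : ¬ ((i = ⟨0, hm⟩ ∧ r = cr c) ∨ (i = d.2 ∧ r = dr d.1)) := hir
    have hpr : pr C num hm (.alE c d i r : Ru C L) = (.al c d, .al c d, .al c d) := by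
      simp only [pr]
      rw [if_neg hir']
    have := cc_step C num hm L T (.alE c d i r) x (fun b hb => absurd hb (by simp [shape]))
      (by
        rw [hpr]
        change Kn C num hm L T (.al c d) (x + modp p 0)
        rw [h00, add_zero]
        exact hx)
      (by
        rw [hpr]
        change Kn C num hm L T (.al c d) (x + modp p 0)
        rw [h00, add_zero]
        exact hx)
    rw [hpr] at this
    change Kn C num hm L T (.al c d) (x + modp p (e i r)) at this
    rwa [cc_modp_e] at this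
  · intro i r hir
    have h2 : (i = ⟨0, hm⟩ ∧ r = cr c) ∨ (i = d.2 ∧ r = dr d.1) := by
      by_contra h
      exact hir h
    rw [zero_add, Pi.smul_apply, Pi.smul_apply, hu]
    rcases h2 with ⟨rfl, rfl⟩ | ⟨rfl, rfl⟩
    · have h3 : ¬ ((⟨0, hm⟩ : Fin m) = d.2 ∧ cr c = dr d.1) := fun h => cc_cr_ne_dr c d.1 h.2
      simp only [Pi.add_apply, un]
      rw [if_neg h3, hx]
      simp
    · have h3 : ¬ (d.2 = (⟨0, hm⟩ : Fin m) ∧ dr d.1 = cr c) := fun h =>
        cc_cr_ne_dr c d.1 h.2.symm
      simp only [Pi.add_apply, un]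
      rw [if_neg h3]
      simp

private theorem cc_a1 (hL : ∀ y, num y < L) (b : Bool) (s : Y ⊕ (Fin 2 × Fin m))
    (x : Fin m → Fin 5 → ZMod p) (hx : Sem C num hm T (.a1 b s) x) :
    Kn C num hm L T (.a1 b s) x := by
  refine cc_step0 C num hm L T (.a1R b s) x rfl rfl (cc_tab C num hm L T b x hx.1) ?_
  rcases s with y | d
  · exact cc_sy C num hm L T (num y) (hL y).le x hx.2
  · exact cc_al C num hm L T 0 d x hx.2

private theorem cc_a3 (hL : ∀ y, num y < L) (b : Bool) (s : Y ⊕ (Fin 2 × Fin m))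
    (d₁ d₂ : Fin 2 × Fin m)
    (x : Fin m → Fin 5 → ZMod p) (hx : Sem C num hm T (.a3 b s d₁ d₂) x) :
    Kn C num hm L T (.a3 b s d₁ d₂) x := by
  have h1 : Kn C num hm L T (.a2 b s d₁) x :=
    cc_step0 C num hm L T (.a2R b s d₁) x rfl rfl
      (cc_a1 C num hm L T hL b s x ⟨hx.1, hx.2.1⟩) (cc_al C num hm L T 1 d₁ x hx.2.2.1)
  exact cc_step0 C num hm L T (.a3R b s d₁ d₂) x rfl rfl h1
    (cc_al C num hm L T 2 d₂ x hx.2.2.2)

theorem cc_subs_self (φ : BF m Y) : φ ∈ φ.subs := by
  cases φ <;> simp [BF.subs]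

theorem cc_subs_trans {ω χ θ : BF m Y} (h1 : χ ∈ ω.subs) (h2 : θ ∈ χ.subs) : θ ∈ ω.subs := by
  induction ω with
  | tt =>
    simp only [BF.subs, List.mem_singleton] at h1
    subst h1
    exact h2
  | atom y d₁ d₂ =>
    simp only [BF.subs, List.mem_singleton] at h1
    subst h1
    exact h2
  | raw d₀ d₁ d₂ =>
    simp only [BF.subs, List.mem_singleton] at h1
    subst h1
    exact h2
  | and φ ψ ih1 ih2 =>
    simp only [BF.subs, List.mem_cons, List.mem_append] at h1
    rcases h1 with rfl | h1 | h1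
    · exact h2
    · simp only [BF.subs, List.mem_cons, List.mem_append]
      exact Or.inr (Or.inl (ih1 h1))
    · simp only [BF.subs, List.mem_cons, List.mem_append]
      exact Or.inr (Or.inr (ih2 h1))
  | or φ ψ ih1 ih2 =>
    simp only [BF.subs, List.mem_cons, List.mem_append] at h1
    rcases h1 with rfl | h1 | h1
    · exact h2
    · simp only [BF.subs, List.mem_cons, List.mem_append]
      exact Or.inr (Or.inl (ih1 h1))
    · simp only [BF.subs, List.mem_cons, List.mem_append]
      exact Or.inr (Or.inr (ih2 h1))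
  | not φ ih =>
    simp only [BF.subs, List.mem_cons] at h1
    rcases h1 with rfl | h1
    · exact h2
    · simp only [BF.subs, List.mem_cons]
      exact Or.inr (ih h1)

theorem cc_Subs_of {χ θ : BF m Y} (h1 : χ ∈ Subs C) (h2 : θ ∈ χ.subs) : θ ∈ Subs C := by
  obtain ⟨ρ, h⟩ := h1
  exact ⟨ρ, cc_subs_trans h h2⟩

/-- the registers `c` can be changed freely in formula predicates -/
private theorem cc_fS (b : Bool) (φ : BF m Y) (hφ : φ ∈ Subs C)
    (x y : Fin m → Fin 5 → ZMod p) (hxy : tr x = tr y) (hx : Kn C num hm L T (.fm b φ) x) :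
    Kn C num hm L T (.fm b φ) y := by
  have h00 : modp p (0 : Fin m → Fin 5 → ℤ) = 0 := by
    funext i r
    simp [modp]
  refine cc_move (Kn C num hm L T (.fm b φ)) {ir | ∃ c, ir.2 = cr c} ?_ x y ?_ hx
  · rintro ⟨i, r⟩ ⟨c, hc⟩ x hx
    have hc' : r = cr c := hc
    subst hc'
    have := cc_step C num hm L T (.fS b ⟨φ, hφ⟩ i c) x (fun b hb => absurd hb (by simp [shape]))
      (by
        change Kn C num hm L T (.fm b φ) (x + modp p 0)
        rw [h00, add_zero]
        exact hx)
      (by
        change Kn C num hm L T (.fm b φ) (x + modp p 0)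
        rw [h00, add_zero]
        exact hx)
    change Kn C num hm L T (.fm b φ) (x + modp p (e i (cr c))) at this
    rwa [cc_modp_e] at this
  · intro i r hr
    rcases cc_dr_or_cr r with ⟨d, rfl⟩ | ⟨c, rfl⟩
    · exact congrFun (congrFun hxy i) d
    · exact (hr ⟨c, rfl⟩).elim

/-- the registers `c` of row `0` replaced by given values -/
private def put (hm : 1 ≤ m) (x : Fin m → Fin 5 → ZMod p) (v : Fin 3 → ZMod p) :
    Fin m → Fin 5 → ZMod p :=
  fun i r => if i = ⟨0, hm⟩ then (if h : 2 ≤ (r : ℕ) then v ⟨(r : ℕ) - 2, by omega⟩ else x i r)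
    else x i r

private theorem put_cr (x : Fin m → Fin 5 → ZMod p) (v : Fin 3 → ZMod p) (c : Fin 3) :
    put hm x v ⟨0, hm⟩ (cr c) = v c := by
  unfold put cr
  simp

private theorem put_dr (x : Fin m → Fin 5 → ZMod p) (v : Fin 3 → ZMod p) (i : Fin m)
    (d : Fin 2) : put hm x v i (dr d) = x i (dr d) := by
  unfold put
  have h : ¬ 2 ≤ ((dr d : Fin 5) : ℕ) := by
    simp only [dr]
    omega
  rw [dif_neg h, ite_self]

private theorem tr_put (x : Fin m → Fin 5 → ZMod p) (v : Fin 3 → ZMod p) :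
    tr (put hm x v) = tr x := by
  funext i d
  exact put_dr hm x v i d

private theorem cc_fm (hL : ∀ y, num y < L) (φ : BF m Y) (hφ : φ ∈ Subs C) (b : Bool)
    (x : Fin m → Fin 5 → ZMod p) (hx : φ.eval num T (tr x) ↔ b = true) :
    Kn C num hm L T (.fm b φ) x := by
  induction φ generalizing b x with
  | tt =>
    have hb : b = true := hx.1 trivial
    subst hb
    exact cc_step0 C num hm L T (.fr true ⟨.tt, hφ⟩ true) x rfl rfl
      (cc_full C num hm L T x) (cc_full C num hm L T x)
  | atom y d₁ d₂ =>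
    set x' := put hm x ![(num y : ZMod p), x d₁.2 (dr d₁.1), x d₂.2 (dr d₂.1)] with hx'
    have h0 : x' ⟨0, hm⟩ (cr 0) = num y := put_cr hm _ _ 0
    have h1 : x' ⟨0, hm⟩ (cr 1) = x d₁.2 (dr d₁.1) := put_cr hm _ _ 1
    have h2 : x' ⟨0, hm⟩ (cr 2) = x d₂.2 (dr d₂.1) := put_cr hm _ _ 2
    have h3 : Sem C num hm T (.a3 b (.inl y) d₁ d₂) x' := by
      refine ⟨?_, h0, ?_, ?_⟩
      · change ((x' ⟨0, hm⟩ (cr 0), x' ⟨0, hm⟩ (cr 1), x' ⟨0, hm⟩ (cr 2)) ∈ T ↔ b = true)
        rw [h0, h1, h2]
        exact hx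
      · rw [h1, hx', put_dr]
      · rw [h2, hx', put_dr]
    have h4 := cc_a3 C num hm L T hL b (.inl y) d₁ d₂ x' h3
    have h5 : Kn C num hm L T (.fm b (.atom y d₁ d₂)) x' :=
      cc_step0 C num hm L T (.fr b ⟨.atom y d₁ d₂, hφ⟩ true) x' rfl rfl h4 h4
    exact cc_fS C num hm L T b _ hφ x' x (tr_put hm _ _) h5
  | raw d₀ d₁ d₂ =>
    set x' := put hm x ![x d₀.2 (dr d₀.1), x d₁.2 (dr d₁.1), x d₂.2 (dr d₂.1)] with hx'
    have h0 : x' ⟨0, hm⟩ (cr 0) = x d₀.2 (dr d₀.1) := put_cr hm _ _ 0
    have h1 : x' ⟨0, hm⟩ (cr 1) = x d₁.2 (dr d₁.1) := put_cr hm _ _ 1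
    have h2 : x' ⟨0, hm⟩ (cr 2) = x d₂.2 (dr d₂.1) := put_cr hm _ _ 2
    have h3 : Sem C num hm T (.a3 b (.inr d₀) d₁ d₂) x' := by
      refine ⟨?_, ?_, ?_, ?_⟩
      · change ((x' ⟨0, hm⟩ (cr 0), x' ⟨0, hm⟩ (cr 1), x' ⟨0, hm⟩ (cr 2)) ∈ T ↔ b = true)
        rw [h0, h1, h2]
        exact hx
      · change x' ⟨0, hm⟩ (cr 0) = x' d₀.2 (dr d₀.1)
        rw [h0, hx', put_dr]
      · rw [h1, hx', put_dr]
      · rw [h2, hx', put_dr]
    have h4 := cc_a3 C num hm L T hL b (.inr d₀) d₁ d₂ x' h3
    have h5 : Kn C num hm L T (.fm b (.raw d₀ d₁ d₂)) x' :=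
      cc_step0 C num hm L T (.fr b ⟨.raw d₀ d₁ d₂, hφ⟩ true) x' rfl rfl h4 h4
    exact cc_fS C num hm L T b _ hφ x' x (tr_put hm _ _) h5
  | and φ ψ ih1 ih2 =>
    have m1 : φ ∈ Subs C := cc_Subs_of C hφ (by simp [BF.subs, cc_subs_self])
    have m2 : ψ ∈ Subs C := cc_Subs_of C hφ (by simp [BF.subs, cc_subs_self])
    cases b with
    | true =>
      have h : φ.eval num T (tr x) ∧ ψ.eval num T (tr x) := hx.2 rfl
      exact cc_step0 C num hm L T (.fr true ⟨.and φ ψ, hφ⟩ true) x rfl rfl
        (ih1 m1 true x (by simp [h.1])) (ih2 m2 true x (by simp [h.2]))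
    | false =>
      have h : ¬ (φ.eval num T (tr x) ∧ ψ.eval num T (tr x)) := fun h => by
        simpa using hx.1 h
      by_cases h1 : φ.eval num T (tr x)
      · have h2 : ¬ ψ.eval num T (tr x) := fun h2 => h ⟨h1, h2⟩
        have h3 := ih2 m2 false x (by simp [h2])
        exact cc_step0 C num hm L T (.fr false ⟨.and φ ψ, hφ⟩ false) x rfl rfl h3 h3
      · have h3 := ih1 m1 false x (by simp [h1])
        exact cc_step0 C num hm L T (.fr false ⟨.and φ ψ, hφ⟩ true) x rfl rfl h3 h3
  | or φ ψ ih1 ih2 =>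
    have m1 : φ ∈ Subs C := cc_Subs_of C hφ (by simp [BF.subs, cc_subs_self])
    have m2 : ψ ∈ Subs C := cc_Subs_of C hφ (by simp [BF.subs, cc_subs_self])
    cases b with
    | true =>
      have h : φ.eval num T (tr x) ∨ ψ.eval num T (tr x) := hx.2 rfl
      rcases h with h | h
      · have h3 := ih1 m1 true x (by simp [h])
        exact cc_step0 C num hm L T (.fr true ⟨.or φ ψ, hφ⟩ true) x rfl rfl h3 h3
      · have h3 := ih2 m2 true x (by simp [h])
        exact cc_step0 C num hm L T (.fr true ⟨.or φ ψ, hφ⟩ false) x rfl rfl h3 h3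
    | false =>
      have h : ¬ (φ.eval num T (tr x) ∨ ψ.eval num T (tr x)) := fun h => by
        simpa using hx.1 h
      rw [not_or] at h
      exact cc_step0 C num hm L T (.fr false ⟨.or φ ψ, hφ⟩ true) x rfl rfl
        (ih1 m1 false x (by simp [h.1])) (ih2 m2 false x (by simp [h.2]))
  | not φ ih =>
    have m1 : φ ∈ Subs C := cc_Subs_of C hφ (by simp [BF.subs, cc_subs_self])
    have h : φ.eval num T (tr x) ↔ (!b) = true := by
      have h1 : ¬ φ.eval num T (tr x) ↔ b = true := hx
      cases b with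
      | true =>
        simp only [Bool.not_true]
        have := h1.2 rfl
        simp [this]
      | false =>
        simp only [Bool.not_false]
        have : ¬ ¬ φ.eval num T (tr x) := fun h2 => by simpa using h1.1 h2
        simp [not_not.1 this]
    have h3 := ih m1 (!b) x h
    exact cc_step0 C num hm L T (.fr b ⟨.not φ, hφ⟩ true) x rfl rfl h3 h3

/-- Completeness for the formula predicates (induction on the formula; first the predicates
`full`, `tab`, `sy`, `al`, `a1`, `a2`, `a3`). -/
theorem complete_fm (hL : ∀ y, num y < L) (φ : BF m Y) (hφ : φ ∈ Subs C) (b : Bool)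
    (x : Fin m → Fin 5 → ZMod p) (hx : φ.eval num T (tr x) ↔ b = true) :
    ((shape C num hm L).toHorn p T).Known (Pr.fm b φ) (addr x) :=
  cc_fm C num hm L T hL φ hφ b x hx

private theorem cc_ext {x y : Fin m → Fin 5 → ZMod p} (h1 : tr x = tr y)
    (h2 : ∀ i c, x i (cr c) = y i (cr c)) : x = y := by
  funext i r
  rcases cc_dr_or_cr r with ⟨d, rfl⟩ | ⟨c, rfl⟩
  · exact congrFun (congrFun h1 i) d
  · exact h2 i c

/-- the vector with zero registers `c` -/
private def lift (z : Fin m → Fin 2 → ZMod p) : Fin m → Fin 5 → ZMod p :=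
  fun i r => if h : (r : ℕ) < 2 then z i ⟨r, h⟩ else 0

private theorem lift_dr (z : Fin m → Fin 2 → ZMod p) (i : Fin m) (d : Fin 2) :
    lift z i (dr d) = z i d := by
  unfold lift
  have h : ((dr d : Fin 5) : ℕ) < 2 := by
    simp only [dr]
    omega
  rw [dif_pos h]
  rfl

private theorem lift_cr (z : Fin m → Fin 2 → ZMod p) (i : Fin m) (c : Fin 3) :
    lift z i (cr c) = 0 := by
  unfold lift
  have h : ¬ ((cr c : Fin 5) : ℕ) < 2 := by
    simp only [cr]
    omega
  rw [dif_neg h]

private theorem modp_ext_dr (w : Fin m → Fin 2 → ℤ) (i : Fin m) (d : Fin 2) :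
    modp p (ext w) i (dr d) = modp p w i d := by
  unfold modp ext
  have h : ((dr d : Fin 5) : ℕ) < 2 := by
    simp only [dr]
    omega
  rw [dif_pos h]
  rfl

private theorem modp_ext_cr (w : Fin m → Fin 2 → ℤ) (i : Fin m) (c : Fin 3) :
    modp p (ext w) i (cr c) = 0 := by
  unfold modp ext
  have h : ¬ ((cr c : Fin 5) : ℕ) < 2 := by
    simp only [cr]
    omega
  rw [dif_neg h]
  simp

/-- Completeness for the embedded predicates (induction on `CShape.Known`). -/
theorem complete_emb (hL : ∀ y, num y < L) (P : C.Pred) (z : Fin m → Fin 2 → ZMod p)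
    (hz : C.Known num T P z) (x : Fin m → Fin 5 → ZMod p) (hx : tr x = z)
    (h0 : ∀ i c, x i (cr c) = 0) :
    ((shape C num hm L).toHorn p T).Known (Pr.emb P) (addr x) := by
  have h00 : modp p (0 : Fin m → Fin 5 → ℤ) = 0 := by
    funext i r
    simp [modp]
  change Kn C num hm L T (.emb P) x
  induction hz generalizing x with
  | start =>
    have h1 : x = 0 := cc_ext (by rw [hx]; rfl) (fun i c => by rw [h0]; rfl)
    rw [h1]
    exact cc_step0 C num hm L T .st 0 rfl rfl (cc_ax C num hm L T) (cc_ax C num hm L T)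
  | rule ρ z hc _ _ ih1 ih2 =>
    have hsub : C.cond ρ ∈ Subs C := ⟨ρ, cc_subs_self _⟩
    have htr : ∀ w : Fin m → Fin 2 → ℤ, tr (lift z + modp p (ext w)) = z + modp p w := by
      intro w
      funext i d
      change lift z i (dr d) + modp p (ext w) i (dr d) = z i d + modp p w i d
      rw [lift_dr, modp_ext_dr]
    have hcr : ∀ (w : Fin m → Fin 2 → ℤ) (i : Fin m) (c : Fin 3),
        (lift z + modp p (ext w)) i (cr c) = 0 := by
      intro w i c
      change lift z i (cr c) + modp p (ext w) i (cr c) = 0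
      rw [lift_cr, modp_ext_cr, add_zero]
    have htr0 : tr (lift z) = z := by
      funext i d
      exact lift_dr z i d
    have hfm : Kn C num hm L T (.fm true (C.cond ρ)) (lift z) :=
      cc_fm C num hm L T hL (C.cond ρ) hsub true (lift z) (by rw [htr0]; simpa using hc)
    have e1 := ih1 (lift z + modp p (ext (C.ish ρ 1))) (htr _) (hcr _)
    have e2 := ih2 (lift z + modp p (ext (C.ish ρ 2))) (htr _) (hcr _)
    have hmid : Kn C num hm L T (.mid ρ) (lift z) := by
      have := cc_step C num hm L T (.r1 ρ) (lift z) (fun b hb => absurd hb (by simp [shape]))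
        (by
          change Kn C num hm L T (.fm true (C.cond ρ)) (lift z + modp p 0)
          rw [h00, add_zero]
          exact hfm)
        (by
          change Kn C num hm L T (.emb (C.pred ρ 1)) (lift z + modp p (ext (C.ish ρ 1)))
          exact e1)
      change Kn C num hm L T (.mid ρ) (lift z + modp p 0) at this
      rwa [h00, add_zero] at this
    have hfin := cc_step C num hm L T (.r2 ρ) (lift z) (fun b hb => absurd hb (by simp [shape]))
        (by
          change Kn C num hm L T (.mid ρ) (lift z + modp p 0)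
          rw [h00, add_zero]
          exact hmid)
        (by
          change Kn C num hm L T (.emb (C.pred ρ 2)) (lift z + modp p (ext (C.ish ρ 2)))
          exact e2)
    change Kn C num hm L T (.emb (C.pred ρ 0)) (lift z + modp p (ext (C.ish ρ 0))) at hfin
    have hxx : x = lift z + modp p (ext (C.ish ρ 0)) :=
      cc_ext (by rw [hx, htr]) (fun i c => by rw [h0, hcr])
    rw [hxx]
    exact hfin

end

end Comp

end Vale.Agent.P310
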