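import Vale.Agent.Lib.P310.Shape

/-!
# P310: compiling conditional Horn systems to shapes (definitions)

The predicates and rules of the compiled system are explicit. `Comp.Sem` is the intended meaning
of the predicates on the free rows `x : Fin m → Fin 5 → ZMod p`.
-/

namespace Vale.Agent.P310

/-- the subformulas (with the formula itself) -/
def BF.subs {m : ℕ} {Y : Type} : BF m Y → List (BF m Y)
  | .tt => [.tt]
  | .atom y d₁ d₂ => [.atom y d₁ d₂]
  | .raw d₀ d₁ d₂ => [.raw d₀ d₁ d₂]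
  | .and φ ψ => .and φ ψ :: (φ.subs ++ ψ.subs)
  | .or φ ψ => .or φ ψ :: (φ.subs ++ ψ.subs)
  | .not φ => .not φ :: φ.subs

namespace Comp

section
variable {m : ℕ} {Y : Type} (C : CShape m Y)

/-- the formulas that are needed -/
def Subs : Set (BF m Y) := {φ | ∃ ρ, φ ∈ (C.cond ρ).subs}

/-- The predicates. -/
inductive Pr
  | p0 | pg | dead | full
  | tab (b : Bool)
  | sy (n : ℕ)
  | al (c : Fin 3) (d : Fin 2 × Fin m)
  | a1 (b : Bool) (s : Y ⊕ (Fin 2 × Fin m))
  | a2 (b : Bool) (s : Y ⊕ (Fin 2 × Fin m)) (d₁ : Fin 2 × Fin m)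
  | a3 (b : Bool) (s : Y ⊕ (Fin 2 × Fin m)) (d₁ d₂ : Fin 2 × Fin m)
  | fm (b : Bool) (φ : BF m Y)
  | emb (P : C.Pred)
  | mid (ρ : C.Rule)

/-- The rules; `L` is larger than all the numbers of the symbols. -/
inductive Ru (L : ℕ)
  | full0
  | fullS (i : Fin m) (r : Fin 5)
  | tabR (b : Bool)
  | sy0
  | syE (i : Fin m) (r : Fin 5)
  | syS (n : Fin L)
  | al0 (c : Fin 3) (d : Fin 2 × Fin m)
  | alE (c : Fin 3) (d : Fin 2 × Fin m) (i : Fin m) (r : Fin 5)
  | alB (c : Fin 3) (d : Fin 2 × Fin m)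
  | a1R (b : Bool) (s : Y ⊕ (Fin 2 × Fin m))
  | a2R (b : Bool) (s : Y ⊕ (Fin 2 × Fin m)) (d₁ : Fin 2 × Fin m)
  | a3R (b : Bool) (s : Y ⊕ (Fin 2 × Fin m)) (d₁ d₂ : Fin 2 × Fin m)
  | fr (b : Bool) (φ : Subs C) (v : Bool)
  | fS (b : Bool) (φ : Subs C) (i : Fin m) (c : Fin 3)
  | st
  | r1 (ρ : C.Rule)
  | r2 (ρ : C.Rule)
  | gR

/-- registers `c0, c1, c2` -/
def cr (c : Fin 3) : Fin 5 := ⟨c + 2, by omega⟩

/-- registers `t, r` -/
def dr (d : Fin 2) : Fin 5 := ⟨d, by omega⟩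

/-- bodies of the rules of a formula (two variants `v`) -/
def fbody (b : Bool) (v : Bool) : BF m Y → Pr C × Pr C
  | .tt => if b then (.full, .full) else (.dead, .dead)
  | .atom y d₁ d₂ => (.a3 b (.inl y) d₁ d₂, .a3 b (.inl y) d₁ d₂)
  | .raw d₀ d₁ d₂ => (.a3 b (.inr d₀) d₁ d₂, .a3 b (.inr d₀) d₁ d₂)
  | .and φ ψ => if b then (.fm true φ, .fm true ψ) else
      if v then (.fm false φ, .fm false φ) else (.fm false ψ, .fm false ψ)
  | .or φ ψ => if b then (if v then (.fm true φ, .fm true φ) else (.fm true ψ, .fm true ψ)) else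
      (.fm false φ, .fm false ψ)
  | .not φ => (.fm (!b) φ, .fm (!b) φ)

open Classical in
/-- head and bodies of the rules -/
noncomputable def pr (num : Y → ℕ) (hm : 1 ≤ m) {L : ℕ} : Ru C L → Pr C × Pr C × Pr C
  | .full0 => (.full, .p0, .p0)
  | .fullS _ _ => (.full, .full, .full)
  | .tabR b => (.tab b, .full, .full)
  | .sy0 => (.sy 0, .p0, .p0)
  | .syE i r => if i = ⟨0, hm⟩ ∧ r = cr 0 then (.dead, .dead, .dead) else
      (.sy 0, .sy 0, .sy 0)
  | .syS n => (.sy (n + 1), .sy n, .sy n)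
  | .al0 c d => (.al c d, .p0, .p0)
  | .alE c d i r => if (i = ⟨0, hm⟩ ∧ r = cr c) ∨ (i = d.2 ∧ r = dr d.1) then
      (.dead, .dead, .dead) else (.al c d, .al c d, .al c d)
  | .alB c d => (.al c d, .al c d, .al c d)
  | .a1R b s => (.a1 b s, .tab b, s.elim (fun y => .sy (num y)) (fun d => .al 0 d))
  | .a2R b s d₁ => (.a2 b s d₁, .a1 b s, .al 1 d₁)
  | .a3R b s d₁ d₂ => (.a3 b s d₁ d₂, .a2 b s d₁, .al 2 d₂)
  | .fr b φ v => (.fm b φ, fbody C b v φ)
  | .fS b φ _ _ => (.fm b φ, .fm b φ, .fm b φ)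
  | .st => (.emb C.start, .p0, .p0)
  | .r1 ρ => (.mid ρ, .fm true (C.cond ρ), .emb (C.pred ρ 1))
  | .r2 ρ => (.emb (C.pred ρ 0), .mid ρ, .emb (C.pred ρ 2))
  | .gR => (.pg, .emb C.goal, .p0)

open Classical in
/-- unit shift -/
noncomputable def e (i : Fin m) (r : Fin 5) : Fin m → Fin 5 → ℤ :=
  fun i' r' => if i' = i ∧ r' = r then 1 else 0

/-- shift of the registers `t, r` -/
def ext (x : Fin m → Fin 2 → ℤ) : Fin m → Fin 5 → ℤ :=
  fun i r => if h : (r : ℕ) < 2 then x i ⟨r, h⟩ else 0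

/-- shifts of head and bodies -/
noncomputable def sh (hm : 1 ≤ m) {L : ℕ} : Ru C L →
    (Fin m → Fin 5 → ℤ) × (Fin m → Fin 5 → ℤ) × (Fin m → Fin 5 → ℤ)
  | .fullS i r => (e i r, 0, 0)
  | .syE i r => (e i r, 0, 0)
  | .syS _ => (e ⟨0, hm⟩ (cr 0), 0, 0)
  | .alE _ _ i r => (e i r, 0, 0)
  | .alB c d => (fun i r => max (e ⟨0, hm⟩ (cr c) i r) (e d.2 (dr d.1) i r), 0, 0)
  | .fS _ _ i c => (e i (cr c), 0, 0)
  | .r1 ρ => (0, 0, ext (C.ish ρ 1))
  | .r2 ρ => (ext (C.ish ρ 0), 0, ext (C.ish ρ 2))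
  | _ => (0, 0, 0)

/-- component of a triple -/
def pick {A : Type} (x : A × A × A) (j : Fin 3) : A :=
  if j = 0 then x.1 else if j = 1 then x.2.1 else x.2.2

theorem finite_Subs : Finite (Subs C) := by
  have := C.finRule
  have h : Subs C = ⋃ ρ, {φ | φ ∈ (C.cond ρ).subs} := by
    ext φ
    simp [Subs]
  rw [h]
  exact Set.finite_iUnion fun ρ => List.finite_toSet _

/-- codes of the rules -/
def ruCode (L : ℕ) : Ru C L → Fin 18 × Option (Fin m × Fin 5) × Option (Bool × Bool) ×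
    Option (Fin L) × Option (Fin 3 × (Fin 2 × Fin m)) × Option (Y ⊕ (Fin 2 × Fin m)) ×
    Option (Fin 2 × Fin m) × Option (Fin 2 × Fin m) × Option (Subs C) × Option (Fin m × Fin 3) ×
    Option C.Rule
  | .full0 => (0, none, none, none, none, none, none, none, none, none, none)
  | .fullS i r => (1, some (i, r), none, none, none, none, none, none, none, none, none)
  | .tabR b => (2, none, some (b, b), none, none, none, none, none, none, none, none)
  | .sy0 => (3, none, none, none, none, none, none, none, none, none, none)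
  | .syE i r => (4, some (i, r), none, none, none, none, none, none, none, none, none)
  | .syS n => (5, none, none, some n, none, none, none, none, none, none, none)
  | .al0 c d => (6, none, none, none, some (c, d), none, none, none, none, none, none)
  | .alE c d i r => (7, some (i, r), none, none, some (c, d), none, none, none, none, none, none)
  | .alB c d => (8, none, none, none, some (c, d), none, none, none, none, none, none)
  | .a1R b s => (9, none, some (b, b), none, none, some s, none, none, none, none, none)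
  | .a2R b s d₁ => (10, none, some (b, b), none, none, some s, some d₁, none, none, none, none)
  | .a3R b s d₁ d₂ => (11, none, some (b, b), none, none, some s, some d₁, some d₂, none, none,
      none)
  | .fr b φ v => (12, none, some (b, v), none, none, none, none, none, some φ, none, none)
  | .fS b φ i c => (13, none, some (b, b), none, none, none, none, none, some φ, some (i, c), none)
  | .st => (14, none, none, none, none, none, none, none, none, none, none)
  | .r1 ρ => (15, none, none, none, none, none, none, none, none, none, some ρ)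
  | .r2 ρ => (16, none, none, none, none, none, none, none, none, none, some ρ)
  | .gR => (17, none, none, none, none, none, none, none, none, none, none)

theorem finite_Ru [Finite Y] (L : ℕ) : Finite (Ru C L) := by
  have := C.finRule
  have := finite_Subs C
  apply Finite.of_injective (ruCode C L)
  intro a b h
  cases a <;> cases b <;> simp_all [ruCode]

theorem sh_bdd (hm : 1 ≤ m) {L : ℕ} (ρ : Ru C L) (j : Fin 3) (i : Fin m) (r : Fin 5) :
    pick (sh C hm ρ) j i r = 0 ∨ pick (sh C hm ρ) j i r = 1 := by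
  have he : ∀ (i' : Fin m) (r' : Fin 5), e i' r' i r = 0 ∨ e i' r' i r = 1 := by
    intro i' r'
    unfold e
    split_ifs <;> simp
  have hx : ∀ (ρ : C.Rule) (j : Fin 3), ext (C.ish ρ j) i r = 0 ∨ ext (C.ish ρ j) i r = 1 := by
    intro ρ j
    unfold ext
    split_ifs
    · exact C.ish_bdd _ _ _ _
    · simp
  unfold pick
  cases ρ <;> simp only [sh] <;> split_ifs <;> try (first | exact Or.inl rfl | exact he _ _ | exact hx _ _)
  · rename_i c d _
    rcases he ⟨0, hm⟩ (cr c) with h1 | h1 <;> rcases he d.2 (dr d.1) with h2 | h2 <;>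
      simp [h1, h2]


/-- The compiled shape. -/
noncomputable def shape [Finite Y] (num : Y → ℕ) (hm : 1 ≤ m) (L : ℕ) : Shape m where
  Pred := Pr C
  Rule := Ru C L
  finRule := finite_Ru C L
  pred ρ j := pick (pr C num hm ρ) j
  ish ρ j := pick (sh C hm ρ) j
  ish_bdd := sh_bdd C hm
  tab
    | .tabR b => some b
    | _ => none
  P0 := .p0
  Pg := .pg

/-- the part of the registers `t, r` -/
def tr {p : ℕ} (x : Fin m → Fin 5 → ZMod p) : Fin m → Fin 2 → ZMod p :=
  fun i r => x i (dr r)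

/-- The intended meaning of the predicates. -/
def Sem (num : Y → ℕ) (hm : 1 ≤ m) {p : ℕ} (T : Set (ZMod p × ZMod p × ZMod p)) :
    Pr C → (Fin m → Fin 5 → ZMod p) → Prop
  | .p0, x => x = 0
  | .pg, x => x = 0 ∧ C.Known num T C.goal 0
  | .dead, _ => False
  | .full, _ => True
  | .tab b, x => (x ⟨0, hm⟩ 2, x ⟨0, hm⟩ 3, x ⟨0, hm⟩ 4) ∈ T ↔ b = true
  | .sy n, x => x ⟨0, hm⟩ (cr 0) = n
  | .al c d, x => x ⟨0, hm⟩ (cr c) = x d.2 (dr d.1)
  | .a1 b s, x => ((x ⟨0, hm⟩ 2, x ⟨0, hm⟩ 3, x ⟨0, hm⟩ 4) ∈ T ↔ b = true) ∧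
      s.elim (fun y => x ⟨0, hm⟩ (cr 0) = num y) (fun d => x ⟨0, hm⟩ (cr 0) = x d.2 (dr d.1))
  | .a2 b s d₁, x => ((x ⟨0, hm⟩ 2, x ⟨0, hm⟩ 3, x ⟨0, hm⟩ 4) ∈ T ↔ b = true) ∧
      s.elim (fun y => x ⟨0, hm⟩ (cr 0) = num y) (fun d => x ⟨0, hm⟩ (cr 0) = x d.2 (dr d.1)) ∧
      x ⟨0, hm⟩ (cr 1) = x d₁.2 (dr d₁.1)
  | .a3 b s d₁ d₂, x => ((x ⟨0, hm⟩ 2, x ⟨0, hm⟩ 3, x ⟨0, hm⟩ 4) ∈ T ↔ b = true) ∧
      s.elim (fun y => x ⟨0, hm⟩ (cr 0) = num y) (fun d => x ⟨0, hm⟩ (cr 0) = x d.2 (dr d.1)) ∧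
      x ⟨0, hm⟩ (cr 1) = x d₁.2 (dr d₁.1) ∧ x ⟨0, hm⟩ (cr 2) = x d₂.2 (dr d₂.1)
  | .fm b φ, x => φ.eval num T (tr x) ↔ b = true
  | .emb P, x => (∀ i c, x i (cr c) = 0) ∧ C.Known num T P (tr x)
  | .mid ρ, x => (∀ i c, x i (cr c) = 0) ∧ (C.cond ρ).eval num T (tr x) ∧
      C.Known num T (C.pred ρ 1) (tr x + modp p (C.ish ρ 1))

end

end Comp

end Vale.Agent.P310
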