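import Vale.Agent.Lib.P310.CompDefs

/-!
# P310: soundness of the compiled system (module COMPSOUND)
-/

namespace Vale.Agent.P310

namespace Comp

section
variable {m : ℕ} {Y : Type} [Finite Y] (C : CShape m Y) (num : Y → ℕ) (hm : 1 ≤ m) (L : ℕ)
  {p : ℕ} [NeZero p] (T : Set (ZMod p × ZMod p × ZMod p))

omit [Finite Y] in
theorem snd_cr_ne_dr (c : Fin 3) (d : Fin 2) : cr c ≠ dr d := by
  unfold cr dr
  intro h
  have := congrArg Fin.val h
  simp only at this
  omega

omit [Finite Y] in
theorem snd_e_ne {i i' : Fin m} {r r' : Fin 5} (h : ¬ (i' = i ∧ r' = r)) : e i r i' r' = 0 := by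
  unfold e
  rw [if_neg h]

omit [Finite Y] in
theorem snd_e_self (i : Fin m) (r : Fin 5) : e i r i r = 1 := by
  unfold e
  simp

omit [Finite Y] in
theorem snd_e_le_one (i i' : Fin m) (r r' : Fin 5) : e i r i' r' ≤ 1 := by
  unfold e
  split_ifs <;> simp

omit [Finite Y] in
theorem snd_ext_cr (x : Fin m → Fin 2 → ℤ) (i : Fin m) (c : Fin 3) : ext x i (cr c) = 0 := by
  unfold ext cr
  have : ¬ ((c : ℕ) + 2 < 2) := by omega
  simp

omit [Finite Y] in
theorem snd_ext_dr (x : Fin m → Fin 2 → ℤ) (i : Fin m) (d : Fin 2) : ext x i (dr d) = x i d := by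
  unfold ext dr
  have : (d : ℕ) < 2 := d.2
  simp [this]

omit [Finite Y] [NeZero p] in
/-- one rule, on the free rows -/
theorem sound_step (ρ : Ru C L) (x : Fin m → Fin 5 → ZMod p)
    (hc : ∀ b, ρ = .tabR b →
      ((x ⟨0, hm⟩ 2, x ⟨0, hm⟩ 3, x ⟨0, hm⟩ 4) ∈ T ↔ b = true))
    (h1 : Sem C num hm T (pr C num hm ρ).2.1 (fun i r => x i r + (((sh C hm ρ).2.1 i r : ℤ) : ZMod p)))
    (h2 : Sem C num hm T (pr C num hm ρ).2.2 (fun i r => x i r + (((sh C hm ρ).2.2 i r : ℤ) : ZMod p))) :
    Sem C num hm T (pr C num hm ρ).1 (fun i r => x i r + (((sh C hm ρ).1 i r : ℤ) : ZMod p)) := by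
  cases ρ with
  | full0 => trivial
  | fullS i r => trivial
  | tabR b =>
    have := hc b rfl
    simpa [pr, sh, Sem] using this
  | sy0 =>
    simp only [pr, sh, Sem, Pi.zero_apply, Int.cast_zero, add_zero] at h1 ⊢
    have : x = 0 := h1
    rw [this]
    simp
  | syE i r =>
    by_cases h : i = ⟨0, hm⟩ ∧ r = cr 0
    · simp only [pr, if_pos h, Sem] at h1
    · simp only [pr, if_neg h, Sem, sh, Pi.zero_apply, Int.cast_zero, add_zero] at h1 ⊢
      rw [h1, snd_e_ne (by rintro ⟨h3, h4⟩; exact h ⟨h3.symm, h4.symm⟩)]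
      simp
  | syS n =>
    simp only [pr, Sem, sh, Pi.zero_apply, Int.cast_zero, add_zero] at h1 ⊢
    rw [h1, snd_e_self]
    simp
  | al0 c d =>
    simp only [pr, sh, Sem, Pi.zero_apply, Int.cast_zero, add_zero] at h1 ⊢
    have : x = 0 := h1
    rw [this]
    simp
  | alE c d i r =>
    by_cases h : (i = ⟨0, hm⟩ ∧ r = cr c) ∨ (i = d.2 ∧ r = dr d.1)
    · simp only [pr, if_pos h, Sem] at h1
    · simp only [pr, if_neg h, Sem, sh, Pi.zero_apply, Int.cast_zero, add_zero] at h1 ⊢
      rw [h1, snd_e_ne (by rintro ⟨h3, h4⟩; exact h (Or.inl ⟨h3.symm, h4.symm⟩)),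
        snd_e_ne (by rintro ⟨h3, h4⟩; exact h (Or.inr ⟨h3.symm, h4.symm⟩))]
  | alB c d =>
    simp only [pr, Sem, sh, Pi.zero_apply, Int.cast_zero, add_zero] at h1 ⊢
    rw [h1]
    rw [snd_e_self, snd_e_self, max_eq_left (snd_e_le_one _ _ _ _), max_eq_right (snd_e_le_one _ _ _ _)]
  | a1R b s =>
    cases s with
    | inl y =>
      simp only [pr, Sem, sh, Pi.zero_apply, Int.cast_zero, add_zero, Sum.elim_inl] at h1 h2 ⊢
      exact ⟨h1, h2⟩
    | inr d =>
      simp only [pr, Sem, sh, Pi.zero_apply, Int.cast_zero, add_zero, Sum.elim_inr] at h1 h2 ⊢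
      exact ⟨h1, h2⟩
  | a2R b s d₁ =>
    simp only [pr, Sem, sh, Pi.zero_apply, Int.cast_zero, add_zero] at h1 h2 ⊢
    exact ⟨h1.1, h1.2, h2⟩
  | a3R b s d₁ d₂ =>
    simp only [pr, Sem, sh, Pi.zero_apply, Int.cast_zero, add_zero] at h1 h2 ⊢
    exact ⟨h1.1, h1.2.1, h1.2.2, h2⟩
  | fr b φ v =>
    obtain ⟨φ, hφ⟩ := φ
    simp only [pr, sh, Pi.zero_apply, Int.cast_zero, add_zero] at h1 h2 ⊢
    have key : ∀ (y : Y) (d₁ d₂ : Fin 2 × Fin m), Sem C num hm T (.a3 b (.inl y) d₁ d₂) x →
        ((BF.atom y d₁ d₂ : BF m Y).eval num T (tr x) ↔ b = true) := by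
      intro y d₁ d₂ h
      obtain ⟨h3, h4, h5, h6⟩ := h
      simp only [BF.eval, tr]
      rw [← h5, ← h6]
      have h4' : x ⟨0, hm⟩ (cr 0) = num y := h4
      rw [← h4']
      exact h3
    have key2 : ∀ (d₀ d₁ d₂ : Fin 2 × Fin m), Sem C num hm T (.a3 b (.inr d₀) d₁ d₂) x →
        ((BF.raw d₀ d₁ d₂ : BF m Y).eval num T (tr x) ↔ b = true) := by
      intro d₀ d₁ d₂ h
      obtain ⟨h3, h4, h5, h6⟩ := h
      simp only [BF.eval, tr]
      rw [← h5, ← h6]
      have h4' : x ⟨0, hm⟩ (cr 0) = x d₀.2 (dr d₀.1) := h4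
      rw [← h4']
      exact h3
    cases φ with
    | tt =>
      cases b with
      | true => simp [Sem, BF.eval]
      | false => exact absurd h1 (by simp [fbody, Sem])
    | atom y d₁ d₂ => exact key y d₁ d₂ h1
    | raw d₀ d₁ d₂ => exact key2 d₀ d₁ d₂ h1
    | and φ ψ =>
      cases b with
      | true =>
        simp only [fbody, if_true, Sem] at h1 h2 ⊢
        simp only [BF.eval]
        tauto
      | false =>
        cases v with
        | true =>
          simp only [fbody, if_true, Sem] at h1 h2 ⊢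
          simp only [BF.eval]
          simp at h1 h2 ⊢
          tauto
        | false =>
          simp only [fbody, Sem] at h1 h2 ⊢
          simp only [BF.eval]
          simp at h1 h2 ⊢
          tauto
    | or φ ψ =>
      cases b with
      | false =>
        simp only [fbody, Sem] at h1 h2 ⊢
        simp only [BF.eval]
        simp at h1 h2 ⊢
        tauto
      | true =>
        cases v with
        | true =>
          simp only [fbody, if_true, Sem] at h1 h2 ⊢
          simp only [BF.eval]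
          tauto
        | false =>
          simp only [fbody, Sem] at h1 h2 ⊢
          simp only [BF.eval]
          simp at h1 h2 ⊢
          tauto
    | not φ =>
      cases b with
      | false =>
        simp only [fbody, Sem, BF.eval] at h1 h2 ⊢
        simp at h1 h2 ⊢
        tauto
      | true =>
        simp only [fbody, Sem, BF.eval] at h1 h2 ⊢
        simp at h1 h2 ⊢
        tauto
  | fS b φ i c =>
    simp only [pr, Sem, sh, Pi.zero_apply, Int.cast_zero, add_zero] at h1 ⊢
    have : tr (fun i_1 r => x i_1 r + ((e i (cr c) i_1 r : ℤ) : ZMod p)) = tr x := by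
      funext i' d
      simp only [tr]
      rw [snd_e_ne (by rintro ⟨_, h4⟩; exact snd_cr_ne_dr c d h4.symm)]
      simp
    rw [this]
    exact h1
  | st =>
    simp only [pr, sh, Sem, Pi.zero_apply, Int.cast_zero, add_zero] at h1 ⊢
    have h3 : x = 0 := h1
    rw [h3]
    refine ⟨fun _ _ => rfl, ?_⟩
    exact CShape.Known.start
  | r1 ρ =>
    simp only [pr, sh, Sem, Pi.zero_apply, Int.cast_zero, add_zero] at h1 h2 ⊢
    refine ⟨?_, by simpa using h1, ?_⟩
    · intro i c
      have := h2.1 i c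
      rw [snd_ext_cr] at this
      simpa using this
    · have h3 := h2.2
      have h4 : tr (fun i r => x i r + ((ext (C.ish ρ 1) i r : ℤ) : ZMod p)) =
          tr x + modp p (C.ish ρ 1) := by
        funext i d
        simp only [tr, Pi.add_apply, modp]
        rw [snd_ext_dr]
      rw [h4] at h3
      exact h3
  | r2 ρ =>
    simp only [pr, sh, Sem, Pi.zero_apply, Int.cast_zero, add_zero] at h1 h2 ⊢
    have h4 : ∀ j, tr (fun i r => x i r + ((ext (C.ish ρ j) i r : ℤ) : ZMod p)) =
        tr x + modp p (C.ish ρ j) := by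
      intro j
      funext i d
      simp only [tr, Pi.add_apply, modp]
      rw [snd_ext_dr]
    refine ⟨?_, ?_⟩
    · intro i c
      rw [snd_ext_cr, h1.1 i c]
      simp
    · rw [h4]
      refine CShape.Known.rule ρ (tr x) h1.2.1 h1.2.2 ?_
      have h3 := h2.2
      rw [h4] at h3
      exact h3
  | gR =>
    simp only [pr, sh, Sem, Pi.zero_apply, Int.cast_zero, add_zero] at h1 h2 ⊢
    have h3 : x = 0 := h2
    rw [h3] at h1 ⊢
    refine ⟨rfl, ?_⟩
    exact h1.2

theorem sound_aux (P : ((shape C num hm L).toHorn p T).Pred) (z : Fin (m + 1) → Fin 5 → ZMod p)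
    (hk : ((shape C num hm L).toHorn p T).Known P z) :
    Sem C num hm T P (fun i => z i.castSucc) := by
  have hsh : ∀ (ρ : Ru C L) (j : Fin 3) (z : Fin (m + 1) → Fin 5 → ZMod p),
      (fun i : Fin m => (z + ((shape C num hm L).toHorn p T).shift ρ j) i.castSucc) =
      (fun i r => z i.castSucc r + ((pick (sh C hm ρ) j i r : ℤ) : ZMod p)) := by
    intro ρ j z
    funext i r
    have h1 : ((shape C num hm L).toHorn p T).shift ρ j i.castSucc =
        fun r => ((pick (sh C hm ρ) j i r : ℤ) : ZMod p) := by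
      show addr (fun i r => ((pick (sh C hm ρ) j i r : ℤ) : ZMod p)) i.castSucc = _
      unfold addr
      rw [Fin.snoc_castSucc]
    rw [Pi.add_apply, Pi.add_apply, h1]
  induction hk with
  | ax => exact (rfl : (0 : Fin m → Fin 5 → ZMod p) = 0)
  | rule ρ z hz hc h1 h2 ih1 ih2 =>
    have e1 := hsh ρ 1 z
    have e2 := hsh ρ 2 z
    have e0 := hsh ρ 0 z
    have ih1' := Eq.subst (motive := fun w => Sem C num hm T (pr C num hm ρ).2.1 w) e1 ih1
    have ih2' := Eq.subst (motive := fun w => Sem C num hm T (pr C num hm ρ).2.2 w) e2 ih2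
    refine Eq.subst (motive := fun w => Sem C num hm T (pr C num hm ρ).1 w) e0.symm ?_
    refine sound_step C num hm L T ρ (fun i => z i.castSucc) ?_ ih1' ih2'
    rintro b rfl
    exact hc 0 b rfl rfl

/-- Soundness: induction on `Horn.Known`. -/
theorem sound (P : Pr C) (z : Fin (m + 1) → Fin 5 → ZMod p)
    (hk : ((shape C num hm L).toHorn p T).Known P z) :
    Sem C num hm T P (fun i => z i.castSucc) :=
  sound_aux C num hm L T P z hk

end

end Comp

end Vale.Agent.P310
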