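import Vale.Agent.Lib.P310.CompSound
import Vale.Agent.Lib.P310.CompComplete

/-!
# P310: compiling conditional Horn systems to shapes (assembly)
-/

namespace Vale.Agent.P310

theorem compile_addr_sum {m : ℕ} {X : Type} [AddCommGroup X] (x : Fin m → X) :
    ∑ i, addr x i = 0 := by
  rw [Fin.sum_univ_castSucc]
  simp [addr]

theorem compile_addr_zero {m : ℕ} {X : Type} [AddCommGroup X] :
    addr (0 : Fin m → X) = 0 := by
  funext i
  refine Fin.lastCases ?_ (fun j => ?_) i <;> simp [addr]

theorem compile_known_sum {m : ℕ} (S : Shape m) (p : ℕ) (T : Set (ZMod p × ZMod p × ZMod p))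
    (P : (S.toHorn p T).Pred) (x : Fin (m + 1) → Fin 5 → ZMod p) (h : (S.toHorn p T).Known P x) :
    ∑ i, x i = 0 := by
  induction h with
  | ax => simp
  | rule ρ z hz hc h1 h2 _ _ =>
    have : ∑ i, (z + (S.toHorn p T).shift ρ 0) i = ∑ i, z i + ∑ i, (S.toHorn p T).shift ρ 0 i := by
      simp [Finset.sum_add_distrib]
    rw [this, hz, zero_add]
    exact compile_addr_sum _

theorem compile_fbody_ne {m : ℕ} {Y : Type} (C : CShape m Y) (b v : Bool) (φ : BF m Y) :
    (Comp.fbody C b v φ).1 ≠ .pg ∧ (Comp.fbody C b v φ).2 ≠ .pg := by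
  cases φ <;> unfold Comp.fbody <;> (try split_ifs) <;> simp

/-- Every conditional Horn system is simulated by a shape that does not depend on the modulus
and on the table. -/
theorem compile {m : ℕ} {Y : Type} [Finite Y] (C : CShape m Y) (num : Y → ℕ) (hm : 1 ≤ m) :
    ∃ S : Shape m, ∀ (p : ℕ) [NeZero p] (T : Set (ZMod p × ZMod p × ZMod p)),
      (S.toHorn p T).Good ∧
      ((S.toHorn p T).Known (S.toHorn p T).Pg 0 ↔ C.Known num T C.goal 0) := by
  obtain ⟨L, hL⟩ : ∃ L, ∀ y, num y < L := by
    obtain ⟨B, hB⟩ := (Set.finite_range num).bddAbove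
    exact ⟨B + 1, fun y => Nat.lt_succ_of_le (hB ⟨y, rfl⟩)⟩
  refine ⟨Comp.shape C num hm L, fun p _ T => ?_⟩
  have hpg : ∀ x, ((Comp.shape C num hm L).toHorn p T).Known Comp.Pr.pg x →
      (fun i : Fin m => x i.castSucc) = 0 ∧ C.Known num T C.goal 0 := by
    intro x hx
    exact Comp.sound C num hm L T .pg x hx
  refine ⟨⟨?_, ?_, ?_, ?_, ?_⟩, ?_⟩
  · intro ρ j
    exact compile_addr_sum _
  · intro ρ
    change (Comp.pr C num hm ρ).1 ≠ .p0
    cases ρ with
    | syE i r => simp only [Comp.pr]; split_ifs <;> simp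
    | alE c d i r => simp only [Comp.pr]; split_ifs <;> simp
    | _ => simp [Comp.pr]
  · intro ρ j hj
    have h1 : (Comp.pr C num hm ρ).2.1 ≠ .pg ∧ (Comp.pr C num hm ρ).2.2 ≠ .pg := by
      cases ρ with
      | fr b φ v => exact compile_fbody_ne C b v φ
      | a1R b s =>
        refine ⟨by simp [Comp.pr], ?_⟩
        cases s <;> simp [Comp.pr]
      | syE i r => simp only [Comp.pr]; split_ifs <;> simp
      | alE c d i r => simp only [Comp.pr]; split_ifs <;> simp
      | _ => simp [Comp.pr]
    change Comp.pick (Comp.pr C num hm ρ) j ≠ .pg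
    unfold Comp.pick
    rw [if_neg hj]
    split_ifs
    · exact h1.1
    · exact h1.2
  · intro h
    cases h
  · intro x hx
    have h1 := (hpg x hx).1
    have h2 := compile_known_sum _ p T _ x hx
    rw [Fin.sum_univ_castSucc] at h2
    have h3 : ∑ i : Fin m, x i.castSucc = 0 := by
      apply Finset.sum_eq_zero
      intro i _
      exact congrFun h1 i
    rw [h3, zero_add] at h2
    funext i
    refine Fin.lastCases ?_ (fun j => ?_) i
    · exact h2
    · exact congrFun h1 j
  · constructor
    · intro h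
      exact (hpg 0 h).2
    · intro h
      have h1 := Comp.complete_emb C num hm L T hL C.goal 0 h 0 rfl (fun _ _ => rfl)
      rw [compile_addr_zero] at h1
      have e0 : ∀ j, ((Comp.shape C num hm L).toHorn p T).shift (Comp.Ru.gR : Comp.Ru C L) j = 0 := by
        intro j
        change addr (fun i r => ((Comp.pick (Comp.sh C hm (Comp.Ru.gR : Comp.Ru C L)) j i r : ℤ) :
          ZMod p)) = 0
        have : (fun (i : Fin m) (r : Fin 5) =>
            ((Comp.pick (Comp.sh C hm (Comp.Ru.gR : Comp.Ru C L)) j i r : ℤ) : ZMod p)) = 0 := by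
          funext i r
          unfold Comp.pick
          split_ifs <;> simp [Comp.sh]
        rw [this, compile_addr_zero]
      have h2 := Horn.Known.rule (h := (Comp.shape C num hm L).toHorn p T)
        (Comp.Ru.gR : Comp.Ru C L) 0 (by simp) (by
          intro i b hb
          cases hb) (by rw [e0, add_zero]; exact h1)
        (by rw [e0, add_zero]; exact Horn.Known.ax)
      rw [e0, add_zero] at h2
      exact h2

end Vale.Agent.P310
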