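import Vale.Agent.Lib.P310.Defs

/-!
# P310: the bijective game for `k`-WL (definition)
-/

namespace Vale.Agent.P310

variable {k : ℕ} {V W : Type*}

/-- A back-and-forth system for the bijective game on tuples of length `k`. -/
structure BackForth (k : ℕ) {V W : Type*} (G : SimpleGraph V) (H : SimpleGraph W)
    (R : (Fin k → V) → (Fin k → W) → Prop) : Prop where
  eq_iff : ∀ x y, R x y → ∀ i j, (x i = x j ↔ y i = y j)
  adj_iff : ∀ x y, R x y → ∀ i j, (G.Adj (x i) (x j) ↔ H.Adj (y i) (y j))
  ext : ∀ x y, R x y → ∃ f : V ≃ W, ∀ v i,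
    R (Function.update x i v) (Function.update y i (f v))

end Vale.Agent.P310
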