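import Vale.Agent.Lib.P310.Horn
import Vale.Agent.Lib.P310.WLGame

/-!
# P310: the pair of graphs of a Horn system (definitions)

Vertices are pairs of a label and a view `u : X`, and isolated vertices in `J`. Gadget labels carry
a local assignment `α` of a node; `ord` and `hub` labels serve to give the vertices of different
nodes different degrees.
-/

namespace Vale.Agent.P310

/-- the classes of gadget labels: labels without the local assignment -/
inductive Cls (M : ℕ) (R : Type) (B : ℕ)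
  | rule (i : Fin M) (ρ : R) (γ : Wire R B)
  | ax (γ : Wire R B)
  | goal

/-- the labels (`R` is the type of the rules) -/
inductive Lab (M : ℕ) (R : Type) (B D : ℕ)
  | rule (i : Fin M) (ρ : R) (γ : Wire R B) (α : Slot B → ZMod 2)
  | ax (γ : Wire R B) (α : Fin M → ZMod 2)
  | goal (α : Fin M → ZMod 2)
  | ord (c : Cls M R B) (e : Fin D)
  | hub (e : Fin (D + 1))

section
variable {M : ℕ} {X : Type} [AddCommGroup X] (h : Horn M X) {B D : ℕ}

/-- gadget vertices that really occur in the graph number `g` -/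
def Lab.Valid (g : Bool) : Lab M h.Rule B D → X → Prop
  | .rule i ρ _ α, u => h.cond ρ i u ∧ ∑ s, α s = 0
  | .ax _ α, u => u = 0 ∧ ∑ i, α i = 0
  | .goal α, u => u = 0 ∧ ∑ i, α i = if g then 1 else 0
  | _, _ => False

/-- the node of a gadget vertex -/
def Lab.node : Lab M h.Rule B D → X → Option (Node h B)
  | .rule i ρ γ _, u => some (.rule i ρ γ u)
  | .ax γ _, _ => some (.ax γ)
  | .goal _, _ => some .goal
  | _, _ => none

/-- the vertex assigns the value `c` to the variable `v` -/
def Lab.Holds : Lab M h.Rule B D → X → Var h B → ZMod 2 → Prop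
  | .rule i ρ γ α, u, v, c => ∃ s, v = slotVar i ρ γ u s ∧ α s = c
  | .ax γ α, _, v, c => ∃ i, v = (i, h.P0, γ, 0) ∧ α i = c
  | .goal α, _, v, c => ∃ i, v = (i, h.Pg, 0, 0) ∧ α i = c
  | _, _, _, _ => False

/-- the class of a gadget label -/
def Lab.cls {R : Type} : Lab M R B D → Option (Cls M R B)
  | .rule i ρ γ _ => some (.rule i ρ γ)
  | .ax γ _ => some (.ax γ)
  | .goal _ => some .goal
  | _ => none

/-- labels of order vertices and hubs -/
def Lab.IsOrd {R : Type} : Lab M R B D → Prop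
  | .ord _ _ => True
  | .hub _ => True
  | _ => False

/-- adjacency of gadget vertices: different nodes that share a variable and agree on it -/
def GadAdj (g : Bool) (l : Lab M h.Rule B D) (u : X) (l' : Lab M h.Rule B D) (u' : X) : Prop :=
  l.Valid h g u ∧ l'.Valid h g u' ∧ l.node h u ≠ l'.node h u' ∧
    ∃ v c, l.Holds h u v c ∧ l'.Holds h u' v c

/-- adjacency of an order vertex and a gadget vertex -/
def OrdAdj (cidx : Cls M h.Rule B → ℕ) (rank : X → ℕ) (g : Bool) (l : Lab M h.Rule B D) (u : X)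
    (l' : Lab M h.Rule B D) (u' : X) : Prop :=
  ∃ c e c', l = .ord c e ∧ l'.Valid h g u' ∧ l'.cls = some c' ∧
    (cidx c < cidx c' ∨ (c = c' ∧ rank u ≤ rank u'))

/-- adjacency -/
def PairAdj (cidx : Cls M h.Rule B → ℕ) (rank : X → ℕ) (g : Bool) (l : Lab M h.Rule B D) (u : X)
    (l' : Lab M h.Rule B D) (u' : X) : Prop :=
  GadAdj h g l u l' u' ∨ OrdAdj h cidx rank g l u l' u' ∨ OrdAdj h cidx rank g l' u' l u ∨
    (l.IsOrd ∧ l'.IsOrd ∧ (l, u) ≠ (l', u'))

/-- The graph number `g` of the Horn system; the vertices in `J` are isolated. -/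
def pairGraph (D : ℕ) (J : Type) (cidx : Cls M h.Rule B → ℕ) (rank : X → ℕ) (g : Bool) :
    SimpleGraph ((Lab M h.Rule B D × X) ⊕ J) where
  Adj a b := ∃ l u l' u', a = Sum.inl (l, u) ∧ b = Sum.inl (l', u') ∧
    PairAdj h cidx rank g l u l' u'
  symm := by
    constructor
    rintro a b ⟨l, u, l', u', ha, hb, h1 | h1 | h1 | h1⟩
    · obtain ⟨h2, h3, h4, v, c, h5, h6⟩ := h1
      exact ⟨l', u', l, u, hb, ha, Or.inl ⟨h3, h2, h4.symm, v, c, h6, h5⟩⟩
    · exact ⟨l', u', l, u, hb, ha, Or.inr (Or.inr (Or.inl h1))⟩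
    · exact ⟨l', u', l, u, hb, ha, Or.inr (Or.inl h1)⟩
    · exact ⟨l', u', l, u, hb, ha, Or.inr (Or.inr (Or.inr ⟨h1.2.1, h1.1, h1.2.2.symm⟩))⟩
  loopless := by
    constructor
    rintro a ⟨l, u, l', u', ha, hb, h1⟩
    have h0 : (l, u) = (l', u') := by
      rw [ha] at hb
      exact Sum.inl_injective hb
    obtain ⟨rfl, rfl⟩ := Prod.mk.inj h0
    rcases h1 with h1 | h1 | h1 | h1
    · exact h1.2.2.1 rfl
    · obtain ⟨c, e, c', rfl, h2, -⟩ := h1
      exact h2
    · obtain ⟨c, e, c', rfl, h2, -⟩ := h1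
      exact h2
    · exact h1.2.2 rfl

/-- The hypotheses on the parameters of the pair of graphs. -/
structure PairOk (B D : ℕ) (cidx : Cls M h.Rule B → ℕ) (rank : X → ℕ) : Prop where
  good : h.Good
  hM : 2 ≤ M
  hB : M ≤ B
  finRule : Finite h.Rule
  finX : Finite X
  cidx_inj : Function.Injective cidx
  rank_inj : Function.Injective rank
  deg_lt : ∀ (g : Bool) (l : Lab M h.Rule B D) (u : X),
    {b : Lab M h.Rule B D × X | GadAdj h g l u b.1 b.2}.ncard < D

end

end Vale.Agent.P310
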