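import Mathlib

/-!
# P310: definitions of the statement (Weisfeiler-Leman colours, input encoding)
-/

namespace Vale.Agent.P310

/-- The type of the colours of `k`-tuples after `r` rounds of refinement. -/
def Color (k : ℕ) : ℕ → Type
  | 0 => Fin k → Fin k → Prop × Prop
  | r + 1 => Color k r × Multiset (Fin k → Color k r)

/-- The colour `C_r(x)` of the tuple `x` after `r` rounds: `C_0(x)` is the atomic type of `x`, and
`C_{r+1}(x) = (C_r(x), {{ (C_r(x[1 ← y]), …, C_r(x[k ← y])) : y ∈ V }})`. -/
noncomputable def color {k : ℕ} {V : Type*} [Fintype V] (G : SimpleGraph V) :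
    (r : ℕ) → (Fin k → V) → Color k r
  | 0, x => fun i j => (x i = x j, G.Adj (x i) (x j))
  | r + 1, x => (color G r x,
      (Finset.univ : Finset V).val.map fun y => fun i => color G r (Function.update x i y))

/-- `k`-WL equivalence: after every number of rounds the multisets of the colours of all
`k`-tuples coincide. -/
def WLEquiv (k : ℕ) {V W : Type*} [Fintype V] [Fintype W] (G : SimpleGraph V)
    (H : SimpleGraph W) : Prop :=
  ∀ r : ℕ, (Finset.univ : Finset (Fin k → V)).val.map (color G r) =
    (Finset.univ : Finset (Fin k → W)).val.map (color H r)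

open Classical in
/-- The adjacency matrix of a graph, row by row. -/
noncomputable def adjBits {n : ℕ} (G : SimpleGraph (Fin n)) : List Bool :=
  (List.finRange n).flatMap fun a => (List.finRange n).map fun b => decide (G.Adj a b)

/-- A pair of graphs with `n` vertices each. -/
abbrev GraphPair : Type := Σ n : ℕ, SimpleGraph (Fin n) × SimpleGraph (Fin n)

/-- The input word: the two adjacency matrices. -/
noncomputable def encPair (a : GraphPair) : List Bool := adjBits a.2.1 ++ adjBits a.2.2

open Classical in
/-- The decision problem `G ≡_k H`. -/
noncomputable def wlDecision (k : ℕ) (a : GraphPair) : Bool := decide (WLEquiv k a.2.1 a.2.2)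

/-- The machine `A` (Mathlib's `FinTM2`, a Turing machine with finitely many stacks) decides
`≡_k`, and `T` bounds its running time: on the adjacency matrices of every pair of graphs with `n`
vertices each it halts with the right answer after at most `T n` steps. The worst-case running
time `T_A` is the least such `T`. -/
def DecidesIn (k : ℕ) (A : Turing.TM2ComputableAux Bool Bool) (T : ℕ → ℕ) : Prop :=
  ∀ (n : ℕ) (G H : SimpleGraph (Fin n)),
    Nonempty (Turing.TM2OutputsInTime A.tm
      ((encPair ⟨n, G, H⟩).map A.inputAlphabet.invFun)
      (some ([wlDecision k ⟨n, G, H⟩].map A.outputAlphabet.invFun)) (T n))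

end Vale.Agent.P310
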