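import Vale.Agent.Lib.P310.CoreGraph

/-!
# P310: degrees determine the nodes (module DEG)
-/

namespace Vale.Agent.P310

variable {M : ℕ} {X : Type} [AddCommGroup X] {h : Horn M X} {B D : ℕ}

private theorem deg_finite_cls (R : Type) [Finite R] : Finite (Cls M R B) := by
  refine Finite.of_surjective
    (α := (Fin M × R × Wire R B) ⊕ (Wire R B ⊕ Unit))
    (fun x => match x with
      | .inl a => Cls.rule a.1 a.2.1 a.2.2
      | .inr (.inl γ) => Cls.ax γ
      | .inr (.inr _) => Cls.goal) ?_
  rintro (⟨i, ρ, γ⟩ | γ | _)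
  · exact ⟨.inl (i, ρ, γ), rfl⟩
  · exact ⟨.inr (.inl γ), rfl⟩
  · exact ⟨.inr (.inr ()), rfl⟩

private theorem deg_finite_lab (R : Type) [Finite R] : Finite (Lab M R B D) := by
  have := deg_finite_cls (M := M) (B := B) R
  refine Finite.of_surjective
    (α := (Fin M × R × Wire R B × (Slot B → ZMod 2)) ⊕ ((Wire R B × (Fin M → ZMod 2)) ⊕
      ((Fin M → ZMod 2) ⊕ ((Cls M R B × Fin D) ⊕ Fin (D + 1)))))
    (fun x => match x with
      | .inl a => Lab.rule a.1 a.2.1 a.2.2.1 a.2.2.2
      | .inr (.inl a) => Lab.ax a.1 a.2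
      | .inr (.inr (.inl a)) => Lab.goal a
      | .inr (.inr (.inr (.inl a))) => Lab.ord a.1 a.2
      | .inr (.inr (.inr (.inr a))) => Lab.hub a) ?_
  rintro (⟨i, ρ, γ, α⟩ | ⟨γ, α⟩ | α | ⟨c, e⟩ | e)
  · exact ⟨.inl (i, ρ, γ, α), rfl⟩
  · exact ⟨.inr (.inl (γ, α)), rfl⟩
  · exact ⟨.inr (.inr (.inl α)), rfl⟩
  · exact ⟨.inr (.inr (.inr (.inl (c, e)))), rfl⟩
  · exact ⟨.inr (.inr (.inr (.inr e))), rfl⟩

/-- the order positions below a class and a view -/
private def degK (cidx : Cls M h.Rule B → ℕ) (rank : X → ℕ) (c' : Cls M h.Rule B) (u : X) :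
    Set (Cls M h.Rule B × X) :=
  {p | cidx p.1 < cidx c' ∨ (p.1 = c' ∧ rank p.2 ≤ rank u)}

private theorem deg_nbh (J : Type) (cidx : Cls M h.Rule B → ℕ) (rank : X → ℕ) (g : Bool)
    (l : Lab M h.Rule B D) (u : X) :
    {w | (pairGraph h D J cidx rank g).Adj (Sum.inl (l, u)) w}.ncard =
      {b : Lab M h.Rule B D × X | PairAdj h cidx rank g l u b.1 b.2}.ncard := by
  have h1 : {w | (pairGraph h D J cidx rank g).Adj (Sum.inl (l, u)) w} =
      Sum.inl '' {b : Lab M h.Rule B D × X | PairAdj h cidx rank g l u b.1 b.2} := by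
    ext w
    constructor
    · rintro ⟨l1, u1, l2, u2, h1, rfl, h2⟩
      obtain ⟨rfl, rfl⟩ := Prod.mk.inj (Sum.inl_injective h1)
      exact ⟨(l2, u2), h2, rfl⟩
    · rintro ⟨⟨l2, u2⟩, h2, rfl⟩
      exact ⟨l, u, l2, u2, rfl, rfl, h2⟩
  rw [h1, Set.ncard_image_of_injective _ Sum.inl_injective]

private theorem deg_valid_cls {g : Bool} {l : Lab M h.Rule B D} {u : X} (hv : l.Valid h g u) :
    ∃ c, l.cls = some c := by
  cases l with
  | rule i ρ γ α => exact ⟨_, rfl⟩
  | ax γ α => exact ⟨_, rfl⟩
  | goal α => exact ⟨_, rfl⟩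
  | ord c e => exact hv.elim
  | hub e => exact hv.elim

private theorem deg_valid_not_ord {g : Bool} {l : Lab M h.Rule B D} {u : X}
    (hv : l.Valid h g u) : ¬ l.IsOrd := by
  cases l with
  | rule i ρ γ α => exact fun h => h
  | ax γ α => exact fun h => h
  | goal α => exact fun h => h
  | ord c e => exact hv.elim
  | hub e => exact hv.elim

/-- the degree of a gadget vertex -/
private theorem deg_gadget {cidx : Cls M h.Rule B → ℕ} {rank : X → ℕ}
    (hp : PairOk h B D cidx rank) {g : Bool} {l : Lab M h.Rule B D} {u : X}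
    (hv : l.Valid h g u) {c' : Cls M h.Rule B} (hc : l.cls = some c') :
    {b : Lab M h.Rule B D × X | PairAdj h cidx rank g l u b.1 b.2}.ncard =
      {b : Lab M h.Rule B D × X | GadAdj h g l u b.1 b.2}.ncard +
        (degK cidx rank c' u).ncard * D := by
  have := hp.finRule
  have := hp.finX
  have := deg_finite_lab (M := M) (B := B) (D := D) h.Rule
  have := deg_finite_cls (M := M) (B := B) h.Rule
  have h1 : {b : Lab M h.Rule B D × X | PairAdj h cidx rank g l u b.1 b.2} =
      {b : Lab M h.Rule B D × X | GadAdj h g l u b.1 b.2} ∪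
        {b : Lab M h.Rule B D × X | OrdAdj h cidx rank g b.1 b.2 l u} := by
    ext b
    constructor
    · rintro (h1 | ⟨c, e, c', rfl, -⟩ | h1 | h1)
      · exact Or.inl h1
      · exact hv.elim
      · exact Or.inr h1
      · exact absurd h1.1 (deg_valid_not_ord hv)
    · rintro (h1 | h1)
      · exact Or.inl h1
      · exact Or.inr (Or.inr (Or.inl h1))
  rw [h1, Set.ncard_union_eq]
  · congr 1
    have h2 : {b : Lab M h.Rule B D × X | OrdAdj h cidx rank g b.1 b.2 l u} =
        (fun p : (Cls M h.Rule B × X) × Fin D =>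
          ((Lab.ord p.1.1 p.2 : Lab M h.Rule B D), p.1.2)) '' (degK cidx rank c' u ×ˢ Set.univ) := by
      ext b
      constructor
      · rintro ⟨c, e, c'', hb, -, hc'', h3⟩
        rw [hc] at hc''
        obtain rfl := Option.some.inj hc''
        exact ⟨((c, b.2), e), ⟨h3, trivial⟩, Prod.ext hb.symm rfl⟩
      · rintro ⟨⟨⟨c, x⟩, e⟩, ⟨h3, -⟩, rfl⟩
        exact ⟨c, e, c', rfl, hv, hc, h3⟩
    rw [h2, Set.ncard_image_of_injective, Set.ncard_prod, Set.ncard_univ, Nat.card_fin]
    rintro ⟨⟨c, x⟩, e⟩ ⟨⟨c1, x1⟩, e1⟩ heq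
    simp only [Prod.mk.injEq, Lab.ord.injEq] at heq
    obtain ⟨⟨rfl, rfl⟩, rfl⟩ := heq
    rfl
  · rw [Set.disjoint_left]
    rintro b h2 ⟨c, e, c'', hb, -⟩
    have h3 : b.1.Valid h g b.2 := h2.2.1
    rw [hb] at h3
    exact h3

private theorem degK_strict {cidx : Cls M h.Rule B → ℕ} {rank : X → ℕ}
    (hp : PairOk h B D cidx rank) {c1 c2 : Cls M h.Rule B} {u1 u2 : X}
    (hlt : cidx c1 < cidx c2 ∨ (c1 = c2 ∧ rank u1 < rank u2)) :
    (degK cidx rank c1 u1).ncard < (degK cidx rank c2 u2).ncard := by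
  have := hp.finRule
  have := hp.finX
  have := deg_finite_cls (M := M) (B := B) h.Rule
  refine Set.ncard_lt_ncard ?_ (Set.toFinite _)
  rw [Set.ssubset_iff_of_subset]
  · refine ⟨(c2, u2), Or.inr ⟨rfl, le_rfl⟩, ?_⟩
    rintro (h1 | ⟨h1, h2⟩)
    · rcases hlt with h3 | ⟨rfl, -⟩
      · exact absurd h1 (by simpa using h3.le)
      · exact lt_irrefl _ h1
    · simp only at h1 h2
      subst h1
      rcases hlt with h3 | ⟨-, h3⟩
      · exact lt_irrefl _ h3
      · omega
  · rintro ⟨c, x⟩ (h1 | ⟨h1, h2⟩)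
    · rcases hlt with h3 | ⟨rfl, -⟩
      · exact Or.inl (lt_trans h1 h3)
      · exact Or.inl h1
    · simp only at h1 h2
      subst h1
      rcases hlt with h3 | ⟨rfl, h3⟩
      · exact Or.inl h3
      · exact Or.inr ⟨rfl, h2.trans h3.le⟩

private theorem degK_inj {cidx : Cls M h.Rule B → ℕ} {rank : X → ℕ}
    (hp : PairOk h B D cidx rank) {c1 c2 : Cls M h.Rule B} {u1 u2 : X}
    (heq : (degK cidx rank c1 u1).ncard = (degK cidx rank c2 u2).ncard) : c1 = c2 ∧ u1 = u2 := by
  have hc : c1 = c2 := by
    apply hp.cidx_inj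
    rcases lt_trichotomy (cidx c1) (cidx c2) with h1 | h1 | h1
    · have := degK_strict hp (u1 := u1) (u2 := u2) (Or.inl h1)
      omega
    · exact h1
    · have := degK_strict hp (u1 := u2) (u2 := u1) (Or.inl h1)
      omega
  subst hc
  refine ⟨rfl, hp.rank_inj ?_⟩
  rcases lt_trichotomy (rank u1) (rank u2) with h1 | h1 | h1
  · have := degK_strict hp (c1 := c1) (c2 := c1) (Or.inr ⟨rfl, h1⟩)
    omega
  · exact h1
  · have := degK_strict hp (c1 := c1) (c2 := c1) (Or.inr ⟨rfl, h1⟩)
    omega

/-- lower bound of the degree of order vertices and hubs -/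
private theorem deg_ord {cidx : Cls M h.Rule B → ℕ} {rank : X → ℕ}
    (hp : PairOk h B D cidx rank) {g : Bool} {l : Lab M h.Rule B D} {u : X}
    (hl : l.IsOrd) :
    Nat.card (Cls M h.Rule B × X) * D + (D + 1) ≤
      {b : Lab M h.Rule B D × X | PairAdj h cidx rank g l u b.1 b.2}.ncard + 1 := by
  have := hp.finRule
  have := hp.finX
  have := deg_finite_lab (M := M) (B := B) (D := D) h.Rule
  have := deg_finite_cls (M := M) (B := B) h.Rule
  let f : ((Cls M h.Rule B × Fin D) ⊕ Fin (D + 1)) × X → Lab M h.Rule B D × X := fun p =>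
    (match p.1 with
      | .inl a => Lab.ord a.1 a.2
      | .inr a => Lab.hub a, p.2)
  have hf : Function.Injective f := by
    rintro ⟨a | a, x⟩ ⟨a' | a', x'⟩ heq
    · obtain ⟨h1, h2⟩ := Prod.mk.inj heq
      simp only [Lab.ord.injEq] at h1
      obtain ⟨h3, h4⟩ := h1
      exact Prod.ext (congrArg Sum.inl (Prod.ext h3 h4)) h2
    · obtain ⟨h1, -⟩ := Prod.mk.inj heq
      simp only [reduceCtorEq] at h1
    · obtain ⟨h1, -⟩ := Prod.mk.inj heq
      simp only [reduceCtorEq] at h1
    · obtain ⟨h1, h2⟩ := Prod.mk.inj heq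
      simp only [Lab.hub.injEq] at h1
      exact Prod.ext (congrArg Sum.inr h1) h2
  have h1 : Set.range f ⊆ insert (l, u)
      {b : Lab M h.Rule B D × X | PairAdj h cidx rank g l u b.1 b.2} := by
    rintro b ⟨⟨a, x⟩, rfl⟩
    by_cases hb : f (a, x) = (l, u)
    · exact Or.inl hb
    · right
      refine Or.inr (Or.inr (Or.inr ⟨hl, ?_, ?_⟩))
      · rcases a with a | a
        · exact trivial
        · exact trivial
      · intro h2
        exact hb h2.symm
  have h2 : (Set.range f).ncard ≤
      {b : Lab M h.Rule B D × X | PairAdj h cidx rank g l u b.1 b.2}.ncard + 1 :=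
    (Set.ncard_le_ncard h1 (Set.toFinite _)).trans (Set.ncard_insert_le _ _)
  refine le_trans ?_ h2
  rw [← Set.image_univ, Set.ncard_image_of_injective _ hf, Set.ncard_univ]
  simp only [Nat.card_prod, Nat.card_sum, Nat.card_fin]
  have h3 : 1 ≤ Nat.card X := Nat.card_pos
  have h4 : D + 1 ≤ (D + 1) * Nat.card X := Nat.le_mul_of_pos_right _ h3
  calc Nat.card (Cls M h.Rule B) * Nat.card X * D + (D + 1)
      ≤ Nat.card (Cls M h.Rule B) * Nat.card X * D + (D + 1) * Nat.card X :=
        Nat.add_le_add_left h4 _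
    _ = (Nat.card (Cls M h.Rule B) * D + (D + 1)) * Nat.card X := by ring

/-- other labels have degree zero -/
private theorem deg_zero {cidx : Cls M h.Rule B → ℕ} {rank : X → ℕ} {g : Bool}
    {l : Lab M h.Rule B D} {u : X} (hl : ¬ l.IsOrd) (hv : ¬ l.Valid h g u) :
    {b : Lab M h.Rule B D × X | PairAdj h cidx rank g l u b.1 b.2} = ∅ := by
  rw [Set.eq_empty_iff_forall_notMem]
  rintro b (h1 | ⟨c, e, c', rfl, -⟩ | ⟨c, e, c', -, h1, -⟩ | h1)
  · exact hv h1.1
  · exact hl trivial
  · exact hv h1
  · exact hl h1.1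

/-- The degree of an existing gadget vertex determines its node. (Order vertices adjacent to a
gadget vertex of class `(c', u')`: those with `(c, u) ≤ (c', u')`; larger class: at least `D`
more; the number of gadget neighbours is `< D`; order and hub vertices have degree at least
(number of order and hub vertices) - 1, which is larger; all the other vertices have degree 0.) -/
theorem node_of_degree {J : Type} {cidx : Cls M h.Rule B → ℕ} {rank : X → ℕ}
    (hp : PairOk h B D cidx rank) [Finite J] {g g' : Bool} {l : Lab M h.Rule B D} {u : X}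
    (hv : l.Valid h g u) {b : (Lab M h.Rule B D × X) ⊕ J}
    (hdeg : {w | (pairGraph h D J cidx rank g).Adj (Sum.inl (l, u)) w}.ncard =
      {w | (pairGraph h D J cidx rank g').Adj b w}.ncard) :
    ∃ l' u', b = Sum.inl (l', u') ∧ l'.Valid h g' u' ∧ l'.node h u' = l.node h u := by
  have := hp.finRule
  have := hp.finX
  have := deg_finite_cls (M := M) (B := B) h.Rule
  obtain ⟨c, hc⟩ := deg_valid_cls hv
  have hD : 0 < D := lt_of_le_of_lt (Nat.zero_le _) (hp.deg_lt g l u)
  have hK : 0 < (degK cidx rank c u).ncard := by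
    rw [Set.ncard_pos (Set.toFinite _)]
    exact ⟨(c, u), Or.inr ⟨rfl, le_rfl⟩⟩
  have hK2 : (degK cidx rank c u).ncard ≤ Nat.card (Cls M h.Rule B × X) := by
    rw [← Set.ncard_univ]
    exact Set.ncard_le_ncard (Set.subset_univ _) (Set.toFinite _)
  have hlt := hp.deg_lt g l u
  rw [deg_nbh, deg_gadget hp hv hc] at hdeg
  rcases b with ⟨l', u'⟩ | j
  · rw [deg_nbh] at hdeg
    refine ⟨l', u', rfl, ?_⟩
    by_cases hv' : l'.Valid h g' u'
    · refine ⟨hv', ?_⟩
      obtain ⟨c', hc'⟩ := deg_valid_cls hv'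
      rw [deg_gadget hp hv' hc'] at hdeg
      have hlt' := hp.deg_lt g' l' u'
      have h1 : (degK cidx rank c u).ncard = (degK cidx rank c' u').ncard := by
        have h2 := congrArg (fun n => n / D) hdeg
        simp only [Nat.add_mul_div_right _ _ hD, Nat.div_eq_of_lt hlt,
          Nat.div_eq_of_lt hlt', zero_add] at h2
        exact h2
      obtain ⟨rfl, rfl⟩ := degK_inj hp h1
      cases l with
      | rule i ρ γ α =>
        cases l' with
        | rule i' ρ' γ' α' =>
          simp only [Lab.cls, Option.some.injEq] at hc hc'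
          rw [← hc'] at hc
          simp only [Cls.rule.injEq] at hc
          obtain ⟨rfl, rfl, rfl⟩ := hc
          rfl
        | ax γ' α' =>
          simp only [Lab.cls, Option.some.injEq] at hc hc'
          rw [← hc'] at hc
          simp only [reduceCtorEq] at hc
        | goal α' =>
          simp only [Lab.cls, Option.some.injEq] at hc hc'
          rw [← hc'] at hc
          simp only [reduceCtorEq] at hc
        | ord c e => exact hv'.elim
        | hub e => exact hv'.elim
      | ax γ α =>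
        cases l' with
        | rule i' ρ' γ' α' =>
          simp only [Lab.cls, Option.some.injEq] at hc hc'
          rw [← hc'] at hc
          simp only [reduceCtorEq] at hc
        | ax γ' α' =>
          simp only [Lab.cls, Option.some.injEq] at hc hc'
          rw [← hc'] at hc
          simp only [Cls.ax.injEq] at hc
          obtain rfl := hc
          rfl
        | goal α' =>
          simp only [Lab.cls, Option.some.injEq] at hc hc'
          rw [← hc'] at hc
          simp only [reduceCtorEq] at hc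
        | ord c e => exact hv'.elim
        | hub e => exact hv'.elim
      | goal α =>
        cases l' with
        | rule i' ρ' γ' α' =>
          simp only [Lab.cls, Option.some.injEq] at hc hc'
          rw [← hc'] at hc
          simp only [reduceCtorEq] at hc
        | ax γ' α' =>
          simp only [Lab.cls, Option.some.injEq] at hc hc'
          rw [← hc'] at hc
          simp only [reduceCtorEq] at hc
        | goal α' => rfl
        | ord c e => exact hv'.elim
        | hub e => exact hv'.elim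
      | ord c e => exact hv.elim
      | hub e => exact hv.elim
    · exfalso
      by_cases hl' : l'.IsOrd
      · have h1 := deg_ord hp (g := g') (u := u') hl'
        rw [← hdeg] at h1
        have h2 : (degK cidx rank c u).ncard * D ≤ Nat.card (Cls M h.Rule B × X) * D :=
          Nat.mul_le_mul_right _ hK2
        omega
      · rw [deg_zero hl' hv', Set.ncard_empty] at hdeg
        have h1 : 0 < (degK cidx rank c u).ncard * D := Nat.mul_pos hK hD
        omega
  · exfalso
    have h1 : {w | (pairGraph h D J cidx rank g').Adj (Sum.inr j) w} = ∅ := by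
      rw [Set.eq_empty_iff_forall_notMem]
      rintro w ⟨l1, u1, l2, u2, h1, -⟩
      simp only [reduceCtorEq] at h1
    rw [h1, Set.ncard_empty] at hdeg
    have h2 : 0 < (degK cidx rank c u).ncard * D := Nat.mul_pos hK hD
    omega

end Vale.Agent.P310
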