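import Vale.Agent.Lib.P310.CoreGraph
import Vale.Agent.Lib.P310.Shape
import Vale.Agent.Lib.P310.ExtA

/-!
# P310: bound of the gadget degree (module DEGBOUND)
-/

namespace Vale.Agent.P310

/-- gadget labels, without the dependence on `D` -/
private abbrev GLab (M : ℕ) (R : Type) (B : ℕ) : Type :=
  (Fin M × R × Wire R B × (Slot B → ZMod 2)) ⊕ ((Wire R B × (Fin M → ZMod 2)) ⊕ (Fin M → ZMod 2))

section
variable {M : ℕ} {X : Type} [AddCommGroup X] (h : Horn M X) {B D : ℕ}

/-- the views of the variables of a vertex -/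
private def viewOf (l : Lab M h.Rule B D) (u : X) (a : Slot B) : X :=
  match l with
  | .rule i ρ _ _ => u + h.shift ρ a.part i
  | _ => 0

/-- the gadget vertex with a given label one of whose slots has view `x` -/
private def vtx (x : X) : GLab M h.Rule B × Slot B → Lab M h.Rule B D × X
  | (Sum.inl (i, ρ, γ, α), s) => (.rule i ρ γ α, x - h.shift ρ s.part i)
  | (Sum.inr (Sum.inl (γ, α)), _) => (.ax γ α, 0)
  | (Sum.inr (Sum.inr α), _) => (.goal α, 0)

private theorem view_of_holds {l : Lab M h.Rule B D} {u : X} {v : Var h B} {c : ZMod 2}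
    (hl : l.Holds h u v c) : ∃ a : Slot B, v.2.2.2 = viewOf h l u a := by
  cases l with
  | rule i ρ γ α =>
    obtain ⟨s, rfl, -⟩ := hl
    exact ⟨s, rfl⟩
  | ax γ α =>
    obtain ⟨i, rfl, -⟩ := hl
    exact ⟨none, rfl⟩
  | goal α =>
    obtain ⟨i, rfl, -⟩ := hl
    exact ⟨none, rfl⟩
  | ord c e => exact hl.elim
  | hub e => exact hl.elim

private theorem mem_of_holds {g : Bool} {l : Lab M h.Rule B D} {u : X} {v : Var h B} {c : ZMod 2}
    (hv : l.Valid h g u) (hl : l.Holds h u v c) :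
    ∃ a : GLab M h.Rule B × Slot B, vtx h v.2.2.2 a = (l, u) := by
  cases l with
  | rule i ρ γ α =>
    obtain ⟨s, rfl, -⟩ := hl
    refine ⟨(Sum.inl (i, ρ, γ, α), s), ?_⟩
    change ((Lab.rule i ρ γ α : Lab M h.Rule B D), (u + h.shift ρ s.part i) - h.shift ρ s.part i) =
      (Lab.rule i ρ γ α, u)
    rw [add_sub_cancel_right]
  | ax γ α =>
    refine ⟨(Sum.inr (Sum.inl (γ, α)), none), ?_⟩
    change ((Lab.ax γ α : Lab M h.Rule B D), (0 : X)) = (Lab.ax γ α, u)
    rw [hv.1]
  | goal α =>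
    refine ⟨(Sum.inr (Sum.inr α), none), ?_⟩
    change ((Lab.goal α : Lab M h.Rule B D), (0 : X)) = (Lab.goal α, u)
    rw [hv.1]
  | ord c e => exact hl.elim
  | hub e => exact hl.elim

private theorem gad_ncard_le [Finite h.Rule] (g : Bool) (l : Lab M h.Rule B D) (u : X) :
    {b : Lab M h.Rule B D × X | GadAdj h g l u b.1 b.2}.ncard ≤
      Nat.card (Slot B × (GLab M h.Rule B × Slot B)) := by
  classical
  have : Finite (Wire h.Rule B) := inferInstance
  let F : Slot B × (GLab M h.Rule B × Slot B) → Lab M h.Rule B D × X :=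
    fun a => vtx h (viewOf h l u a.1) a.2
  have hsub : {b : Lab M h.Rule B D × X | GadAdj h g l u b.1 b.2} ⊆ F '' Set.univ := by
    rintro ⟨l', u'⟩ ⟨-, hv', -, v, c, h1, h2⟩
    obtain ⟨a, ha⟩ := view_of_holds h h1
    obtain ⟨b, hb⟩ := mem_of_holds h hv' h2
    refine ⟨(a, b), Set.mem_univ _, ?_⟩
    change vtx h (viewOf h l u a) b = (l', u')
    rw [← ha, hb]
  refine (Set.ncard_le_ncard hsub (Set.toFinite _)).trans ?_
  refine (Set.ncard_image_le (Set.toFinite _)).trans ?_
  rw [Set.ncard_univ]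

end

/-- A bound for the number of gadget neighbours that does not depend on the modulus. -/
theorem deg_bound {m : ℕ} (S : Shape m) (B : ℕ) :
    ∃ D₀ : ℕ, ∀ (D p : ℕ) [NeZero p] (T : Set (ZMod p × ZMod p × ZMod p)) (g : Bool)
      (l : Lab (m + 1) S.Rule B D) (u : Fin 5 → ZMod p),
      {b : Lab (m + 1) S.Rule B D × (Fin 5 → ZMod p) |
        GadAdj (S.toHorn p T) g l u b.1 b.2}.ncard < D₀ := by
  have : Finite S.Rule := S.finRule
  refine ⟨Nat.card (Slot B × (GLab (m + 1) S.Rule B × Slot B)) + 1, ?_⟩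
  intro D p _ T g l u
  have : Finite (S.toHorn p T).Rule := S.finRule
  exact Nat.lt_succ_of_le (gad_ncard_le (S.toHorn p T) g l u)

end Vale.Agent.P310
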