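import Vale.Agent.Lib.P310.ExtA

/-!
# P310: the extension lemma (Duplicator's combinatorial core) (module EXTEND)

See `notes/P310/blueprint.md`.
-/

namespace Vale.Agent.P310

variable {M : ℕ} {X : Type} [AddCommGroup X] {h : Horn M X} {B : ℕ}

private theorem wireGen_inj' {R : Type} {B : ℕ} {a b : R × Slot B}
    (he : wireGen a = wireGen b) : a = b := by
  classical
  by_contra hne
  have h1 := congrFun he a
  simp only [wireGen] at h1
  rw [Pi.single_eq_same, Pi.single_eq_of_ne hne] at h1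
  exact one_ne_zero h1

private theorem known_sum (hg : h.Good) {P : h.Pred} {x : Fin M → X} (hk : h.Known P x) :
    ∑ i, x i = 0 := by
  cases hk with
  | ax => simp
  | rule ρ z hz hc h1 h2 =>
    simp only [Pi.add_apply, Finset.sum_add_distrib, hz, hg.shift_sum, add_zero]

private theorem known_P0 (hg : h.Good) {x : Fin M → X} (hk : h.Known h.P0 x) : x = 0 := by
  generalize hP : h.P0 = P at hk
  cases hk with
  | ax => rfl
  | rule ρ z hz hc h1 h2 => exact absurd hP.symm (hg.head_ne ρ)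

private theorem known_Pg (hg : h.Good) (hgoal : ¬ h.Known h.Pg 0) {x : Fin M → X} :
    ¬ h.Known h.Pg x := by
  intro hk
  have := hg.goal_zero x hk
  rw [this] at hk
  exact hgoal hk

/-- the walls -/
private def Wall (h : Horn M X) (B : ℕ) (P : h.Pred) (γ : Wire h.Rule B) (x : Fin M → X)
    (r : ZMod 2) : Prop :=
  (h.Known P x ∧ r = 0) ∨ (P = h.Pg ∧ γ = 0 ∧ x = 0 ∧ r = 1)

private theorem Wall.sum (hg : h.Good) {P : h.Pred} {γ : Wire h.Rule B} {x : Fin M → X}
    {r : ZMod 2} (hw : Wall h B P γ x r) : ∑ i, x i = 0 := by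
  rcases hw with ⟨hk, -⟩ | ⟨-, -, hx, -⟩
  · exact known_sum hg hk
  · simp [hx]

private theorem Wall.runique (hg : h.Good) (hgoal : ¬ h.Known h.Pg 0) {P : h.Pred}
    {γ : Wire h.Rule B} {x x' : Fin M → X}
    {r r' : ZMod 2} (hw : Wall h B P γ x r) (hw' : Wall h B P γ x' r') : r = r' := by
  rcases hw with ⟨hk, hr⟩ | ⟨hP, -, hx, hr⟩ <;> rcases hw' with ⟨hk', hr'⟩ | ⟨hP', -, hx', hr'⟩
  · rw [hr, hr']
  · rw [hP'] at hk
    exact absurd hk (known_Pg hg hgoal)
  · rw [hP] at hk'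
    exact absurd hk' (known_Pg hg hgoal)
  · rw [hr, hr']

/-- two walls with predicate `P0` or `Pg` have the same address -/
private theorem Wall.x_zero (hg : h.Good) (hgoal : ¬ h.Known h.Pg 0) {P : h.Pred}
    {γ : Wire h.Rule B} {x : Fin M → X} {r : ZMod 2} (hw : Wall h B P γ x r)
    (hP : P = h.P0 ∨ P = h.Pg) : x = 0 := by
  rcases hw with ⟨hk, -⟩ | ⟨-, -, hx, -⟩
  · rcases hP with hP | hP
    · rw [hP] at hk
      exact known_P0 hg hk
    · rw [hP] at hk
      exact absurd hk (known_Pg hg hgoal)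
  · exact hx

/-- addresses that agree in all rows but one are equal -/
private theorem addr_ext {x x' : Fin M → X} (hx : ∑ i, x i = 0) (hx' : ∑ i, x' i = 0)
    (i₁ : Fin M) (hne : ∀ i, i ≠ i₁ → x i = x' i) : x = x' := by
  classical
  have h1 : ∑ i, (x i - x' i) = 0 := by rw [Finset.sum_sub_distrib, hx, hx', sub_zero]
  rw [Finset.sum_eq_single i₁ (fun i _ hi => by rw [hne i hi, sub_self])
    (fun h => absurd (Finset.mem_univ _) h)] at h1
  funext i
  by_cases hi : i = i₁
  · rw [hi]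
    exact sub_eq_zero.1 h1
  · exact hne i hi

private theorem fix_eq {ι : Type} [Fintype ι] (f : ι → Var h B) (hf : Function.Injective f)
    (V : Set (Var h B)) (D : Var h B → ZMod 2) (r : ZMod 2)
    (hcase : (∃ i, f i ∉ V) ∨ ∑ i, D (f i) = r) :
    ∃ D' : Var h B → ZMod 2, (∀ v ∈ V, D' v = D v) ∧ ∑ i, D' (f i) = r := by
  classical
  rcases hcase with ⟨i₀, hi₀⟩ | hr
  · refine ⟨Function.update D (f i₀) (r - ∑ i ∈ Finset.univ.erase i₀, D (f i)), ?_, ?_⟩
    · intro v hv
      refine Function.update_of_ne ?_ _ _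
      intro he
      rw [he] at hv
      exact hi₀ hv
    · have h1 : ∀ i ∈ Finset.univ.erase i₀,
          Function.update D (f i₀) (r - ∑ i ∈ Finset.univ.erase i₀, D (f i)) (f i) = D (f i) := by
        intro i hi
        exact Function.update_of_ne (fun he => (Finset.ne_of_mem_erase hi) (hf he)) _ _
      rw [← Finset.add_sum_erase _ _ (Finset.mem_univ i₀), Function.update_self,
        Finset.sum_congr rfl h1]
      ring
  · exact ⟨D, fun _ _ => rfl, hr⟩

private theorem sat_congr {y : Node h B} {D D' : Var h B → ZMod 2}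
    (hv : ∀ v ∈ y.vars, D' v = D v) : y.Sat D' ↔ y.Sat D := by
  cases y with
  | rule i ρ γ u =>
    simp only [Node.Sat]
    rw [Finset.sum_congr rfl (fun s _ => hv _ ⟨s, rfl⟩)]
  | ax γ =>
    simp only [Node.Sat]
    rw [Finset.sum_congr rfl (fun i _ => hv _ ⟨i, rfl⟩)]
  | goal =>
    simp only [Node.Sat]
    rw [Finset.sum_congr rfl (fun i _ => hv _ ⟨i, rfl⟩)]

private theorem posOk_of {S : Set (Node h B)} {y' : Node h B} {D D' : Var h B → ZMod 2}
    (hD : PosOk S D) (hag : ∀ v ∈ covered S, D' v = D v) (hsat : y'.Sat D')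
    (hw : ∀ P γ x r, Wall h B P γ x r → (∀ i : Fin M, (i, P, γ, x i) ∈ covered (insert y' S)) →
      (∃ i : Fin M, (i, P, γ, x i) ∉ covered S) → ∑ i : Fin M, D' (i, P, γ, x i) = r) :
    PosOk (insert y' S) D' := by
  refine ⟨?_, ?_, ?_⟩
  · intro y hy
    rcases hy with rfl | hy
    · exact hsat
    · exact (sat_congr (fun v hv => hag v ⟨y, hy, hv⟩)).2 (hD.sat y hy)
  · intro P γ x hk hcov
    by_cases hall : ∀ i : Fin M, (i, P, γ, x i) ∈ covered S
    · rw [Finset.sum_congr rfl (fun i _ => hag _ (hall i))]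
      exact hD.wall P γ x hk hall
    · push Not at hall
      exact hw P γ x 0 (Or.inl ⟨hk, rfl⟩) hcov hall
  · intro hcov
    by_cases hall : ∀ i : Fin M, ((i, h.Pg, 0, 0) : Var h B) ∈ covered S
    · rw [Finset.sum_congr rfl (fun i _ => hag _ (hall i))]
      exact hD.goal hall
    · push Not at hall
      exact hw h.Pg 0 0 1 (Or.inr ⟨rfl, rfl, rfl, rfl⟩) hcov hall

private theorem covered_insert {S : Set (Node h B)} {y' : Node h B} {v : Var h B}
    (hv : v ∈ covered (insert y' S)) (hn : v ∉ covered S) : v ∈ y'.vars := by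
  obtain ⟨y, hy, hv⟩ := hv
  rcases hy with rfl | hy
  · exact hv
  · exact absurd ⟨y, hy, hv⟩ hn


private theorem extend_wall (hg : h.Good) (hgoal : ¬ h.Known h.Pg 0)
    (S : Set (Node h B)) (D : Var h B → ZMod 2) (hD : PosOk S D) (y' : Node h B)
    (hw : ∀ i ρ γ u, y' ≠ Node.rule i ρ γ u) :
    ∃ D' : Var h B → ZMod 2, (∀ v ∈ covered S, D' v = D v) ∧ PosOk (insert y' S) D' := by
  cases y' with
  | rule i ρ γ u => exact absurd rfl (hw i ρ γ u)
  | ax γ =>
    obtain ⟨D', hag, hs⟩ := fix_eq (fun i : Fin M => ((i, h.P0, γ, 0) : Var h B))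
      (fun i j hij => (Prod.mk.inj hij).1) (covered S) D 0 (by
        by_cases hall : ∀ i : Fin M, ((i, h.P0, γ, 0) : Var h B) ∈ covered S
        · exact Or.inr (hD.wall h.P0 γ 0 Horn.Known.ax hall)
        · push Not at hall
          exact Or.inl hall)
    refine ⟨D', hag, posOk_of hD hag hs ?_⟩
    intro P γ' x r hwall hcov ⟨i, hi⟩
    obtain ⟨j, hj⟩ := covered_insert (hcov i) hi
    simp only [Prod.mk.injEq] at hj
    obtain ⟨-, rfl, rfl, -⟩ := hj
    have hx := hwall.x_zero hg hgoal (Or.inl rfl)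
    subst hx
    rcases hwall with ⟨-, hr⟩ | ⟨hP, -⟩
    · rw [hr]
      exact hs
    · exact absurd hP hg.P0_ne
  | goal =>
    obtain ⟨D', hag, hs⟩ := fix_eq (fun i : Fin M => ((i, h.Pg, 0, 0) : Var h B))
      (fun i j hij => (Prod.mk.inj hij).1) (covered S) D 1 (by
        by_cases hall : ∀ i : Fin M, ((i, h.Pg, 0, 0) : Var h B) ∈ covered S
        · exact Or.inr (hD.goal hall)
        · push Not at hall
          exact Or.inl hall)
    refine ⟨D', hag, posOk_of hD hag hs ?_⟩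
    intro P γ' x r hwall hcov ⟨i, hi⟩
    obtain ⟨j, hj⟩ := covered_insert (hcov i) hi
    simp only [Prod.mk.injEq] at hj
    obtain ⟨-, rfl, rfl, -⟩ := hj
    have hx := hwall.x_zero hg hgoal (Or.inr rfl)
    subst hx
    rcases hwall with ⟨hk, -⟩ | ⟨-, -, -, hr⟩
    · exact absurd hk hgoal
    · rw [hr]
      exact hs


private theorem cover_rule {y : Node h B} {i : Fin M} {P : h.Pred} {γ : Wire h.Rule B} {a : X}
    (hP0 : P ≠ h.P0) (hPg : P ≠ h.Pg) (hv : (i, P, γ, a) ∈ y.vars) :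
    ∃ ρ' γ' u', y = Node.rule i ρ' γ' u' := by
  cases y with
  | rule i' ρ' γ' u' =>
    obtain ⟨s, hs⟩ := hv
    have : i = i' := congrArg Prod.fst hs
    exact ⟨ρ', γ', u', by rw [this]⟩
  | ax γ' =>
    obtain ⟨j, hj⟩ := hv
    exact absurd (congrArg (fun v => v.2.1) hj) hP0
  | goal =>
    obtain ⟨j, hj⟩ := hv
    exact absurd (congrArg (fun v => v.2.1) hj) hPg

private theorem wall_unique (hg : h.Good) (hgoal : ¬ h.Known h.Pg 0)
    (S : Finset (Node h B)) (hS : S.card ≤ M) (i₀ : Fin M) {P : h.Pred} {γ : Wire h.Rule B}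
    {x x' : Fin M → X} {r r' : ZMod 2} (hw : Wall h B P γ x r) (hw' : Wall h B P γ x' r')
    (h0 : x i₀ = x' i₀)
    (hc : ∀ i, i ≠ i₀ → ((i, P, γ, x i) : Var h B) ∈ covered (S : Set (Node h B)))
    (hc' : ∀ i, i ≠ i₀ → ((i, P, γ, x' i) : Var h B) ∈ covered (S : Set (Node h B))) :
    x = x' := by
  classical
  by_contra hne
  have hP0 : P ≠ h.P0 := fun hP => hne
    ((hw.x_zero hg hgoal (Or.inl hP)).trans (hw'.x_zero hg hgoal (Or.inl hP)).symm)
  have hPg : P ≠ h.Pg := fun hP => hne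
    ((hw.x_zero hg hgoal (Or.inr hP)).trans (hw'.x_zero hg hgoal (Or.inr hP)).symm)
  have hex : ∀ i₁, ∃ i, i ≠ i₁ ∧ x i ≠ x' i := by
    intro i₁
    by_contra hcon
    push Not at hcon
    exact hne (addr_ext (hw.sum hg) (hw'.sum hg) i₁ hcon)
  obtain ⟨i₁, hi₁, hx₁⟩ := hex i₀
  obtain ⟨i₂, hi₂, hx₂⟩ := hex i₁
  have hi₂0 : i₂ ≠ i₀ := fun he => hx₂ (he ▸ h0)
  have : Nonempty (Node h B) := ⟨Node.goal⟩
  choose! f hfS hfv using hc
  choose! f' hfS' hfv' using hc'
  have hrow : ∀ i, i ≠ i₀ → ∃ ρ' γ' u', f i = Node.rule i ρ' γ' u' :=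
    fun i hi => cover_rule hP0 hPg (hfv i hi)
  have hrow' : ∀ i, i ≠ i₀ → ∃ ρ' γ' u', f' i = Node.rule i ρ' γ' u' :=
    fun i hi => cover_rule hP0 hPg (hfv' i hi)
  have hdiff : ∀ i, i ≠ i₀ → x i ≠ x' i → f i ≠ f' i := by
    intro i hi hx he
    have h1 := hfv i hi
    rw [he] at h1
    exact hx (vars_unique _ h1 (hfv' i hi))
  let g : Fin M → Node h B := fun i => if i = i₀ then f' i₁ else f i
  have hginj : Function.Injective g := by
    intro a b hab
    simp only [g] at hab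
    by_cases ha : a = i₀ <;> by_cases hb : b = i₀
    · rw [ha, hb]
    · rw [if_pos ha, if_neg hb] at hab
      obtain ⟨_, _, _, h1⟩ := hrow' i₁ hi₁
      obtain ⟨_, _, _, h2⟩ := hrow b hb
      have hab' := hab
      rw [h1, h2] at hab'
      have hb1 : i₁ = b := (Node.rule.inj hab').1
      subst hb1
      exact absurd hab.symm (hdiff _ hi₁ hx₁)
    · rw [if_neg ha, if_pos hb] at hab
      obtain ⟨_, _, _, h1⟩ := hrow' i₁ hi₁
      obtain ⟨_, _, _, h2⟩ := hrow a ha
      have hab' := hab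
      rw [h1, h2] at hab'
      have hb1 : a = i₁ := (Node.rule.inj hab').1
      subst hb1
      exact absurd hab (hdiff _ hi₁ hx₁)
    · rw [if_neg ha, if_neg hb] at hab
      obtain ⟨_, _, _, h1⟩ := hrow a ha
      obtain ⟨_, _, _, h2⟩ := hrow b hb
      rw [h1, h2] at hab
      exact (Node.rule.inj hab).1
  have hnot : f' i₂ ∉ Finset.univ.image g := by
    intro hmem
    obtain ⟨a, -, ha⟩ := Finset.mem_image.1 hmem
    simp only [g] at ha
    obtain ⟨_, _, _, h2⟩ := hrow' i₂ hi₂0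
    by_cases ha0 : a = i₀
    · rw [if_pos ha0] at ha
      obtain ⟨_, _, _, h1⟩ := hrow' i₁ hi₁
      rw [h1, h2] at ha
      exact hi₂ (Node.rule.inj ha).1.symm
    · rw [if_neg ha0] at ha
      obtain ⟨_, _, _, h1⟩ := hrow a ha0
      have ha' := ha
      rw [h1, h2] at ha'
      have hb1 : a = i₂ := (Node.rule.inj ha').1
      subst hb1
      exact hdiff _ ha0 hx₂ ha
  have hsub : insert (f' i₂) (Finset.univ.image g) ⊆ S := by
    intro y hy
    rcases Finset.mem_insert.1 hy with rfl | hy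
    · exact Finset.mem_coe.1 (hfS' i₂ hi₂0)
    · obtain ⟨a, -, rfl⟩ := Finset.mem_image.1 hy
      simp only [g]
      split_ifs with ha
      · exact Finset.mem_coe.1 (hfS' i₁ hi₁)
      · exact Finset.mem_coe.1 (hfS a ha)
  have hcard := Finset.card_le_card hsub
  rw [Finset.card_insert_of_notMem hnot, Finset.card_image_of_injective _ hginj,
    Finset.card_univ, Fintype.card_fin] at hcard
  omega

/-- a node that is not a copy of the rule `ρ` with wire label `γ` covers the wire label of at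
most one slot -/
private theorem cover_inj {y : Node h B} {ρ : h.Rule} {γ : Wire h.Rule B}
    (hy : ∀ i u', y ≠ Node.rule i ρ γ u') {s t : Slot B} {i i' : Fin M} {P P' : h.Pred}
    {a a' : X} (hs : ((i, P, γ + wireGen (ρ, s), a) : Var h B) ∈ y.vars)
    (ht : ((i', P', γ + wireGen (ρ, t), a') : Var h B) ∈ y.vars) : s = t := by
  cases y with
  | rule j ρ' γ' u' =>
    obtain ⟨s', hs'⟩ := hs
    obtain ⟨t', ht'⟩ := ht
    have h1 : γ + wireGen (ρ, s) = γ' + wireGen (ρ', s') := congrArg (fun v => v.2.2.1) hs'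
    have h2 : γ + wireGen (ρ, t) = γ' + wireGen (ρ', t') := congrArg (fun v => v.2.2.1) ht'
    refine (wire_unique ?_ h1 h2).1
    intro he
    obtain ⟨h3, h4⟩ := Prod.mk.inj he
    exact hy j u' (by rw [h3, h4])
  | ax γ' =>
    obtain ⟨s', hs'⟩ := hs
    obtain ⟨t', ht'⟩ := ht
    have h1 : γ + wireGen (ρ, s) = γ' := congrArg (fun v => v.2.2.1) hs'
    have h2 : γ + wireGen (ρ, t) = γ' := congrArg (fun v => v.2.2.1) ht'
    have h3 := wireGen_inj' (add_left_cancel (h1.trans h2.symm))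
    exact (Prod.mk.inj h3).2
  | goal =>
    obtain ⟨s', hs'⟩ := hs
    obtain ⟨t', ht'⟩ := ht
    have h1 : γ + wireGen (ρ, s) = 0 := congrArg (fun v => v.2.2.1) hs'
    have h2 : γ + wireGen (ρ, t) = 0 := congrArg (fun v => v.2.2.1) ht'
    have h3 := wireGen_inj' (add_left_cancel (h1.trans h2.symm))
    exact (Prod.mk.inj h3).2

/-- a variable of a copy of the rule -/
private theorem mem_rule {ρ : h.Rule} {γ : Wire h.Rule B} {s : Slot B} {i j : Fin M}
    {P : h.Pred} {a u' : X}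
    (hs : ((i, P, γ + wireGen (ρ, s), a) : Var h B) ∈ (Node.rule j ρ γ u' : Node h B).vars) :
    i = j ∧ P = h.pred ρ s.part ∧ a = u' + h.shift ρ s.part j := by
  obtain ⟨s', hs'⟩ := hs
  have h1 : γ + wireGen (ρ, s) = γ + wireGen (ρ, s') := congrArg (fun v => v.2.2.1) hs'
  have h2 : s = s' := (Prod.mk.inj (wireGen_inj' (add_left_cancel h1))).2
  subst h2
  exact ⟨congrArg (fun v => v.1) hs', congrArg (fun v => v.2.1) hs',
    congrArg (fun v => v.2.2.2) hs'⟩


/-- the combinatorial heart: if all the new variables of the node are forced by walls, then the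
node equation holds -/
private theorem key_sum (hg : h.Good) (hM : 2 ≤ M) (hB : M ≤ B) (hgoal : ¬ h.Known h.Pg 0)
    (S : Finset (Node h B)) (hS : S.card ≤ M) (hok : ∀ y ∈ S, y.Ok) (D : Var h B → ZMod 2)
    (hD : PosOk (S : Set (Node h B)) D) (i₀ : Fin M) (ρ : h.Rule) (γ : Wire h.Rule B) (u : X)
    (hu : h.cond ρ i₀ u) (hyS : Node.rule i₀ ρ γ u ∉ S) (D₁ : Var h B → ZMod 2)
    (hD₁ : ∀ v ∈ covered (S : Set (Node h B)), D₁ v = D v)
    (hF : ∀ s, (slotVar i₀ ρ γ u s : Var h B) ∉ covered (S : Set (Node h B)) →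
      ∃ (x : Fin M → X) (r : ZMod 2), x i₀ = u + h.shift ρ s.part i₀ ∧
        Wall h B (h.pred ρ s.part) (γ + wireGen (ρ, s)) x r ∧
        (∀ i, i ≠ i₀ → ((i, h.pred ρ s.part, γ + wireGen (ρ, s), x i) : Var h B) ∈
          covered (S : Set (Node h B))) ∧
        D₁ (slotVar i₀ ρ γ u s) = r - ∑ i ∈ Finset.univ.erase i₀,
          D (i, h.pred ρ s.part, γ + wireGen (ρ, s), x i)) :
    ∑ s, D₁ (slotVar i₀ ρ γ u s) = 0 := by
  classical
  have hne : Nonempty (Node h B) := ⟨Node.goal⟩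
  have hne' : Nonempty (Fin M → X) := ⟨0⟩
  have hL2 : ∀ y ∈ S, ∀ s t : Slot B, (slotVar i₀ ρ γ u s : Var h B) ∈ y.vars →
      (slotVar i₀ ρ γ u t : Var h B) ∈ y.vars → s = t := by
    intro y hy s t hs ht
    refine slotVar_inj i₀ ρ γ u (vars_inter_subsingleton hg.P0_ne
      (y := Node.rule i₀ ρ γ u) (y' := y) ?_ ⟨s, rfl⟩ hs ⟨t, rfl⟩ ht ⟨i₀, ρ, γ, u, rfl⟩)
    intro he
    rw [he] at hyS
    exact hyS hy
  let New : Finset (Slot B) := Finset.univ.filter
    (fun s => (slotVar i₀ ρ γ u s : Var h B) ∉ covered (S : Set (Node h B)))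
  have hmemN : ∀ s, s ∈ New ↔ (slotVar i₀ ρ γ u s : Var h B) ∉ covered (S : Set (Node h B)) := by
    intro s
    simp [New]
  -- many new slots
  have hcardN : M + 1 ≤ New.card := by
    have h1 : (Finset.univ \ New).card ≤ S.card := by
      have hc : ∀ s ∈ Finset.univ \ New, ∃ y, y ∈ S ∧
          (slotVar i₀ ρ γ u s : Var h B) ∈ y.vars := by
        intro s hs
        have h2 : s ∉ New := (Finset.mem_sdiff.1 hs).2
        rw [hmemN, not_not] at h2
        obtain ⟨y, hy, hv⟩ := h2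
        exact ⟨y, Finset.mem_coe.1 hy, hv⟩
      choose! f hfS hfv using hc
      refine Finset.card_le_card_of_injOn f (fun s hs => hfS s hs) ?_
      intro s hs t ht hst
      have h3 := hfv s hs
      have h4 := hfv t ht
      rw [← hst] at h4
      exact hL2 _ (hfS s hs) s t h3 h4
    have h2 : (Finset.univ \ New).card + New.card = 2 * B + 1 := by
      rw [Finset.card_sdiff_add_card_eq_card (Finset.subset_univ _)]
      simp [Slot]
    omega
  have hF' : ∀ s ∈ New, ∃ (x : Fin M → X) (r : ZMod 2), x i₀ = u + h.shift ρ s.part i₀ ∧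
        Wall h B (h.pred ρ s.part) (γ + wireGen (ρ, s)) x r ∧
        (∀ i, i ≠ i₀ → ((i, h.pred ρ s.part, γ + wireGen (ρ, s), x i) : Var h B) ∈
          covered (S : Set (Node h B))) ∧
        D₁ (slotVar i₀ ρ γ u s) = r - ∑ i ∈ Finset.univ.erase i₀,
          D (i, h.pred ρ s.part, γ + wireGen (ρ, s), x i) :=
    fun s hs => hF s ((hmemN s).1 hs)
  choose! xs rs hx0 hxw hxc hxD using hF'
  -- a slot that is not touched by a node that is not aligned
  obtain ⟨s₁, hs₁, hal⟩ : ∃ s₁ ∈ New, ∀ y ∈ S, (∃ i P a,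
      ((i, P, γ + wireGen (ρ, s₁), a) : Var h B) ∈ y.vars) →
      ∃ i u', y = Node.rule i ρ γ u' := by
    by_contra hcon
    push Not at hcon
    choose! f hfS hfv hfn using hcon
    have h1 : New.card ≤ S.card := by
      refine Finset.card_le_card_of_injOn f (fun s hs => hfS s hs) ?_
      intro s hs t ht hst
      obtain ⟨i, P, a, h3⟩ := hfv s hs
      obtain ⟨i', P', a', h4⟩ := hfv t ht
      rw [← hst] at h4
      exact cover_inj (hfn s hs) h3 h4
    omega
  -- the aligned address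
  obtain ⟨z, hz⟩ : ∃ z : Fin M → X, z = xs s₁ - h.shift ρ s₁.part := ⟨_, rfl⟩
  have hz0 : z i₀ = u := by
    rw [hz, Pi.sub_apply, hx0 s₁ hs₁, add_sub_cancel_right]
  have hzsum : ∑ i, z i = 0 := by
    rw [hz]
    simp only [Pi.sub_apply, Finset.sum_sub_distrib, (hxw s₁ hs₁).sum hg, hg.shift_sum, sub_zero]
  have hA : ∀ i, i ≠ i₀ → Node.rule i ρ γ (z i) ∈ S := by
    intro i hi
    obtain ⟨y, hyS', hyv⟩ := hxc s₁ hs₁ i hi
    obtain ⟨i', u', rfl⟩ := hal y (Finset.mem_coe.1 hyS') ⟨_, _, _, hyv⟩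
    obtain ⟨h1, -, h3⟩ := mem_rule hyv
    subst h1
    have h4 : z i = u' := by
      rw [hz, Pi.sub_apply, h3, add_sub_cancel_right]
    rw [h4]
    exact Finset.mem_coe.1 hyS'
  -- at most one other node
  have hE : ∀ y ∈ S, ∀ y' ∈ S, (∀ i, i ≠ i₀ → y ≠ Node.rule i ρ γ (z i)) →
      (∀ i, i ≠ i₀ → y' ≠ Node.rule i ρ γ (z i)) → y = y' := by
    intro y hy y' hy' hyn hyn'
    by_contra hyy
    let A : Finset (Node h B) := (Finset.univ.erase i₀).image (fun i => Node.rule i ρ γ (z i))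
    have hAcard : A.card = M - 1 := by
      rw [Finset.card_image_of_injective _ (fun i j hij => (Node.rule.inj hij).1),
        Finset.card_erase_of_mem (Finset.mem_univ _), Finset.card_univ, Fintype.card_fin]
    have hy'A : y' ∉ A := by
      intro hm
      obtain ⟨i, hi, he⟩ := Finset.mem_image.1 hm
      exact hyn' i (Finset.ne_of_mem_erase hi) he.symm
    have hyA : y ∉ insert y' A := by
      intro hm
      rcases Finset.mem_insert.1 hm with he | hm
      · exact hyy he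
      · obtain ⟨i, hi, he⟩ := Finset.mem_image.1 hm
        exact hyn i (Finset.ne_of_mem_erase hi) he.symm
    have hsub : insert y (insert y' A) ⊆ S := by
      intro w hw
      rcases Finset.mem_insert.1 hw with rfl | hw
      · exact hy
      · rcases Finset.mem_insert.1 hw with rfl | hw
        · exact hy'
        · obtain ⟨i, hi, rfl⟩ := Finset.mem_image.1 hw
          exact hA i (Finset.ne_of_mem_erase hi)
    have hcard := Finset.card_le_card hsub
    rw [Finset.card_insert_of_notMem hyA, Finset.card_insert_of_notMem hy'A, hAcard] at hcard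
    omega
  -- all the walls are aligned
  have hx : ∀ s ∈ New, xs s = z + h.shift ρ s.part := by
    intro s hs
    by_cases hc : ∀ i, i ≠ i₀ → xs s i = z i + h.shift ρ s.part i
    · funext i
      by_cases hi : i = i₀
      · rw [hi, hx0 s hs, Pi.add_apply, hz0]
      · exact hc i hi
    push Not at hc
    obtain ⟨i₁, hi₁, hxi₁⟩ := hc
    obtain ⟨e, heS, hev⟩ := hxc s hs i₁ hi₁
    have heA : ∀ i, i ≠ i₀ → e ≠ Node.rule i ρ γ (z i) := by
      intro i hi he
      rw [he] at hev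
      obtain ⟨h1, -, h3⟩ := mem_rule hev
      subst h1
      exact hxi₁ h3
    have hsum : ∑ i, (z + h.shift ρ s.part) i = 0 := by
      simp only [Pi.add_apply, Finset.sum_add_distrib, hzsum, hg.shift_sum, add_zero]
    cases e with
    | rule i' ρ' γ' u' =>
      have hrow : i₁ = i' := by
        obtain ⟨s', hs'⟩ := hev
        exact congrArg Prod.fst hs'
      refine addr_ext ((hxw s hs).sum hg) hsum i₁ ?_
      intro i hi
      by_cases hi0 : i = i₀
      · rw [hi0, hx0 s hs, Pi.add_apply, hz0]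
      · by_contra hxi
        obtain ⟨e', heS', hev'⟩ := hxc s hs i hi0
        have heA' : ∀ j, j ≠ i₀ → e' ≠ Node.rule j ρ γ (z j) := by
          intro j hj he
          rw [he] at hev'
          obtain ⟨h1, -, h3⟩ := mem_rule hev'
          subst h1
          exact hxi h3
        have hee := hE _ (Finset.mem_coe.1 heS) _ (Finset.mem_coe.1 heS') heA heA'
        rw [← hee] at hev'
        obtain ⟨s', hs'⟩ := hev'
        have : i = i' := congrArg Prod.fst hs'
        exact hi (this.trans hrow.symm)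
    | ax γ' =>
      exfalso
      obtain ⟨j, hj⟩ := hev
      have hP : h.pred ρ s.part = h.P0 := congrArg (fun v => v.2.1) hj
      have hγ : γ + wireGen (ρ, s) = γ' := congrArg (fun v => v.2.2.1) hj
      have hx0' : xs s = 0 := (hxw s hs).x_zero hg hgoal (Or.inl hP)
      have h1 := hx0 s hs
      rw [hx0', Pi.zero_apply] at h1
      refine (hmemN s).1 hs ⟨_, heS, i₀, ?_⟩
      simp only [slotVar, hP, hγ, ← h1]
    | goal =>
      exfalso
      obtain ⟨j, hj⟩ := hev
      have hP : h.pred ρ s.part = h.Pg := congrArg (fun v => v.2.1) hj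
      have hγ : γ + wireGen (ρ, s) = 0 := congrArg (fun v => v.2.2.1) hj
      have hx0' : xs s = 0 := (hxw s hs).x_zero hg hgoal (Or.inr hP)
      have h1 := hx0 s hs
      rw [hx0', Pi.zero_apply] at h1
      refine (hmemN s).1 hs ⟨_, heS, i₀, ?_⟩
      simp only [slotVar, hP, hγ, ← h1]
  -- at most one old slot
  have hone : ∀ s t, s ∉ New → t ∉ New → s = t := by
    intro s t hs ht
    rw [hmemN, not_not] at hs ht
    obtain ⟨y, hyS', hyv⟩ := hs
    obtain ⟨y', hyS'', hyv'⟩ := ht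
    have hrow : ∀ (w : Node h B) (s : Slot B), (slotVar i₀ ρ γ u s : Var h B) ∈ w.vars →
        ∀ i, i ≠ i₀ → w ≠ Node.rule i ρ γ (z i) := by
      intro w s hw i hi he
      rw [he] at hw
      obtain ⟨s', hs'⟩ := hw
      exact hi (congrArg Prod.fst hs').symm
    have hyy := hE y (Finset.mem_coe.1 hyS') y' (Finset.mem_coe.1 hyS'') (hrow y s hyv)
      (hrow y' t hyv')
    rw [← hyy] at hyv'
    exact hL2 y (Finset.mem_coe.1 hyS') s t hyv hyv'
  -- the bodies are known
  have hbody : ∀ c : Fin 2, h.Known (h.pred ρ c.succ) (z + h.shift ρ c.succ) := by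
    intro c
    obtain ⟨b, hb⟩ : ∃ b : Fin B, (some (c, b) : Slot B) ∈ New := by
      by_contra hcon
      push Not at hcon
      have h1 := hone (some (c, ⟨0, by omega⟩)) (some (c, ⟨1, by omega⟩)) (hcon _) (hcon _)
      simp at h1
    have h1 := hxw _ hb
    have h2 := hx _ hb
    rw [h2] at h1
    rcases h1 with ⟨hk, -⟩ | ⟨hP, -⟩
    · exact hk
    · exact absurd hP (hg.body_ne ρ c.succ (Fin.succ_ne_zero c))
  have hcond : ∀ i, h.cond ρ i (z i) := by
    intro i
    by_cases hi : i = i₀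
    · rw [hi, hz0]
      exact hu
    · exact hok _ (hA i hi)
  have hhead : h.Known (h.pred ρ 0) (z + h.shift ρ 0) :=
    Horn.Known.rule ρ z hzsum hcond (hbody 0) (hbody 1)
  have hall : ∀ j : Fin 3, h.Known (h.pred ρ j) (z + h.shift ρ j) := by
    intro j
    refine Fin.cases hhead (fun c => hbody c) j
  -- all the slot walls hold
  have hslot : ∀ s : Slot B, D₁ (slotVar i₀ ρ γ u s) =
      - ∑ i ∈ Finset.univ.erase i₀, D (slotVar i ρ γ (z i) s) := by
    intro s
    by_cases hs : s ∈ New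
    · have h1 := hxD s hs
      have h2 := hxw s hs
      rcases h2 with ⟨-, hr⟩ | ⟨hP, -⟩
      · rw [h1, hr, hx s hs, zero_sub]
        rfl
      · have hk := hall s.part
        rw [hP] at hk
        exact absurd hk (known_Pg hg hgoal)
    · rw [hmemN, not_not] at hs
      have hcov : ∀ i, (i, h.pred ρ s.part, γ + wireGen (ρ, s), (z + h.shift ρ s.part) i) ∈
          covered (S : Set (Node h B)) := by
        intro i
        by_cases hi : i = i₀
        · rw [hi, Pi.add_apply, hz0]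
          exact hs
        · exact ⟨_, Finset.mem_coe.2 (hA i hi), s, rfl⟩
      have h1 := hD.wall _ (γ + wireGen (ρ, s)) _ (hall s.part) hcov
      rw [hD₁ _ hs, eq_neg_iff_add_eq_zero]
      rw [← Finset.add_sum_erase _ _ (Finset.mem_univ i₀), Pi.add_apply, hz0] at h1
      exact h1
  rw [Finset.sum_congr rfl (fun s _ => hslot s), Finset.sum_neg_distrib, Finset.sum_comm,
    Finset.sum_eq_zero, neg_zero]
  intro i hi
  exact hD.sat _ (Finset.mem_coe.2 (hA i (Finset.ne_of_mem_erase hi)))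

private theorem extend_rule (hg : h.Good) (hM : 2 ≤ M) (hB : M ≤ B) (hgoal : ¬ h.Known h.Pg 0)
    (S : Finset (Node h B)) (hS : S.card ≤ M) (hok : ∀ y ∈ S, y.Ok) (D : Var h B → ZMod 2)
    (hD : PosOk (S : Set (Node h B)) D) (i₀ : Fin M) (ρ : h.Rule) (γ : Wire h.Rule B) (u : X)
    (hu : h.cond ρ i₀ u) (hyS : Node.rule i₀ ρ γ u ∉ S) :
    ∃ D' : Var h B → ZMod 2, (∀ v ∈ covered (S : Set (Node h B)), D' v = D v) ∧
      PosOk (insert (Node.rule i₀ ρ γ u) (S : Set (Node h B))) D' := by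
  classical
  let F : Var h B → (Fin M → X) → ZMod 2 → Prop := fun v x r =>
    v.1 = i₀ ∧ x i₀ = v.2.2.2 ∧ Wall h B v.2.1 v.2.2.1 x r ∧
      ∀ i, i ≠ i₀ → ((i, v.2.1, v.2.2.1, x i) : Var h B) ∈ covered (S : Set (Node h B))
  have hFu : ∀ v x r x' r', F v x r → F v x' r' → x = x' ∧ r = r' := by
    rintro v x r x' r' ⟨-, h1, h2, h3⟩ ⟨-, h1', h2', h3'⟩
    exact ⟨wall_unique hg hgoal S hS i₀ h2 h2' (h1.trans h1'.symm) h3 h3',
      h2.runique hg hgoal h2'⟩
  obtain ⟨D₁, hD₁, hD₁F⟩ : ∃ D₁ : Var h B → ZMod 2,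
      (∀ v ∈ covered (S : Set (Node h B)), D₁ v = D v) ∧
      ∀ v x r, v ∉ covered (S : Set (Node h B)) → F v x r →
        D₁ v = r - ∑ i ∈ Finset.univ.erase i₀, D (i, v.2.1, v.2.2.1, x i) := by
    refine ⟨fun v => if v ∈ covered (S : Set (Node h B)) then D v else
      if hF : ∃ xr : (Fin M → X) × ZMod 2, F v xr.1 xr.2 then
        (Classical.choose hF).2 - ∑ i ∈ Finset.univ.erase i₀,
          D (i, v.2.1, v.2.2.1, (Classical.choose hF).1 i) else 0, ?_, ?_⟩
    · intro v hv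
      simp only [if_pos hv]
    · intro v x r hv hF
      have hex : ∃ xr : (Fin M → X) × ZMod 2, F v xr.1 xr.2 := ⟨(x, r), hF⟩
      simp only [if_neg hv, dif_pos hex]
      obtain ⟨h1, h2⟩ := hFu _ _ _ _ _ (Classical.choose_spec hex) hF
      rw [h1, h2]
  let V' : Set (Var h B) := {v | v ∈ covered (S : Set (Node h B)) ∨ ∃ x r, F v x r}
  have key : (∃ s, (slotVar i₀ ρ γ u s : Var h B) ∉ V') ∨
      ∑ s, D₁ (slotVar i₀ ρ γ u s) = 0 := by
    by_cases hall : ∃ s, (slotVar i₀ ρ γ u s : Var h B) ∉ V'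
    · exact Or.inl hall
    push Not at hall
    right
    refine key_sum hg hM hB hgoal S hS hok D hD i₀ ρ γ u hu hyS D₁ hD₁ ?_
    intro s hs
    rcases hall s with h1 | ⟨x, r, hF⟩
    · exact absurd h1 hs
    · have h2 := hD₁F _ x r hs hF
      obtain ⟨-, h3, h4, h5⟩ := hF
      exact ⟨x, r, h3, h4, h5, h2⟩
  obtain ⟨D', hag, hsum⟩ := fix_eq (slotVar i₀ ρ γ u) (slotVar_inj i₀ ρ γ u) V' D₁ 0 key
  have hagD : ∀ v ∈ covered (S : Set (Node h B)), D' v = D v := fun v hv =>
    (hag v (Or.inl hv)).trans (hD₁ v hv)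
  refine ⟨D', hagD, posOk_of hD hagD hsum ?_⟩
  intro P γ' x r hwall hcov ⟨i, hi⟩
  obtain ⟨s, hs⟩ := covered_insert (hcov i) hi
  have hi0 : i = i₀ := congrArg Prod.fst hs
  subst hi0
  have hoth : ∀ j, j ≠ i → ((j, P, γ', x j) : Var h B) ∈ covered (S : Set (Node h B)) := by
    intro j hj
    by_contra hn
    obtain ⟨s', hs'⟩ := covered_insert (hcov j) hn
    exact hj (congrArg Prod.fst hs')
  have hF : F (i, P, γ', x i) x r := ⟨rfl, rfl, hwall, hoth⟩
  have h1 : ∀ j ∈ Finset.univ.erase i, D' (j, P, γ', x j) = D (j, P, γ', x j) := fun j hj =>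
    hagD _ (hoth j (Finset.ne_of_mem_erase hj))
  rw [← Finset.add_sum_erase _ _ (Finset.mem_univ i), hag _ (Or.inr ⟨x, r, hF⟩),
    hD₁F _ x r hi hF, Finset.sum_congr rfl h1]
  ring

/-- The extension lemma. -/
theorem extend (hg : h.Good) (hM : 2 ≤ M) (hB : M ≤ B) (hgoal : ¬ h.Known h.Pg 0)
    (S : Finset (Node h B)) (hS : S.card ≤ M) (hok : ∀ y ∈ S, y.Ok) (D : Var h B → ZMod 2)
    (hD : PosOk (S : Set (Node h B)) D) (y' : Node h B) (hy' : y'.Ok) :
    ∃ D' : Var h B → ZMod 2, (∀ v ∈ covered (S : Set (Node h B)), D' v = D v) ∧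
      PosOk (insert y' (S : Set (Node h B))) D' := by
  by_cases hyS : y' ∈ S
  · refine ⟨D, fun _ _ => rfl, ?_⟩
    rw [Set.insert_eq_of_mem (Finset.mem_coe.2 hyS)]
    exact hD
  · by_cases hr : ∃ i ρ γ u, y' = Node.rule i ρ γ u
    · obtain ⟨i, ρ, γ, u, rfl⟩ := hr
      exact extend_rule hg hM hB hgoal S hS hok D hD i ρ γ u hy' hyS
    · push Not at hr
      exact extend_wall hg hgoal _ D hD y' hr

end Vale.Agent.P310
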