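import Vale.Agent.Lib.P310.WLGame

/-!
# P310: from back-and-forth systems to `k`-WL equivalence (module WLGAME-A)
-/

namespace Vale.Agent.P310

variable {k : ℕ} {V W : Type*}

private lemma wlGameA_map_eq {C : Type*} [Fintype V] [Fintype W] (f : V ≃ W) (g : V → C)
    (h : W → C) (hgh : ∀ v, g v = h (f v)) :
    (Finset.univ : Finset V).val.map g = (Finset.univ : Finset W).val.map h := by
  have h1 : g = h ∘ f := funext hgh
  rw [h1, ← Multiset.map_map, Multiset.map_univ_val_equiv]

/-- a back-and-forth system preserves all colours -/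
theorem BackForth.color_eq [Fintype V] [Fintype W] {G : SimpleGraph V} {H : SimpleGraph W}
    {R : (Fin k → V) → (Fin k → W) → Prop} (hR : BackForth k G H R) :
    ∀ (r : ℕ) x y, R x y → color G r x = color H r y := by
  intro r
  induction r with
  | zero =>
    intro x y hxy
    funext i j
    exact Prod.ext (propext (hR.eq_iff x y hxy i j)) (propext (hR.adj_iff x y hxy i j))
  | succ r ih =>
    intro x y hxy
    obtain ⟨f, hf⟩ := hR.ext x y hxy
    refine Prod.ext (ih x y hxy) ?_
    exact wlGameA_map_eq f _ _ fun v => funext fun i => ih _ _ (hf v i)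

private lemma wlGameA_equiv (P : (j : ℕ) → (Fin j → V) → (Fin j → W) → Prop)
    (h0 : P 0 Fin.elim0 Fin.elim0)
    (hs : ∀ j < k, ∀ x y, P j x y → ∃ f : V ≃ W, ∀ v,
      P (j + 1) (Fin.snoc (α := fun _ => V) x v) (Fin.snoc (α := fun _ => W) y (f v))) :
    ∀ j ≤ k, ∃ Φ : (Fin j → V) ≃ (Fin j → W), ∀ x, P j x (Φ x) := by
  intro j
  induction j with
  | zero =>
    intro _
    refine ⟨Equiv.ofUnique _ _, fun x => ?_⟩
    have h1 : x = Fin.elim0 := Subsingleton.elim _ _
    have h2 : (Equiv.ofUnique (Fin 0 → V) (Fin 0 → W)) x = Fin.elim0 := Subsingleton.elim _ _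
    rw [h2, h1]
    exact h0
  | succ j ih =>
    intro hj
    obtain ⟨Φ, hΦ⟩ := ih (by omega)
    choose f hf using fun x => hs j (by omega) x (Φ x) (hΦ x)
    refine ⟨(((Fin.snocEquiv fun _ : Fin (j + 1) => V).symm.trans (Equiv.prodComm _ _)).trans
      (Equiv.prodShear Φ f)).trans
        ((Equiv.prodComm _ _).trans (Fin.snocEquiv fun _ : Fin (j + 1) => W)), fun x => ?_⟩
    have h := hf (Fin.init x) (x (Fin.last j))
    rw [Fin.snoc_init_self] at h
    exact h

/-- game positions `P j` for `j`-tuples, `j ≤ k`, which can be extended one vertex at a time -/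
theorem wlEquiv_of_backForth [Fintype V] [Fintype W] {G : SimpleGraph V} {H : SimpleGraph W}
    (P : (j : ℕ) → (Fin j → V) → (Fin j → W) → Prop)
    (h0 : P 0 Fin.elim0 Fin.elim0)
    (hs : ∀ j < k, ∀ x y, P j x y → ∃ f : V ≃ W, ∀ v,
      P (j + 1) (Fin.snoc (α := fun _ => V) x v) (Fin.snoc (α := fun _ => W) y (f v)))
    (hk : BackForth k G H (P k)) : WLEquiv k G H := by
  intro r
  obtain ⟨Φ, hΦ⟩ := wlGameA_equiv P h0 hs k le_rfl
  exact wlGameA_map_eq Φ _ _ fun x => hk.color_eq r x (Φ x) (hΦ x)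

end Vale.Agent.P310
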