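import Vale.Agent.Lib.P310.CoreGraph
import Vale.Agent.Lib.P310.Extend
import Vale.Agent.Lib.P310.WLGameA

/-!
# P310: Duplicator wins if the goal is not derivable (module DUP)
-/

namespace Vale.Agent.P310

variable {M : ℕ} {X : Type} [AddCommGroup X] {h : Horn M X} {B D : ℕ}

/-- add a difference assignment to the local assignment of a label -/
noncomputable def Lab.act (E : Var h B → ZMod 2) :
    Lab M h.Rule B D → X → Lab M h.Rule B D
  | .rule i ρ γ α, u => .rule i ρ γ (fun s => α s + E (slotVar i ρ γ u s))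
  | .ax γ α, _ => .ax γ (fun i => α i + E (i, h.P0, γ, 0))
  | .goal α, _ => .goal (fun i => α i + E (i, h.Pg, 0, 0))
  | .ord c e, _ => .ord c e
  | .hub e, _ => .hub e

section act
variable (E : Var h B → ZMod 2) (l : Lab M h.Rule B D) (u : X)

private theorem act_node : (l.act E u).node h u = l.node h u := by
  cases l <;> rfl

private theorem act_cls : (l.act E u).cls = l.cls := by
  cases l <;> rfl

private theorem act_act : (l.act E u).act E u = l := by
  have h2 : ∀ a b : ZMod 2, a + b + b = a := by decide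
  cases l <;> simp only [Lab.act, h2]

private theorem act_congr {E E' : Var h B → ZMod 2}
    (hE : ∀ y, l.node h u = some y → ∀ v ∈ y.vars, E' v = E v) : l.act E' u = l.act E u := by
  cases l with
  | rule i ρ γ α =>
    simp only [Lab.act]
    congr 1
    funext s
    rw [hE _ rfl _ ⟨s, rfl⟩]
  | ax γ α =>
    simp only [Lab.act]
    congr 1
    funext i
    rw [hE _ rfl _ ⟨i, rfl⟩]
  | goal α =>
    simp only [Lab.act]
    congr 1
    funext i
    rw [hE _ rfl _ ⟨i, rfl⟩]
  | ord c e => rfl
  | hub e => rfl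

private theorem act_valid (hs : ∀ y, l.node h u = some y → y.Sat E) :
    (l.act E u).Valid h true u ↔ l.Valid h false u := by
  cases l with
  | rule i ρ γ α =>
    have h1 : ∑ s, E (slotVar i ρ γ u s) = 0 := hs _ rfl
    simp only [Lab.act, Lab.Valid, Finset.sum_add_distrib, h1, add_zero]
  | ax γ α =>
    have h1 : ∑ i, E (i, h.P0, γ, 0) = 0 := hs _ rfl
    simp only [Lab.act, Lab.Valid, Finset.sum_add_distrib, h1, add_zero]
  | goal α =>
    have h1 : ∑ i, E (i, h.Pg, 0, 0) = 1 := hs _ rfl
    simp only [Lab.act, Lab.Valid, Finset.sum_add_distrib, h1]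
    simp
  | ord c e => rfl
  | hub e => rfl

private theorem valid_node {g : Bool} (hv : l.Valid h g u) : ∃ y, l.node h u = some y ∧ y.Ok := by
  cases l with
  | rule i ρ γ α => exact ⟨_, rfl, hv.1⟩
  | ax γ α => exact ⟨_, rfl, trivial⟩
  | goal α => exact ⟨_, rfl, trivial⟩
  | ord c e => exact absurd hv (fun h => h)
  | hub e => exact absurd hv (fun h => h)

private theorem act_holds (v : Var h B) (c : ZMod 2) (hl : l.Holds h u v c) :
    (l.act E u).Holds h u v (c + E v) := by
  cases l with
  | rule i ρ γ α =>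
    obtain ⟨s, rfl, rfl⟩ := hl
    exact ⟨s, rfl, rfl⟩
  | ax γ α =>
    obtain ⟨s, rfl, rfl⟩ := hl
    exact ⟨s, rfl, rfl⟩
  | goal α =>
    obtain ⟨s, rfl, rfl⟩ := hl
    exact ⟨s, rfl, rfl⟩
  | ord c e => exact absurd hl (fun h => h)
  | hub e => exact absurd hl (fun h => h)

open Classical in
/-- the action on the labels: only for existing nodes -/
private noncomputable def TL : Lab M h.Rule B D :=
  if ∃ y, l.node h u = some y ∧ y.Ok then l.act E u else l

private theorem TL_node : (TL E l u).node h u = l.node h u := by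
  unfold TL
  split_ifs
  · exact act_node E l u
  · rfl

private theorem TL_cls : (TL E l u).cls = l.cls := by
  unfold TL
  split_ifs
  · exact act_cls E l u
  · rfl

private theorem TL_isOrd : (TL E l u).IsOrd ↔ l.IsOrd := by
  unfold TL
  split_ifs
  · cases l <;> rfl
  · rfl

private theorem TL_of_isOrd (hl : l.IsOrd) : TL E l u = l := by
  unfold TL
  split_ifs
  · cases l with
    | rule i ρ γ α => exact absurd hl (fun h => h)
    | ax γ α => exact absurd hl (fun h => h)
    | goal α => exact absurd hl (fun h => h)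
    | ord c e => rfl
    | hub e => rfl
  · rfl

private theorem TL_TL : TL E (TL E l u) u = l := by
  by_cases hy : ∃ y, l.node h u = some y ∧ y.Ok
  · have h1 : TL E l u = l.act E u := if_pos hy
    rw [h1]
    unfold TL
    rw [act_node, if_pos hy, act_act]
  · have h1 : TL E l u = l := if_neg hy
    rw [h1, h1]

private theorem TL_congr {E E' : Var h B → ZMod 2}
    (hE : ∀ y, l.node h u = some y → y.Ok → ∀ v ∈ y.vars, E' v = E v) : TL E' l u = TL E l u := by
  unfold TL
  split_ifs with hy
  · obtain ⟨y, hy1, hy2⟩ := hy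
    apply act_congr
    intro y' hy'
    rw [hy1] at hy'
    cases hy'
    exact hE y hy1 hy2
  · rfl

private theorem TL_valid (hs : ∀ y, l.node h u = some y → y.Ok → y.Sat E) :
    (TL E l u).Valid h true u ↔ l.Valid h false u := by
  unfold TL
  split_ifs with hy
  · apply act_valid
    intro y' hy'
    obtain ⟨y, hy1, hy2⟩ := hy
    rw [hy1] at hy'
    cases hy'
    exact hs _ hy1 hy2
  · constructor
    · intro hv
      exact absurd (valid_node l u hv) hy
    · intro hv
      exact absurd (valid_node l u hv) hy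

private theorem TL_holds {g : Bool} (hv : l.Valid h g u) (v : Var h B) (c : ZMod 2)
    (hl : l.Holds h u v c) : (TL E l u).Holds h u v (c + E v) := by
  unfold TL
  rw [if_pos (valid_node l u hv)]
  exact act_holds E l u v c hl

private theorem TL_holds' {g : Bool} (hv : l.Valid h g u) (v : Var h B) (c : ZMod 2)
    (hl : (TL E l u).Holds h u v c) : l.Holds h u v (c + E v) := by
  have h1 : TL E l u = l.act E u := if_pos (valid_node l u hv)
  rw [h1] at hl
  have h2 := act_holds E _ u v c hl
  rwa [act_act] at h2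

end act

section adj
variable {E : Var h B → ZMod 2} {l l' : Lab M h.Rule B D} {u u' : X}
  (hs : ∀ y, l.node h u = some y → y.Ok → y.Sat E)
  (hs' : ∀ y, l'.node h u' = some y → y.Ok → y.Sat E)

include hs hs'

private theorem gad_iff : GadAdj h false l u l' u' ↔ GadAdj h true (TL E l u) u (TL E l' u') u' := by
  have h2 : ∀ a b : ZMod 2, a + b + b = a := by decide
  unfold GadAdj
  rw [TL_valid E l u hs, TL_valid E l' u' hs', TL_node, TL_node]
  constructor
  · rintro ⟨h1, h2, h3, v, c, h4, h5⟩
    exact ⟨h1, h2, h3, v, c + E v, TL_holds E l u h1 v c h4, TL_holds E l' u' h2 v c h5⟩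
  · rintro ⟨h1, h2, h3, v, c, h4, h5⟩
    exact ⟨h1, h2, h3, v, c + E v, TL_holds' E l u h1 v c h4, TL_holds' E l' u' h2 v c h5⟩

private theorem ord_iff (cidx : Cls M h.Rule B → ℕ) (rank : X → ℕ) :
    OrdAdj h cidx rank false l u l' u' ↔
      OrdAdj h cidx rank true (TL E l u) u (TL E l' u') u' := by
  unfold OrdAdj
  rw [TL_valid E l' u' hs', TL_cls]
  constructor
  · rintro ⟨c, e, c', rfl, h1⟩
    exact ⟨c, e, c', TL_of_isOrd E _ u trivial, h1⟩
  · rintro ⟨c, e, c', h0, h1⟩
    refine ⟨c, e, c', ?_, h1⟩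
    have h2 : l.IsOrd := by
      rw [← TL_isOrd E l u, h0]
      trivial
    rw [TL_of_isOrd E l u h2] at h0
    exact h0

private theorem pair_iff (cidx : Cls M h.Rule B → ℕ) (rank : X → ℕ) :
    PairAdj h cidx rank false l u l' u' ↔
      PairAdj h cidx rank true (TL E l u) u (TL E l' u') u' := by
  unfold PairAdj
  rw [← gad_iff hs hs', ← ord_iff hs hs', ← ord_iff hs' hs, TL_isOrd, TL_isOrd]
  refine or_congr Iff.rfl (or_congr Iff.rfl (or_congr Iff.rfl ?_))
  constructor
  · rintro ⟨h1, h2, h3⟩
    rw [TL_of_isOrd E l u h1, TL_of_isOrd E l' u' h2]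
    exact ⟨h1, h2, h3⟩
  · rintro ⟨h1, h2, h3⟩
    rw [TL_of_isOrd E l u h1, TL_of_isOrd E l' u' h2] at h3
    exact ⟨h1, h2, h3⟩

end adj

section game
variable {J : Type}

/-- the node of a vertex -/
private def gnode : (Lab M h.Rule B D × X) ⊕ J → Option (Node h B)
  | .inl (l, u) => l.node h u
  | .inr _ => none

/-- the action on the vertices -/
private noncomputable def TT (E : Var h B → ZMod 2) :
    (Lab M h.Rule B D × X) ⊕ J → (Lab M h.Rule B D × X) ⊕ J
  | .inl (l, u) => .inl (TL E l u, u)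
  | .inr j => .inr j

private theorem TT_TT (E : Var h B → ZMod 2) (v : (Lab M h.Rule B D × X) ⊕ J) :
    TT E (TT E v) = v := by
  rcases v with ⟨l, u⟩ | j
  · simp only [TT, TL_TL]
  · rfl

private theorem gnode_TT (E : Var h B → ZMod 2) (v : (Lab M h.Rule B D × X) ⊕ J) :
    gnode (TT E v) = gnode v := by
  rcases v with ⟨l, u⟩ | j
  · simp only [TT, gnode, TL_node]
  · rfl

private theorem TT_congr {E E' : Var h B → ZMod 2} (v : (Lab M h.Rule B D × X) ⊕ J)
    (hE : ∀ y, gnode v = some y → y.Ok → ∀ w ∈ y.vars, E' w = E w) : TT E' v = TT E v := by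
  rcases v with ⟨l, u⟩ | j
  · simp only [TT, TL_congr l u hE]
  · rfl

private theorem adj_iff_TT (cidx : Cls M h.Rule B → ℕ) (rank : X → ℕ) {E : Var h B → ZMod 2}
    (v w : (Lab M h.Rule B D × X) ⊕ J) (hv : ∀ y, gnode v = some y → y.Ok → y.Sat E)
    (hw : ∀ y, gnode w = some y → y.Ok → y.Sat E) :
    (pairGraph h D J cidx rank false).Adj v w ↔
      (pairGraph h D J cidx rank true).Adj (TT E v) (TT E w) := by
  rcases v with ⟨l, u⟩ | j
  · rcases w with ⟨l', u'⟩ | j'
    · simp only [pairGraph, TT, Sum.inl.injEq, Prod.mk.injEq]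
      constructor
      · rintro ⟨_, _, _, _, ⟨rfl, rfl⟩, ⟨rfl, rfl⟩, h1⟩
        exact ⟨_, _, _, _, ⟨rfl, rfl⟩, ⟨rfl, rfl⟩, (pair_iff hv hw cidx rank).1 h1⟩
      · rintro ⟨_, _, _, _, ⟨rfl, rfl⟩, ⟨rfl, rfl⟩, h1⟩
        exact ⟨_, _, _, _, ⟨rfl, rfl⟩, ⟨rfl, rfl⟩, (pair_iff hv hw cidx rank).2 h1⟩
    · simp [pairGraph, TT]
  · simp [pairGraph, TT]

/-- the existing nodes of a tuple -/
private def nodes {j : ℕ} (x : Fin j → (Lab M h.Rule B D × X) ⊕ J) : Set (Node h B) :=
  {y | y.Ok ∧ ∃ i, gnode (x i) = some y}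

private theorem nodes_finset {j : ℕ} (x : Fin j → (Lab M h.Rule B D × X) ⊕ J) :
    ∃ S : Finset (Node h B), (S : Set (Node h B)) = nodes x ∧ S.card ≤ j := by
  classical
  refine ⟨(Finset.eraseNone (Finset.univ.image (fun i => gnode (x i)))).filter
    (fun y => y.Ok), ?_, ?_⟩
  · ext y
    simp [nodes, and_comm]
  · refine (Finset.card_filter_le _ _).trans ((Finset.card_eraseNone_le _).trans
      (Finset.card_image_le.trans ?_))
    simp

private theorem PosOk.mono {S S' : Set (Node h B)} {E : Var h B → ZMod 2} (hE : PosOk S' E)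
    (hS : S ⊆ S') : PosOk S E := by
  have hc : covered S ⊆ covered S' := fun v ⟨y, hy, hv⟩ => ⟨y, hS hy, hv⟩
  exact ⟨fun y hy => hE.sat y (hS hy), fun P γ x hk hcov => hE.wall P γ x hk
    (fun i => hc (hcov i)), fun hcov => hE.goal (fun i => hc (hcov i))⟩

private theorem step {cidx : Cls M h.Rule B → ℕ} {rank : X → ℕ}
    (hp : PairOk h B D cidx rank) (hgoal : ¬ h.Known h.Pg 0) {j : ℕ} (hj : j ≤ M)
    (x : Fin j → (Lab M h.Rule B D × X) ⊕ J) (E : Var h B → ZMod 2)
    (hE : PosOk (nodes x) E) :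
    ∃ f : (Lab M h.Rule B D × X) ⊕ J ≃ (Lab M h.Rule B D × X) ⊕ J, ∀ v,
      ∃ E' : Var h B → ZMod 2, (∀ w ∈ covered (nodes x), E' w = E w) ∧
        PosOk (nodes x ∪ {y | y.Ok ∧ gnode v = some y}) E' ∧ f v = TT E' v := by
  classical
  obtain ⟨S, hS, hcard⟩ := nodes_finset x
  have hex : ∀ y' : Node h B, y'.Ok → ∃ D' : Var h B → ZMod 2,
      (∀ v ∈ covered (S : Set (Node h B)), D' v = E v) ∧
      PosOk (insert y' (S : Set (Node h B))) D' := by
    intro y' hy'
    refine extend hp.good hp.hM hp.hB hgoal S (hcard.trans hj) ?_ E ?_ y' hy'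
    · intro y hy
      have : y ∈ nodes x := by
        rw [← hS]
        exact hy
      exact this.1
    · rw [hS]
      exact hE
  choose F hF1 hF2 using hex
  -- the difference assignment for a vertex
  let G : Option (Node h B) → Var h B → ZMod 2 := fun o =>
    match o with
    | some y => if hy : y.Ok then F y hy else E
    | none => E
  have hG : ∀ o : Option (Node h B), (∀ w ∈ covered (nodes x), G o w = E w) ∧
      PosOk (nodes x ∪ {y | y.Ok ∧ o = some y}) (G o) := by
    intro o
    cases o with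
    | none =>
      refine ⟨fun _ _ => rfl, ?_⟩
      refine PosOk.mono hE ?_
      rintro y (hy | ⟨-, hy⟩)
      · exact hy
      · exact absurd hy (by simp)
    | some y =>
      by_cases hy : y.Ok
      · have h1 : G (some y) = F y hy := dif_pos hy
        rw [h1]
        refine ⟨?_, ?_⟩
        · intro w hw
          rw [← hS] at hw
          exact hF1 y hy w hw
        · refine PosOk.mono (hF2 y hy) ?_
          rintro y' (hy' | ⟨-, hy'⟩)
          · rw [← hS] at hy'
            exact Or.inr hy'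
          · cases hy'
            exact Or.inl rfl
      · have h1 : G (some y) = E := dif_neg hy
        rw [h1]
        refine ⟨fun _ _ => rfl, ?_⟩
        refine PosOk.mono hE ?_
        rintro y' (hy' | ⟨hy', hy''⟩)
        · exact hy'
        · cases hy''
          exact absurd hy' hy
  have hinv : ∀ v : (Lab M h.Rule B D × X) ⊕ J,
      TT (G (gnode (TT (G (gnode v)) v))) (TT (G (gnode v)) v) = v := by
    intro v
    rw [gnode_TT, TT_TT]
  refine ⟨⟨fun v => TT (G (gnode v)) v, fun v => TT (G (gnode v)) v, hinv, hinv⟩, ?_⟩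
  intro v
  exact ⟨G (gnode v), (hG _).1, (hG _).2, rfl⟩

end game

/-- Duplicator wins. Position for `j`-tuples `x, y`: there is `E : Var → ZMod 2` with
`PosOk S E`, `S` = the existing nodes of the vertices of `x`, such that `y i = x i` acted on by `E`.
The bijection for a new vertex `v` acts by the `E'` given by the lemma `extend` for the node
of `v` (one choice for every node). -/
theorem dup {J : Type} {cidx : Cls M h.Rule B → ℕ} {rank : X → ℕ}
    (hp : PairOk h B D cidx rank) [Fintype ((Lab M h.Rule B D × X) ⊕ J)]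
    (hgoal : ¬ h.Known h.Pg 0) :
    WLEquiv M (pairGraph h D J cidx rank false) (pairGraph h D J cidx rank true) := by
  classical
  have hM : 0 < M := lt_of_lt_of_le (by norm_num) hp.hM
  refine wlEquiv_of_backForth (fun j x y => ∃ E : Var h B → ZMod 2, PosOk (nodes x) E ∧
    ∀ i, y i = TT E (x i)) ?_ ?_ ?_
  · refine ⟨0, ⟨?_, ?_, ?_⟩, fun i => i.elim0⟩
    · rintro y ⟨-, i, -⟩
      exact i.elim0
    · intro P γ x hk hcov
      obtain ⟨y, ⟨-, i, -⟩, -⟩ := hcov ⟨0, hM⟩
      exact i.elim0
    · intro hcov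
      obtain ⟨y, ⟨-, i, -⟩, -⟩ := hcov ⟨0, hM⟩
      exact i.elim0
  · rintro j hj x y ⟨E, hE, hy⟩
    obtain ⟨f, hf⟩ := step (J := J) hp hgoal hj.le x E hE
    refine ⟨f, fun v => ?_⟩
    obtain ⟨E', h1, h2, h3⟩ := hf v
    refine ⟨E', PosOk.mono h2 ?_, ?_⟩
    · rintro y' ⟨hy', i, hi⟩
      refine Fin.lastCases (fun hi => ?_) (fun i hi => ?_) i hi
      · rw [Fin.snoc_last] at hi
        exact Or.inr ⟨hy', hi⟩
      · rw [Fin.snoc_castSucc] at hi
        exact Or.inl ⟨hy', i, hi⟩
    · intro i
      refine Fin.lastCases ?_ (fun i => ?_) i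
      · rw [Fin.snoc_last, Fin.snoc_last, h3]
      · rw [Fin.snoc_castSucc, Fin.snoc_castSucc, hy i]
        refine (TT_congr _ ?_).symm
        intro y' hy' hok w hw
        exact h1 w ⟨y', ⟨hok, i, hy'⟩, hw⟩
  · refine ⟨?_, ?_, ?_⟩
    · rintro x y ⟨E, hE, hy⟩ i j
      rw [hy i, hy j]
      constructor
      · intro he
        rw [he]
      · intro he
        rw [← TT_TT E (x i), he, TT_TT]
    · rintro x y ⟨E, hE, hy⟩ i j
      rw [hy i, hy j]
      apply adj_iff_TT
      · intro y' hy' hok
        exact hE.sat y' ⟨hok, i, hy'⟩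
      · intro y' hy' hok
        exact hE.sat y' ⟨hok, j, hy'⟩
    · rintro x y ⟨E, hE, hy⟩
      obtain ⟨f, hf⟩ := step (J := J) hp hgoal le_rfl x E hE
      refine ⟨f, fun v i => ?_⟩
      obtain ⟨E', h1, h2, h3⟩ := hf v
      refine ⟨E', PosOk.mono h2 ?_, ?_⟩
      · rintro y' ⟨hy', k, hk⟩
        by_cases hki : k = i
        · rw [hki, Function.update_self] at hk
          exact Or.inr ⟨hy', hk⟩
        · rw [Function.update_of_ne hki] at hk
          exact Or.inl ⟨hy', k, hk⟩
      · intro k
        by_cases hki : k = i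
        · rw [hki, Function.update_self, Function.update_self, h3]
        · rw [Function.update_of_ne hki, Function.update_of_ne hki, hy k]
          refine (TT_congr _ ?_).symm
          intro y' hy' hok w hw
          exact h1 w ⟨y', ⟨hok, k, hy'⟩, hw⟩

end Vale.Agent.P310
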