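import Vale.Agent.Lib.P310.EncDefs

/-!
# P310: formulas for positions (module ENC-A)
-/

namespace Vale.Agent.P310

section EncAAux

theorem encA_lt_pow {p r m : ℕ} (hr : r < p ^ m)
    (h : ∀ i, 15 ≤ i → i < m → p ∣ r / p ^ i) (hm : 15 ≤ m) (hp : 0 < p) : r < p ^ 15 := by
  obtain ⟨l, rfl⟩ := Nat.exists_eq_add_of_le hm
  clear hm
  induction l with
  | zero => simpa using hr
  | succ l ih =>
    apply ih
    · have hd := h (15 + l) (by omega) (by omega)
      have hlt : r / p ^ (15 + l) < p := by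
        rw [Nat.div_lt_iff_lt_mul (pow_pos hp _)]
        calc r < p ^ (15 + (l + 1)) := hr
          _ = p * p ^ (15 + l) := by ring
      have h0 : r / p ^ (15 + l) = 0 := Nat.eq_zero_of_dvd_of_lt hd hlt
      rcases Nat.div_eq_zero_iff.1 h0 with h1 | h1
      · exact absurd h1 (pow_pos hp _).ne'
      · exact h1
    · intro i h1 h2
      exact h i h1 (by omega)

theorem encA_dig_zero {p r : ℕ} [NeZero p] {m : ℕ} (i : Fin m) :
    (dig p r : Fin m → ZMod p) i = 0 ↔ p ∣ r / p ^ (i : ℕ) := by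
  unfold dig
  rw [ZMod.natCast_eq_zero_iff]

end EncAAux

section
variable {m : ℕ} (hm : 15 ≤ m) (S : Shape m) {B D : ℕ}
  (cidx : Cls (m + 1) S.Rule B → ℕ) {p : ℕ} [NeZero p]
  (hp : Nat.card (Sy m) < p) (hp2 : 2 ≤ p) (code : Lab (m + 1) S.Rule B D → ZMod p)
  (hcode : Function.Injective code) {n : ℕ} (hn : n < p ^ 7)
  (T : Set (ZMod p × ZMod p × ZMod p)) (hT : T = table S cidx code n) {J : Type}
  (e : Fin n ≃ (Lab (m + 1) S.Rule B D × (Fin 5 → ZMod p)) ⊕ J) (he : VertexOk code e)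

include hp hn hT in
theorem ltF_eval (z : Fin m → Fin 2 → ZMod p) (d : Fin 7 → Fin 2 × Fin m) :
    (ltF d).eval syNum T z ↔ numOf (fun j => z (d j).2 (d j).1) < n := by
  have h1 : numOf (fun j => z (d j).2 (d j).1) < n ↔
      numOf (fun j => z (d j).2 (d j).1) < numOf (dig p n : Fin 7 → ZMod p) := by
    rw [numOf_dig hn]
  rw [h1, numOf_lt_iff]
  unfold ltF
  rw [BF.eval_any]
  simp only [List.mem_map, List.mem_finRange, true_and]
  constructor
  · rintro ⟨φ, ⟨j, rfl⟩, h⟩
    rw [BF.eval_all] at h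
    refine ⟨j, ?_, ?_⟩
    · have h2 := h _ (List.mem_cons_self)
      rw [atom_eval S cidx hp code n T hT] at h2
      rw [val_dig]
      exact h2
    · intro i hi
      have h2 := h (.atom (.eqN i) (d i) (d i)) (by
        apply List.mem_cons_of_mem
        rw [List.mem_map]
        exact ⟨i, by simp [hi], rfl⟩)
      rw [atom_eval S cidx hp code n T hT] at h2
      apply ZMod.val_injective
      rw [val_dig]
      exact h2
  · rintro ⟨j, hj, h⟩
    refine ⟨_, ⟨j, rfl⟩, ?_⟩
    rw [BF.eval_all]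
    intro φ hφ
    rcases List.mem_cons.1 hφ with rfl | hφ
    · rw [atom_eval S cidx hp code n T hT]
      rw [val_dig] at hj
      exact hj
    · obtain ⟨i, hi, rfl⟩ := List.mem_map.1 hφ
      have hi' : j < i := by simpa using hi
      rw [atom_eval S cidx hp code n T hT]
      have h2 := congrArg ZMod.val (h i hi')
      rw [val_dig] at h2
      exact h2

include hp hp2 hT in
theorem posF_eval (r : ℕ) (hr : r < p ^ m) :
    (posF hm).eval syNum T (regs 0 (dig p r)) ↔ r < 2 * p ^ 14 := by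
  have hp0 : 0 < p := by omega
  have hhigh : (highF (m := m)).eval syNum T (regs 0 (dig p r)) ↔ r < p ^ 15 := by
    unfold highF
    rw [BF.eval_all]
    constructor
    · intro h
      apply encA_lt_pow hr _ hm hp0
      intro i h1 h2
      have h3 := h (.atom .zero ((1, ⟨i, h2⟩) : Fin 2 × Fin m) (1, ⟨i, h2⟩)) (by
        rw [List.mem_map]
        exact ⟨⟨i, h2⟩, by simp [h1], rfl⟩)
      rw [atom_eval S cidx hp code n T hT] at h3
      have h4 : (dig p r : Fin m → ZMod p) ⟨i, h2⟩ = 0 := h3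
      rw [encA_dig_zero] at h4
      exact h4
    · intro h φ hφ
      obtain ⟨i, hi, rfl⟩ := List.mem_map.1 hφ
      have hi' : 15 ≤ (i : ℕ) := by simpa using hi
      rw [atom_eval S cidx hp code n T hT]
      have h4 : (dig p r : Fin m → ZMod p) i = 0 := by
        rw [encA_dig_zero]
        have h5 : r / p ^ (i : ℕ) = 0 := by
          apply Nat.div_eq_of_lt
          exact lt_of_lt_of_le h (Nat.pow_le_pow_right hp0 hi')
        rw [h5]
        exact dvd_zero p
      exact h4
  have hz : ∀ y : Sy m, (BF.atom y (dG hm) (dG hm)).eval syNum T (regs 0 (dig p r)) ↔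
      tb S cidx code n y ((r / p ^ 14 : ℕ) : ZMod p) ((r / p ^ 14 : ℕ) : ZMod p) := by
    intro y
    rw [atom_eval S cidx hp code n T hT]
    rfl
  have hpos : (posF hm).eval syNum T (regs 0 (dig p r)) ↔
      (r < p ^ 15 ∧ (((r / p ^ 14 : ℕ) : ZMod p) = 0 ∨ ((r / p ^ 14 : ℕ) : ZMod p) = 1)) := by
    have h0 := hz .zero
    have h1 := hz .one
    change ((highF (m := m)).eval syNum T (regs 0 (dig p r)) ∧
      ((BF.atom .zero (dG hm) (dG hm)).eval syNum T (regs 0 (dig p r)) ∨
        (BF.atom .one (dG hm) (dG hm)).eval syNum T (regs 0 (dig p r)))) ↔ _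
    rw [hhigh, h0, h1]
    rfl
  rw [hpos]
  have h14 : 0 < p ^ 14 := pow_pos hp0 _
  have hfact : r < 2 * p ^ 14 ↔ r / p ^ 14 < 2 := by
    rw [Nat.div_lt_iff_lt_mul h14]
  rw [hfact]
  constructor
  · rintro ⟨h1, h2⟩
    have hlt : r / p ^ 14 < p := by
      rw [Nat.div_lt_iff_lt_mul h14]
      calc r < p ^ 15 := h1
        _ = p * p ^ 14 := by ring
    rcases h2 with h2 | h2
    · rw [ZMod.natCast_eq_zero_iff] at h2
      have := Nat.eq_zero_of_dvd_of_lt h2 hlt
      omega
    · have h3 : ((r / p ^ 14 : ℕ) : ZMod p) = ((1 : ℕ) : ZMod p) := by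
        rw [h2, Nat.cast_one]
      rw [ZMod.natCast_eq_natCast_iff', Nat.mod_eq_of_lt hlt, Nat.mod_eq_of_lt (by omega)] at h3
      omega
  · intro h
    have h3 : r / p ^ 14 = 0 ∨ r / p ^ 14 = 1 := by
      generalize r / p ^ 14 = q at h ⊢
      omega
    refine ⟨?_, ?_⟩
    · have h1 : r < 2 * p ^ 14 := (Nat.div_lt_iff_lt_mul h14).1 h
      calc r < 2 * p ^ 14 := h1
        _ ≤ p * p ^ 14 := Nat.mul_le_mul_right _ hp2
        _ = p ^ 15 := by ring
    · rcases h3 with h3 | h3
      · left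
        rw [h3, Nat.cast_zero]
      · right
        rw [h3, Nat.cast_one]

end

end Vale.Agent.P310
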