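import Vale.Agent.Lib.P310.EncDefs
import Vale.Agent.Lib.P310.AdjForm

/-!
# P310: adjacency of the numbered vertices (module ENC-B)
-/

namespace Vale.Agent.P310

section
variable {m : ℕ} (hm : 15 ≤ m) (S : Shape m) {B D : ℕ}
  (cidx : Cls (m + 1) S.Rule B → ℕ) {p : ℕ} [NeZero p]
  (hp : Nat.card (Sy m) < p) (hp2 : 2 ≤ p) (code : Lab (m + 1) S.Rule B D → ZMod p)
  (hcode : Function.Injective code) {n : ℕ} (hn : n < p ^ 7)
  (T : Set (ZMod p × ZMod p × ZMod p)) (hT : T = table S cidx code n) {J : Type}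
  (e : Fin n ≃ (Lab (m + 1) S.Rule B D × (Fin 5 → ZMod p)) ⊕ J) (he : VertexOk code e)

omit [NeZero p] in
include hp hT in
theorem encB_coreF_eval (z : Fin m → Fin 2 → ZMod p) (a : Fin 7 → Fin 2 × Fin m) :
    (coreF a).eval syNum T z ↔ (∃ l, code l = z (a 0).2 (a 0).1) ∧ z (a 6).2 (a 6).1 = 0 := by
  unfold coreF
  have h1 : (BF.and (.atom .isLab (a 0) (a 0)) (.atom .zero (a 6) (a 6)) : BF m (Sy m)).eval
      syNum T z ↔ (BF.atom .isLab (a 0) (a 0) : BF m (Sy m)).eval syNum T z ∧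
        (BF.atom .zero (a 6) (a 6) : BF m (Sy m)).eval syNum T z := Iff.rfl
  rw [h1, atom_eval S cidx hp code n T hT, atom_eval S cidx hp code n T hT]
  rfl

include hp hcode hT he in
theorem adj7F_eval (hP : S.P0 ≠ S.Pg) (z : Fin m → Fin 2 → ZMod p) (g : Bool)
    (a b : Fin 7 → Fin 2 × Fin m) (va vb : Fin n)
    (ha : ∀ j, z (a j).2 (a j).1 = dig p (va : ℕ) j)
    (hb : ∀ j, z (b j).2 (b j).1 = dig p (vb : ℕ) j) :
    (adj7F g a b).eval syNum T z ↔ (finalGraph S cidx T e g).Adj va vb := by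
  have h0 : (adj7F g a b).eval syNum T z ↔ (coreF a).eval syNum T z ∧
      (coreF b).eval syNum T z ∧
      (adjF g (fun j => a j.castSucc) (fun j => b j.castSucc)).eval syNum T z := by
    unfold adj7F
    rw [BF.eval_all]
    simp
  rw [h0, encB_coreF_eval S cidx hp code T hT, encB_coreF_eval S cidx hp code T hT]
  have h1 : (finalGraph S cidx T e g).Adj va vb ↔
      (∃ l u l' u', e va = Sum.inl (l, u) ∧ e vb = Sum.inl (l', u') ∧
        PairAdj (S.toHorn p T) cidx viewRank g l u l' u') := Iff.rfl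
  rw [h1]
  constructor
  · rintro ⟨⟨⟨l, hl⟩, ha6⟩, ⟨⟨l', hl'⟩, hb6⟩, hadj⟩
    have h2 := (adjF_eval S cidx hp code hcode n T hT hP z g (fun j => a j.castSucc)
      (fun j => b j.castSucc) l l' hl hl').1 hadj
    refine ⟨l, _, l', _, ?_, ?_, h2⟩
    · rw [he]
      refine ⟨?_, ?_, ?_⟩
      · rw [hl, ha]
      · intro j
        exact ha _
      · rw [← ha, ha6]
    · rw [he]
      refine ⟨?_, ?_, ?_⟩
      · rw [hl', hb]
      · intro j
        exact hb _
      · rw [← hb, hb6]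
  · rintro ⟨l, u, l', u', hea, heb, hadj⟩
    rw [he] at hea heb
    obtain ⟨hl, hu, ha6⟩ := hea
    obtain ⟨hl', hu', hb6⟩ := heb
    rw [← ha] at hl ha6
    rw [← hb] at hl' hb6
    refine ⟨⟨⟨l, hl⟩, ha6⟩, ⟨⟨l', hl'⟩, hb6⟩, ?_⟩
    refine (adjF_eval S cidx hp code hcode n T hT hP z g (fun j => a j.castSucc)
      (fun j => b j.castSucc) l l' hl hl').2 ?_
    have hu2 : u = fun j : Fin 5 => z (a j.succ.castSucc).2 (a j.succ.castSucc).1 := by
      funext j
      rw [hu, ha]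
    have hu2' : u' = fun j : Fin 5 => z (b j.succ.castSucc).2 (b j.succ.castSucc).1 := by
      funext j
      rw [hu', hb]
    rw [hu2, hu2'] at hadj
    exact hadj

end

end Vale.Agent.P310
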