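import Vale.Agent.Lib.P310.SM
import Vale.Agent.Lib.P310.Shape

/-!
# P310: simulation of a stack machine by a conditional Horn system (definitions)

Registers: `t` (time) and `r` (depth in a stack). The predicates and rules are explicit;
`Sim.Sem` is the intended meaning of the predicates.
-/

namespace Vale.Agent.P310

/-- The two registers as one vector. -/
def regs {p m : ℕ} (t r : Fin m → ZMod p) : Fin m → Fin 2 → ZMod p :=
  fun i j => if j = 0 then t i else r i

namespace Sim

section
variable (N : SM) (I : Type) (m : ℕ) (Y : Type)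

/-- The predicates: `zt`: time 0; `ctl q`: the state is `q`; `cell k o`: the content of stack `k`
at depth `r` is `o`; `act0`, `act`: the state is `q` (not halting) and the top symbol of its stack
is `o` (`act0` only for `r = 0`); `nctl`, `ncell`: like `ctl`, `cell`, for the next time. -/
inductive Pr
  | start | zt
  | ctl (q : N.Q)
  | cell (k : N.K) (o : Option N.G)
  | act0 (q : N.Q) (o : Option N.G)
  | act (q : N.Q) (o : Option N.G)
  | nctl (q : N.Q)
  | ncell (k : N.K) (o : Option N.G)
  | acc0 | acc

/-- The rules. -/
inductive Ru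
  | zt0
  | ztS (i : Fin m)
  | ictl
  | icell (x : I)
  | iblank
  | iother (k : N.K)
  | a0 (q : N.Q) (o : Option N.G)
  | a (q : N.Q) (o : Option N.G)
  | aS (q : N.Q) (o : Option N.G) (i : Fin m)
  | nc (q : N.Q) (o : Option N.G)
  | keep (q : N.Q) (o : Option N.G) (k : N.K) (o' : Option N.G)
  | pop (q : N.Q) (o o' : Option N.G) (j : Fin m)
  | push0 (q : N.Q) (o : Option N.G) (g : N.G)
  | push (q : N.Q) (o : Option N.G) (g : N.G) (o' : Option N.G) (j : Fin m)
  | tctl (q : N.Q) (j : Fin m)
  | tcell (k : N.K) (o : Option N.G) (j : Fin m)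
  | ac0 (q : N.Q)
  | ac
  | acS (i : Fin m)

variable {N I m Y}

/-- head and bodies -/
def pr (kin kout : N.K) (sym : I → N.G) (gacc : N.G) : Ru N I m → Pr N × Pr N × Pr N
  | .zt0 => (.zt, .start, .start)
  | .ztS _ => (.zt, .zt, .zt)
  | .ictl => (.ctl N.q0, .zt, .zt)
  | .icell x => (.cell kin (some (sym x)), .zt, .zt)
  | .iblank => (.cell kin none, .zt, .zt)
  | .iother k => (.cell k none, .zt, .zt)
  | .a0 q o => (.act0 q o, .ctl q, .cell (N.sel q) o)
  | .a q o => (.act q o, .act0 q o, .act0 q o)
  | .aS q o _ => (.act q o, .act q o, .act q o)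
  | .nc q o => (.nctl (N.nxt q o), .act q o, .act q o)
  | .keep q o k o' => (.ncell k o', .act q o, .cell k o')
  | .pop q o o' _ => (.ncell (N.sel q) o', .act q o, .cell (N.sel q) o')
  | .push0 q o g => (.ncell (N.sel q) (some g), .act0 q o, .act0 q o)
  | .push q o _ o' _ => (.ncell (N.sel q) o', .act q o, .cell (N.sel q) o')
  | .tctl q _ => (.ctl q, .nctl q, .nctl q)
  | .tcell k o _ => (.cell k o, .ncell k o, .ncell k o)
  | .ac0 q => (.acc0, .ctl q, .cell kout (some gacc))
  | .ac => (.acc, .acc0, .acc0)
  | .acS _ => (.acc, .acc, .acc)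

open Classical in
/-- unit shift of the digit `i` of the register `r` -/
noncomputable def e (r : Fin 2) (i : Fin m) : Fin m → Fin 2 → ℤ :=
  fun i' r' => if i' = i ∧ r' = r then 1 else 0

open Classical in
/-- successor shift of the register `r` with carry position `j` -/
noncomputable def up (r : Fin 2) (j : Fin m) : Fin m → Fin 2 → ℤ :=
  fun i' r' => if i' ≤ j ∧ r' = r then 1 else 0

/-- shifts of head and bodies -/
noncomputable def sh : Ru N I m →
    (Fin m → Fin 2 → ℤ) × (Fin m → Fin 2 → ℤ) × (Fin m → Fin 2 → ℤ)
  | .ztS i => (e 1 i, 0, 0)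
  | .aS _ _ i => (e 1 i, 0, 0)
  | .pop _ _ _ j => (0, 0, up 1 j)
  | .push _ _ _ _ j => (up 1 j, 0, 0)
  | .tctl _ j => (up 0 j, 0, 0)
  | .tcell _ _ j => (up 0 j, 0, 0)
  | .acS i => (e 0 i, 0, 0)
  | _ => (0, 0, 0)

/-- conjunction of a list of formulas -/
def conj {m : ℕ} {Y : Type} : List (BF m Y) → BF m Y
  | [] => .tt
  | φ :: l => .and φ (conj l)

/-- the carry position of the register `r` is `j` -/
def carryF (yMax : Y) (r : Fin 2) (j : Fin m) : BF m Y :=
  .and (conj (((List.finRange m).filter fun i => i < j).map fun i => .atom yMax (r, i) (r, i)))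
    (.not (.atom yMax (r, j) (r, j)))

/-- the register `r` is zero -/
def zeroF (yZero : Y) (r : Fin 2) : BF m Y :=
  conj ((List.finRange m).map fun i => .atom yZero (r, i) (r, i))

open Classical in
/-- conditions that do not depend on the digits -/
noncomputable def iffF (P : Prop) : BF m Y := if P then .tt else .not .tt

/-- conditions -/
noncomputable def cnd (kin : N.K) (yZero yMax : Y) (inF : I → BF m Y)
    (blankF : BF m Y) : Ru N I m → BF m Y
  | .icell x => inF x
  | .iblank => blankF
  | .iother k => iffF (k ≠ kin)
  | .a0 q _ => .and (iffF (¬ N.halt q)) (zeroF yZero 1)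
  | .keep q o k _ => iffF (k ≠ N.sel q ∨ N.op q o = none)
  | .pop q o _ j => .and (iffF (N.op q o = some none)) (carryF yMax 1 j)
  | .push0 q o g => iffF (N.op q o = some (some g))
  | .push q o g _ j => .and (iffF (N.op q o = some (some g))) (carryF yMax 1 j)
  | .tctl _ j => carryF yMax 0 j
  | .tcell _ _ j => carryF yMax 0 j
  | .ac0 q => .and (iffF (N.halt q)) (zeroF yZero 1)
  | _ => .tt

/-- component of a triple -/
def pick {A : Type} (x : A × A × A) (j : Fin 3) : A :=
  if j = 0 then x.1 else if j = 1 then x.2.1 else x.2.2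

/-- codes of the rules -/
def ruCode : Ru N I m → Fin 19 × Option (Fin m) × Option I × Option N.K × Option N.Q ×
    Option (Option N.G) × Option (Option N.G) × Option N.G
  | .zt0 => (0, none, none, none, none, none, none, none)
  | .ztS i => (1, some i, none, none, none, none, none, none)
  | .ictl => (2, none, none, none, none, none, none, none)
  | .icell x => (3, none, some x, none, none, none, none, none)
  | .iblank => (4, none, none, none, none, none, none, none)
  | .iother k => (5, none, none, some k, none, none, none, none)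
  | .a0 q o => (6, none, none, none, some q, some o, none, none)
  | .a q o => (7, none, none, none, some q, some o, none, none)
  | .aS q o i => (8, some i, none, none, some q, some o, none, none)
  | .nc q o => (9, none, none, none, some q, some o, none, none)
  | .keep q o k o' => (10, none, none, some k, some q, some o, some o', none)
  | .pop q o o' j => (11, some j, none, none, some q, some o, some o', none)
  | .push0 q o g => (12, none, none, none, some q, some o, none, some g)
  | .push q o g o' j => (13, some j, none, none, some q, some o, some o', some g)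
  | .tctl q j => (14, some j, none, none, some q, none, none, none)
  | .tcell k o j => (15, some j, none, some k, none, some o, none, none)
  | .ac0 q => (16, none, none, none, some q, none, none, none)
  | .ac => (17, none, none, none, none, none, none, none)
  | .acS i => (18, some i, none, none, none, none, none, none)

theorem finite_Ru [Finite I] : Finite (Ru N I m) := by
  have := N.finK
  have := N.finG
  have := N.finQ
  apply Finite.of_injective ruCode
  intro a b h
  cases a <;> cases b <;> simp_all [ruCode]

theorem sh_bdd (ρ : Ru N I m) (j : Fin 3) (i : Fin m) (r : Fin 2) :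
    pick (sh ρ) j i r = 0 ∨ pick (sh ρ) j i r = 1 := by
  have he : ∀ (r' : Fin 2) (i' : Fin m), e r' i' i r = 0 ∨ e r' i' i r = 1 := by
    intro i' r'
    unfold e
    split_ifs <;> simp
  have hu : ∀ (r' : Fin 2) (i' : Fin m), up r' i' i r = 0 ∨ up r' i' i r = 1 := by
    intro i' r'
    unfold up
    split_ifs <;> simp
  unfold pick
  cases ρ <;> simp only [sh] <;> split_ifs <;>
    (first | exact Or.inl rfl | exact he _ _ | exact hu _ _)


/-- The conditional Horn system. -/
noncomputable def shape [Finite I] (kin kout : N.K) (sym : I → N.G) (gacc : N.G) (yZero yMax : Y)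
    (inF : I → BF m Y) (blankF : BF m Y) : CShape m Y where
  Pred := Pr N
  Rule := Ru N I m
  finRule := finite_Ru
  pred ρ j := pick (pr kin kout sym gacc ρ) j
  ish ρ j := pick (sh ρ) j
  ish_bdd := sh_bdd
  cond := cnd kin yZero yMax inF blankF
  start := .start
  goal := .acc

/-- The intended meaning of the predicates; `c t` is the configuration at time `t`. -/
def Sem (kout : N.K) (gacc : N.G) (c : ℕ → N.Cfg) {p : ℕ} :
    Pr N → (Fin m → Fin 2 → ZMod p) → Prop
  | .start, z => z = 0
  | .zt, z => ∀ i, z i 0 = 0
  | .ctl q, z => (c (numOf fun i => z i 0)).q = q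
  | .cell k o, z => ((c (numOf fun i => z i 0)).stk k)[numOf fun i => z i 1]? = o
  | .act0 q o, z => (∀ i, z i 1 = 0) ∧ ¬ N.halt q ∧ (c (numOf fun i => z i 0)).q = q ∧
      ((c (numOf fun i => z i 0)).stk (N.sel q)).head? = o
  | .act q o, z => ¬ N.halt q ∧ (c (numOf fun i => z i 0)).q = q ∧
      ((c (numOf fun i => z i 0)).stk (N.sel q)).head? = o
  | .nctl q, z => (c ((numOf fun i => z i 0) + 1)).q = q
  | .ncell k o, z => ((c ((numOf fun i => z i 0) + 1)).stk k)[numOf fun i => z i 1]? = o
  | .acc0, z => (∀ i, z i 1 = 0) ∧ N.halt (c (numOf fun i => z i 0)).q ∧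
      ((c (numOf fun i => z i 0)).stk kout).head? = some gacc
  | .acc, z => (∀ i, z i 1 = 0) ∧ ∃ t, N.halt (c t).q ∧ ((c t).stk kout).head? = some gacc

end

end Sim

end Vale.Agent.P310
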