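import Vale.Agent.Lib.P310.Defs

/-!
# P310: the input word with blanks (module WORD)

Position `r = g * p ^ 14 + a * p ^ 7 + b` of the padded word is the entry `(a, b)` of the adjacency
matrix of the graph number `g`, if `a, b < n`, and a blank otherwise.
-/

namespace Vale.Agent.P310

open Classical in
/-- the symbol at position `r` -/
noncomputable def bitAt (p : ℕ) {n : ℕ} (G H : SimpleGraph (Fin n)) (r : ℕ) : Option Bool :=
  if h : r / p ^ 7 % p ^ 7 < n ∧ r % p ^ 7 < n then
    some (decide ((if r / p ^ 14 = 0 then G else H).Adj ⟨r / p ^ 7 % p ^ 7, h.1⟩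
      ⟨r % p ^ 7, h.2⟩))
  else none

/-- the padded word -/
noncomputable def padWord (p : ℕ) {n : ℕ} (G H : SimpleGraph (Fin n)) : List (Option Bool) :=
  (List.range (2 * p ^ 14)).map (bitAt p G H)

theorem length_padWord (p : ℕ) {n : ℕ} (G H : SimpleGraph (Fin n)) :
    (padWord p G H).length = 2 * p ^ 14 := by
  simp [padWord]

private lemma word_range_mul (a b : ℕ) : List.range (a * b) =
    (List.range a).flatMap fun i => (List.range b).map fun j => i * b + j := by
  induction a with
  | zero => simp
  | succ a ih =>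
    rw [Nat.succ_mul, List.range_add, ih, List.range_succ, List.flatMap_append]
    simp

private lemma word_finRange (n : ℕ) : List.range n = (List.finRange n).map Fin.val := by
  simp

private lemma word_flatMap {α : Type*} {n P : ℕ} (hn : n ≤ P) (L : Fin n → List α) :
    (List.range P).flatMap (fun b => if h : b < n then L ⟨b, h⟩ else []) =
      (List.finRange n).flatMap L := by
  obtain ⟨k, rfl⟩ := Nat.exists_eq_add_of_le hn
  rw [List.range_add, List.flatMap_append, List.flatMap_map]
  have h1 : (List.range k).flatMap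
      (fun b => if h : n + b < n then L ⟨n + b, h⟩ else []) = [] := by
    rw [List.flatMap_eq_nil_iff]
    intro b _
    rw [dif_neg (by omega)]
  rw [h1, List.append_nil, word_finRange, List.flatMap_map]
  congr 1
  funext i
  rw [dif_pos i.2]

private lemma word_filterMap {α : Type*} {n P : ℕ} (hn : n ≤ P) (F : Fin n → α) :
    (List.range P).filterMap (fun b => if h : b < n then some (F ⟨b, h⟩) else none) =
      (List.finRange n).map F := by
  obtain ⟨k, rfl⟩ := Nat.exists_eq_add_of_le hn
  rw [List.range_add, List.filterMap_append, List.filterMap_map]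
  have h1 : (List.range k).filterMap
      ((fun b => if h : b < n then some (F ⟨b, h⟩) else none) ∘ fun x => n + x) = [] := by
    rw [List.filterMap_eq_nil_iff]
    intro b _
    simp
  rw [h1, List.append_nil, word_finRange, List.filterMap_map, ← List.filterMap_eq_map]
  congr 1
  funext i
  simp

open Classical in
private lemma word_one {p n : ℕ} (hn : n ≤ p ^ 7) (G H G' : SimpleGraph (Fin n)) (g : ℕ)
    (hg : (if g = 0 then G else H) = G') :
    (((List.range (p ^ 7 * p ^ 7)).map fun r => g * (p ^ 7 * p ^ 7) + r).map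
      (bitAt p G H)).reduceOption = adjBits G' := by
  have hP : 0 < p ^ 7 ∨ n = 0 := by
    rcases Nat.eq_zero_or_pos (p ^ 7) with h | h
    · right; omega
    · exact Or.inl h
  rcases hP with hP | rfl
  · rw [word_range_mul, List.map_flatMap, List.map_flatMap]
    unfold List.reduceOption adjBits
    rw [List.filterMap_flatMap, ← word_flatMap hn]
    rw [List.flatMap_def, List.flatMap_def]
    congr 1
    refine List.map_congr_left fun a ha => ?_
    rw [List.mem_range] at ha
    rw [List.map_map, List.map_map, List.filterMap_map]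
    by_cases han : a < n
    · rw [dif_pos han, ← word_filterMap hn]
      refine List.filterMap_congr fun b hb => ?_
      rw [List.mem_range] at hb
      have e0 : g * (p ^ 7 * p ^ 7) + (a * p ^ 7 + b) = (g * p ^ 7 + a) * p ^ 7 + b := by ring
      have e1 : (g * (p ^ 7 * p ^ 7) + (a * p ^ 7 + b)) % p ^ 7 = b := by
        rw [e0, Nat.mul_add_mod_self_right, Nat.mod_eq_of_lt hb]
      have e2 : (g * (p ^ 7 * p ^ 7) + (a * p ^ 7 + b)) / p ^ 7 = g * p ^ 7 + a := by
        rw [e0, Nat.mul_comm, Nat.mul_add_div hP, Nat.div_eq_of_lt hb, add_zero]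
      have e3 : (g * (p ^ 7 * p ^ 7) + (a * p ^ 7 + b)) / p ^ 7 % p ^ 7 = a := by
        rw [e2, Nat.mul_add_mod_self_right, Nat.mod_eq_of_lt ha]
      have e4 : (g * (p ^ 7 * p ^ 7) + (a * p ^ 7 + b)) / p ^ 14 = g := by
        rw [show p ^ 14 = p ^ 7 * p ^ 7 by ring, ← Nat.div_div_eq_div_mul, e2, Nat.mul_comm,
          Nat.mul_add_div hP, Nat.div_eq_of_lt ha, add_zero]
      simp only [Function.comp_apply, id_eq]
      unfold bitAt
      simp only [e1, e3, e4, hg]
      by_cases hbn : b < n
      · rw [dif_pos ⟨han, hbn⟩, dif_pos hbn]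
      · rw [dif_neg (fun h => hbn h.2), dif_neg hbn]
    · rw [dif_neg han, List.filterMap_eq_nil_iff]
      intro b hb
      rw [List.mem_range] at hb
      have e0 : g * (p ^ 7 * p ^ 7) + (a * p ^ 7 + b) = (g * p ^ 7 + a) * p ^ 7 + b := by ring
      have e2 : (g * (p ^ 7 * p ^ 7) + (a * p ^ 7 + b)) / p ^ 7 = g * p ^ 7 + a := by
        rw [e0, Nat.mul_comm, Nat.mul_add_div hP, Nat.div_eq_of_lt hb, add_zero]
      have e3 : (g * (p ^ 7 * p ^ 7) + (a * p ^ 7 + b)) / p ^ 7 % p ^ 7 = a := by
        rw [e2, Nat.mul_add_mod_self_right, Nat.mod_eq_of_lt ha]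
      simp only [Function.comp_apply, id_eq]
      unfold bitAt
      rw [dif_neg]
      intro h
      rw [e3] at h
      exact han h.1
  · unfold List.reduceOption adjBits
    rw [List.finRange_zero, List.flatMap_nil, List.filterMap_map, List.filterMap_eq_nil_iff]
    intro b _
    simp [bitAt]

/-- removing the blanks gives the input word -/
theorem reduceOption_padWord {p n : ℕ} (hn : n ≤ p ^ 7) (G H : SimpleGraph (Fin n)) :
    (padWord p G H).reduceOption = encPair ⟨n, G, H⟩ := by
  have h0 := word_one hn G H G 0 (by simp)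
  have h1 := word_one hn G H H 1 (by simp)
  unfold padWord encPair
  rw [← h0, ← h1, ← List.reduceOption_append, ← List.map_append]
  congr 2
  rw [show 2 * p ^ 14 = p ^ 7 * p ^ 7 + p ^ 7 * p ^ 7 by ring, List.range_add]
  simp

theorem length_encPair (a : GraphPair) : (encPair a).length = 2 * a.1 ^ 2 := by
  unfold encPair adjBits
  rw [List.length_append, List.length_flatMap, List.length_flatMap]
  simp
  ring

end Vale.Agent.P310
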