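import Vale.Agent.Lib.P310.AdjDefs
import Vale.Agent.Lib.P310.SimDefs
import Vale.Agent.Lib.P310.Word

/-!
# P310: the padded input word of the pair of graphs as digit formulas (definitions)

In the register `r` the digits `0..6` are those of the vertex `b` (column), the digits `7..13` are
those of the vertex `a` (row), the digit `14` is the number of the graph.
-/

namespace Vale.Agent.P310

/-- The vertices `0, ..., n - 1` of the final graphs: `e` sends the vertex `a` to the gadget vertex
with the label of code `digit 0` and the view `digits 1..5`, if digit `6` is zero. -/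
def VertexOk {A : Type} {p n : ℕ} (code : A → ZMod p) {J : Type}
    (e : Fin n ≃ (A × (Fin 5 → ZMod p)) ⊕ J) : Prop :=
  ∀ (a : Fin n) (l : A) (u : Fin 5 → ZMod p), e a = Sum.inl (l, u) ↔
    (code l = (dig p (a : ℕ) : Fin 7 → ZMod p) 0 ∧
      (∀ j : Fin 5, u j = (dig p (a : ℕ) : Fin 7 → ZMod p) (j.succ.castSucc)) ∧
      (dig p (a : ℕ) : Fin 7 → ZMod p) 6 = 0)

section
variable {m : ℕ}

/-- the number with digits `d` is less than `n` -/
def ltF (d : Fin 7 → Fin 2 × Fin m) : BF m (Sy m) :=
  BF.any ((List.finRange 7).map fun j => BF.all (.atom (.ltN j) (d j) (d j) ::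
    ((List.finRange 7).filter fun j' => j < j').map fun j' => .atom (.eqN j') (d j') (d j')))

/-- the digits `d` are those of a gadget, order or hub vertex -/
def coreF (d : Fin 7 → Fin 2 × Fin m) : BF m (Sy m) :=
  .and (.atom .isLab (d 0) (d 0)) (.atom .zero (d 6) (d 6))

/-- adjacency of the vertices with the digits `a`, `b` -/
noncomputable def adj7F (g : Bool) (a b : Fin 7 → Fin 2 × Fin m) : BF m (Sy m) :=
  BF.all [coreF a, coreF b, adjF g (fun j => a j.castSucc) (fun j => b j.castSucc)]

/-- the digits `≥ 15` of `r` are zero -/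
def highF : BF m (Sy m) :=
  BF.all (((List.finRange m).filter fun i : Fin m => decide (15 ≤ (i : ℕ))).map fun i =>
    .atom .zero ((1, i) : Fin 2 × Fin m) (1, i))

variable (hm : 15 ≤ m)

/-- digits of the vertex `b` -/
def dB (j : Fin 7) : Fin 2 × Fin m := (1, ⟨j, by omega⟩)

/-- digits of the vertex `a` -/
def dA (j : Fin 7) : Fin 2 × Fin m := (1, ⟨7 + j, by omega⟩)

/-- digit of the number of the graph -/
def dG : Fin 2 × Fin m := (1, ⟨14, by omega⟩)

/-- `r` is a position of the padded word -/
def posF : BF m (Sy m) :=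
  .and highF (.or (.atom .zero (dG hm) (dG hm)) (.atom .one (dG hm) (dG hm)))

/-- sign -/
def sgn (β : Bool) (φ : BF m (Sy m)) : BF m (Sy m) := if β then φ else .not φ

/-- the formula saying that the symbol at position `r` of the padded word is `x` -/
noncomputable def inF : Option Bool → BF m (Sy m)
  | none => .and (posF hm) (.not (.and (ltF (dA hm)) (ltF (dB hm))))
  | some β => BF.all [posF hm, ltF (dA hm), ltF (dB hm),
      .or (.and (.atom .zero (dG hm) (dG hm)) (sgn β (adj7F false (dA hm) (dB hm))))
        (.and (.atom .one (dG hm) (dG hm)) (sgn β (adj7F true (dA hm) (dB hm))))]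

/-- the formula saying that position `r` is behind the padded word -/
def blankF : BF m (Sy m) := .not (posF hm)

end

section
variable {m : ℕ} (hm : 15 ≤ m) (S : Shape m) {B D : ℕ}
  (cidx : Cls (m + 1) S.Rule B → ℕ) {p : ℕ} [NeZero p]
  (hp : Nat.card (Sy m) < p) (hp2 : 2 ≤ p) (code : Lab (m + 1) S.Rule B D → ZMod p)
  (hcode : Function.Injective code) {n : ℕ} (hn : n < p ^ 7)
  (T : Set (ZMod p × ZMod p × ZMod p)) (hT : T = table S cidx code n) {J : Type}
  (e : Fin n ≃ (Lab (m + 1) S.Rule B D × (Fin 5 → ZMod p)) ⊕ J) (he : VertexOk code e)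

/-- The graph number `g` on `Fin n`. -/
def finalGraph (g : Bool) : SimpleGraph (Fin n) :=
  (pairGraph (S.toHorn p T) D J cidx viewRank g).comap e

end

end Vale.Agent.P310
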