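import Vale.Agent.Lib.P310.EncA
import Vale.Agent.Lib.P310.EncB
import Vale.Agent.Lib.P310.Word

/-!
# P310: the padded input word as digit formulas (module ENCODE)
-/

namespace Vale.Agent.P310

section
variable {m : ℕ} (hm : 15 ≤ m) (S : Shape m) {B D : ℕ}
  (cidx : Cls (m + 1) S.Rule B → ℕ) {p : ℕ} [NeZero p]
  (hp : Nat.card (Sy m) < p) (hp2 : 2 ≤ p) (code : Lab (m + 1) S.Rule B D → ZMod p)
  (hcode : Function.Injective code) {n : ℕ} (hn : n < p ^ 7)
  (T : Set (ZMod p × ZMod p × ZMod p)) (hT : T = table S cidx code n) {J : Type}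
  (e : Fin n ≃ (Lab (m + 1) S.Rule B D × (Fin 5 → ZMod p)) ⊕ J) (he : VertexOk code e)

theorem enc_dig_B (r : ℕ) (j : Fin 7) :
    (regs 0 (dig p r) : Fin m → Fin 2 → ZMod p) (dB hm j).2 (dB hm j).1 =
      (dig p (r % p ^ 7) : Fin 7 → ZMod p) j := by
  have h1 : (regs 0 (dig p r) : Fin m → Fin 2 → ZMod p) (dB hm j).2 (dB hm j).1 =
      (dig p r : Fin 7 → ZMod p) j := by
    simp [regs, dB, dig]
  rw [h1]
  apply ZMod.val_injective
  rw [val_dig, val_dig]
  have hj : (j : ℕ) + 1 ≤ 7 := j.2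
  have e1 : (p : ℕ) ^ 7 = p ^ (j : ℕ) * (p * p ^ (7 - ((j : ℕ) + 1))) := by
    rw [← mul_assoc, ← pow_succ, ← pow_add]
    congr 1
    omega
  rw [e1, Nat.mod_mul_right_div_self, Nat.mod_mul_right_mod]

theorem enc_dig_A (r : ℕ) (j : Fin 7) :
    (regs 0 (dig p r) : Fin m → Fin 2 → ZMod p) (dA hm j).2 (dA hm j).1 =
      (dig p (r / p ^ 7 % p ^ 7) : Fin 7 → ZMod p) j := by
  have h1 : (regs 0 (dig p r) : Fin m → Fin 2 → ZMod p) (dA hm j).2 (dA hm j).1 =
      (dig p (r / p ^ 7) : Fin 7 → ZMod p) j := by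
    simp [regs, dA, dig, pow_add, Nat.div_div_eq_div_mul]
  rw [h1]
  apply ZMod.val_injective
  rw [val_dig, val_dig]
  have hj : (j : ℕ) + 1 ≤ 7 := j.2
  have e1 : (p : ℕ) ^ 7 = p ^ (j : ℕ) * (p * p ^ (7 - ((j : ℕ) + 1))) := by
    rw [← mul_assoc, ← pow_succ, ← pow_add]
    congr 1
    omega
  conv_rhs => rw [e1]
  rw [Nat.mod_mul_right_div_self, Nat.mod_mul_right_mod, ← e1]

omit [NeZero p] in
theorem enc_dig_G (r : ℕ) :
    (regs 0 (dig p r) : Fin m → Fin 2 → ZMod p) (dG hm).2 (dG hm).1 =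
      ((r / p ^ 14 : ℕ) : ZMod p) := by
  simp [regs, dG, dig]

omit [NeZero p] in
theorem enc_getElem? (G H : SimpleGraph (Fin n)) (r : ℕ) :
    (padWord p G H)[r]? = if r < 2 * p ^ 14 then some (bitAt p G H r) else none := by
  unfold padWord
  rw [List.getElem?_map]
  by_cases h : r < 2 * p ^ 14
  · rw [List.getElem?_range h, if_pos h]
    rfl
  · rw [if_neg h, List.getElem?_eq_none (by simpa using h)]
    rfl

theorem enc_numOf_B (r : ℕ) :
    numOf (fun j => (regs 0 (dig p r) : Fin m → Fin 2 → ZMod p) (dB hm j).2 (dB hm j).1) =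
      r % p ^ 7 := by
  have h1 : (fun j => (regs 0 (dig p r) : Fin m → Fin 2 → ZMod p) (dB hm j).2 (dB hm j).1) =
      (dig p (r % p ^ 7) : Fin 7 → ZMod p) := funext fun j => enc_dig_B hm r j
  rw [h1]
  exact numOf_dig (Nat.mod_lt _ (pow_pos (Nat.pos_of_ne_zero (NeZero.ne p)) _))

theorem enc_numOf_A (r : ℕ) :
    numOf (fun j => (regs 0 (dig p r) : Fin m → Fin 2 → ZMod p) (dA hm j).2 (dA hm j).1) =
      r / p ^ 7 % p ^ 7 := by
  have h1 : (fun j => (regs 0 (dig p r) : Fin m → Fin 2 → ZMod p) (dA hm j).2 (dA hm j).1) =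
      (dig p (r / p ^ 7 % p ^ 7) : Fin 7 → ZMod p) := funext fun j => enc_dig_A hm r j
  rw [h1]
  exact numOf_dig (Nat.mod_lt _ (pow_pos (Nat.pos_of_ne_zero (NeZero.ne p)) _))

include hp hp2 hn hcode hT he in
theorem inF_correct (hP : S.P0 ≠ S.Pg) (x : Option Bool) (r : ℕ) (hr : r < p ^ m) :
    (inF hm x).eval syNum T (regs 0 (dig p r)) ↔
      (padWord p (finalGraph S cidx T e false) (finalGraph S cidx T e true))[r]? =
        some x := by
  have hpos := posF_eval hm S cidx hp hp2 code T hT r hr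
  have hltA := ltF_eval S cidx hp code hn T hT (regs 0 (dig p r)) (dA hm)
  have hltB := ltF_eval S cidx hp code hn T hT (regs 0 (dig p r)) (dB hm)
  rw [enc_numOf_A hm r] at hltA
  rw [enc_numOf_B hm r] at hltB
  rw [enc_getElem?]
  rcases x with _ | β
  · show ((posF hm).eval syNum T (regs 0 (dig p r)) ∧
      ¬ ((ltF (dA hm)).eval syNum T (regs 0 (dig p r)) ∧
        (ltF (dB hm)).eval syNum T (regs 0 (dig p r)))) ↔ _
    rw [hpos, hltA, hltB]
    by_cases h1 : r < 2 * p ^ 14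
    · rw [if_pos h1]
      by_cases h2 : r / p ^ 7 % p ^ 7 < n ∧ r % p ^ 7 < n
      · simp [bitAt, h2]
      · simp only [h1, h2, bitAt, not_false_eq_true, and_self, dite_false]
    · rw [if_neg h1]
      simp [h1]
  · unfold inF
    rw [BF.eval_all]
    simp only [List.mem_cons, List.not_mem_nil, or_false, forall_eq_or_imp, forall_eq, BF.eval]
    rw [hpos, hltA, hltB]
    by_cases h1 : r < 2 * p ^ 14
    swap
    · rw [if_neg h1]
      simp [h1]
    rw [if_pos h1]
    by_cases h2 : r / p ^ 7 % p ^ 7 < n ∧ r % p ^ 7 < n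
    swap
    · have h3 : bitAt p (finalGraph S cidx T e false) (finalGraph S cidx T e true) r = none := by
        unfold bitAt
        rw [dif_neg h2]
      rw [h3]
      constructor
      · rintro ⟨-, h4, h5, -⟩
        exact absurd ⟨h4, h5⟩ h2
      · intro h4
        simp at h4
    have hz := atom_eval S cidx hp code n T hT (regs 0 (dig p r)) .zero (dG hm) (dG hm)
    have ho := atom_eval S cidx hp code n T hT (regs 0 (dig p r)) .one (dG hm) (dG hm)
    simp only [BF.eval, tb, enc_dig_G] at hz ho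
    simp only [enc_dig_G] at *
    rw [hz, ho]
    have hadj : ∀ g, (adj7F g (dA hm) (dB hm)).eval syNum T (regs 0 (dig p r)) ↔
        (finalGraph S cidx T e g).Adj ⟨r / p ^ 7 % p ^ 7, h2.1⟩ ⟨r % p ^ 7, h2.2⟩ := fun g =>
      adj7F_eval S cidx hp code hcode T hT e he hP _ g (dA hm) (dB hm) ⟨r / p ^ 7 % p ^ 7, h2.1⟩
        ⟨r % p ^ 7, h2.2⟩ (enc_dig_A hm r) (enc_dig_B hm r)
    have hsgn : ∀ g, (sgn β (adj7F g (dA hm) (dB hm))).eval syNum T (regs 0 (dig p r)) ↔
        (β = true ↔ (finalGraph S cidx T e g).Adj ⟨r / p ^ 7 % p ^ 7, h2.1⟩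
          ⟨r % p ^ 7, h2.2⟩) := by
      intro g
      cases β
      · simp [sgn, BF.eval, hadj g]
      · simp [sgn, hadj g]
    rw [hsgn, hsgn]
    have hp14 : 0 < p ^ 14 := pow_pos (Nat.pos_of_ne_zero (NeZero.ne p)) _
    have hq : r / p ^ 14 < 2 := by
      rw [Nat.div_lt_iff_lt_mul hp14]
      exact h1
    have h01 : ((1 : ℕ) : ZMod p) ≠ ((0 : ℕ) : ZMod p) := by
      intro h
      rw [ZMod.natCast_eq_natCast_iff', Nat.mod_eq_of_lt (by omega), Nat.mod_eq_of_lt (by omega)]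
        at h
      omega
    push_cast at h01
    unfold bitAt
    rw [dif_pos h2]
    simp only [h1, h2.1, h2.2, true_and, Option.some.injEq]
    have hcase : ∀ q : ℕ, q < 2 → q = 0 ∨ q = 1 := fun q hq' => by omega
    rcases hcase _ hq with h | h
    · rw [h, if_pos rfl]
      push_cast
      have h10 : ¬ ((0 : ZMod p) = 1) := fun h => h01 h.symm
      simp only [h10, false_and, or_false, true_and]
      cases β <;> simp
    · rw [h, if_neg one_ne_zero]
      push_cast
      simp only [h01, false_and, false_or, true_and]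
      cases β <;> simp

include hp hp2 hT in
theorem blankF_correct (r : ℕ) (hr : r < p ^ m) :
    (blankF hm).eval syNum T (regs 0 (dig p r)) ↔
      (padWord p (finalGraph S cidx T e false) (finalGraph S cidx T e true))[r]? = none := by
  have hpos := posF_eval hm S cidx hp hp2 code T hT r hr
  rw [enc_getElem?]
  show (¬ (posF hm).eval syNum T (regs 0 (dig p r))) ↔ _
  rw [hpos]
  by_cases h : r < 2 * p ^ 14
  · simp [h]
  · simp [h]

end

end Vale.Agent.P310
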