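import Vale.Agent.Lib.P310.CoreGraph

/-!
# P310: the types of classes and of labels are finite
-/

namespace Vale.Agent.P310

theorem finite_cls (M : ℕ) (R : Type) [Finite R] (B : ℕ) : Finite (Cls M R B) := by
  have hW : Finite (Wire R B) := by
    have : Finite (ZMod 3) := by infer_instance
    infer_instance
  let f : Cls M R B → Option (Option (Fin M × R) × Wire R B) := fun c => match c with
    | .rule i ρ γ => some (some (i, ρ), γ)
    | .ax γ => some (none, γ)
    | .goal => none
  apply Finite.of_injective f
  intro a b h
  cases a <;> cases b <;> simp_all [f]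

theorem finite_lab (M : ℕ) (R : Type) [Finite R] (B D : ℕ) : Finite (Lab M R B D) := by
  have hW : Finite (Wire R B) := by
    have : Finite (ZMod 3) := by infer_instance
    infer_instance
  have hC : Finite (Cls M R B) := finite_cls M R B
  have h2 : Finite (ZMod 2) := by infer_instance
  let f : Lab M R B D → ((Fin M × R × Wire R B × (Slot B → ZMod 2)) ⊕
      (Wire R B × (Fin M → ZMod 2))) ⊕ (((Fin M → ZMod 2) ⊕ (Cls M R B × Fin D)) ⊕ Fin (D + 1)) :=
    fun l => match l with
    | .rule i ρ γ α => Sum.inl (Sum.inl (i, ρ, γ, α))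
    | .ax γ α => Sum.inl (Sum.inr (γ, α))
    | .goal α => Sum.inr (Sum.inl (Sum.inl α))
    | .ord c e => Sum.inr (Sum.inl (Sum.inr (c, e)))
    | .hub e => Sum.inr (Sum.inr e)
  apply Finite.of_injective f
  intro a b h
  cases a <;> cases b <;> simp_all [f]

end Vale.Agent.P310
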