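import Mathlib

/-!
# P310: numerics (module NUMERICS)
-/

namespace Vale.Agent.P310

open Filter

private theorem num_root (n : ℕ) : ∃ p : ℕ, p ^ 6 ≤ n ∧ n < (p + 1) ^ 6 := by
  classical
  have hex : ∃ q : ℕ, n < (q + 1) ^ 6 :=
    ⟨n, lt_of_lt_of_le (Nat.lt_succ_self n) (Nat.le_self_pow (by norm_num) _)⟩
  refine ⟨Nat.find hex, ?_, Nat.find_spec hex⟩
  rcases Nat.eq_zero_or_pos (Nat.find hex) with h | h
  · rw [h]
    simp
  · have h1 := Nat.find_min hex (Nat.sub_lt h one_pos)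
    have h2 : Nat.find hex - 1 + 1 = Nat.find hex := Nat.sub_add_cancel h
    rw [h2] at h1
    exact not_lt.1 h1

/-- From bounds in terms of `p = ⌊n ^ (1/6)⌋` to a bound in terms of `n`. For large `n` take `p`
with `p ^ 6 ≤ n < (p + 1) ^ 6 ≤ p ^ 7`; `8 * p ^ 14 + 4 + C ≤ p ^ 15 / 2 ≤ p ^ m / 2` if `p` is
large, and `p ^ m ≥ (n ^ (1/6) / 2) ^ m`. -/
theorem numerics {m : ℕ} (hm : 15 ≤ m) (C p₀ : ℕ) (time : ℕ → ℕ)
    (h : ∀ p : ℕ, p₀ ≤ p → ∀ n : ℕ, p ^ 6 ≤ n → n < p ^ 7 →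
      p ^ m ≤ C * (time n + 1) + 8 * p ^ 14 + 4) :
    ∃ c : ℝ, 0 < c ∧ ∀ᶠ n : ℕ in atTop, c * (n : ℝ) ^ ((m : ℝ) / 6) ≤ (time n : ℝ) := by
  refine ⟨1 / (2 * (C + 1) * 2 ^ m), by positivity, ?_⟩
  filter_upwards [eventually_ge_atTop ((p₀ + 64 + 24 + 2 * C + 1) ^ 6)] with n hn
  obtain ⟨p, hp1, hp2⟩ := num_root n
  have hp3 : p₀ + 64 + 24 + 2 * C + 1 < p + 1 := by
    by_contra hcon
    push Not at hcon
    have := Nat.pow_le_pow_left hcon 6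
    omega
  have hp : 24 + 2 * C ≤ p := by omega
  have hp64 : 64 ≤ p := by omega
  have h7 : (p + 1) ^ 6 ≤ p ^ 7 := by
    calc (p + 1) ^ 6 ≤ (2 * p) ^ 6 := Nat.pow_le_pow_left (by omega) 6
      _ = 64 * p ^ 6 := by ring
      _ ≤ p * p ^ 6 := Nat.mul_le_mul_right _ hp64
      _ = p ^ 7 := by ring
  have h1 := h p (by omega) n hp1 (lt_of_lt_of_le hp2 h7)
  have h14 : 1 ≤ p ^ 14 := Nat.one_le_pow _ _ (by omega)
  have h15 : 2 * (8 * p ^ 14 + 4 + C) ≤ p ^ 15 := by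
    calc 2 * (8 * p ^ 14 + 4 + C) ≤ (24 + 2 * C) * p ^ 14 := by nlinarith
      _ ≤ p * p ^ 14 := Nat.mul_le_mul_right _ hp
      _ = p ^ 15 := by ring
  have h15m : p ^ 15 ≤ p ^ m := Nat.pow_le_pow_right (by omega) hm
  have h2 : p ^ m ≤ 2 * (C * time n) := by
    have h3 : C * (time n + 1) = C * time n + C := by ring
    rw [h3] at h1
    omega
  have h4 : (n : ℝ) ^ ((m : ℝ) / 6) ≤ ((p : ℝ) + 1) ^ m := by
    have h5 : (n : ℝ) ≤ ((p : ℝ) + 1) ^ 6 := by exact_mod_cast hp2.le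
    calc (n : ℝ) ^ ((m : ℝ) / 6) ≤ (((p : ℝ) + 1) ^ 6) ^ ((m : ℝ) / 6) :=
          Real.rpow_le_rpow (Nat.cast_nonneg _) h5 (by positivity)
      _ = ((p : ℝ) + 1) ^ m := by
          rw [← Real.rpow_natCast, ← Real.rpow_mul (by positivity), ← Real.rpow_natCast]
          congr 1
          push_cast
          ring
  have h5 : ((p : ℝ) + 1) ^ m ≤ 2 ^ m * (p : ℝ) ^ m := by
    rw [← mul_pow]
    refine pow_le_pow_left₀ (by positivity) ?_ m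
    have : (64 : ℝ) ≤ p := by exact_mod_cast hp64
    linarith
  have h6 : (p : ℝ) ^ m ≤ 2 * (C * (time n : ℝ)) := by exact_mod_cast h2
  have h8 : (0 : ℝ) ≤ time n := Nat.cast_nonneg _
  have h9 : (0 : ℝ) ≤ C := Nat.cast_nonneg _
  rw [one_div, inv_mul_le_iff₀ (by positivity)]
  calc (n : ℝ) ^ ((m : ℝ) / 6) ≤ 2 ^ m * (p : ℝ) ^ m := h4.trans h5
    _ ≤ 2 ^ m * (2 * (C * (time n : ℝ))) := mul_le_mul_of_nonneg_left h6 (by positivity)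
    _ ≤ 2 * (C + 1) * 2 ^ m * (time n : ℝ) := by
        have : (0 : ℝ) ≤ 2 ^ m * (2 * (time n : ℝ)) := by positivity
        nlinarith

/-- The corollary: there is no exponent `g k = o(k)`. -/
theorem no_small_exponent (P : ℕ → (ℕ → ℕ) → Prop)
    (h : ∀ k, 16 ≤ k → ∀ time, P k time →
      ∃ c : ℝ, 0 < c ∧ ∀ᶠ n : ℕ in atTop, c * (n : ℝ) ^ (((k : ℝ) - 1) / 6) ≤ (time n : ℝ))
    (g : ℕ → ℝ) (hg : g =o[atTop] (fun k : ℕ => (k : ℝ))) :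
    ¬ ∀ k, 2 ≤ k → ∃ time, P k time ∧
      (fun n : ℕ => (time n : ℝ)) =O[atTop] (fun n : ℕ => (n : ℝ) ^ g k) := by
  intro hall
  have h1 := hg.def (show (0 : ℝ) < 1 / 12 by norm_num)
  obtain ⟨k, hk1, hk2⟩ := (h1.and (eventually_ge_atTop 16)).exists
  obtain ⟨time, hP, hO⟩ := hall k (by omega)
  obtain ⟨c, hc, hlow⟩ := h k hk2 time hP
  obtain ⟨C, hC⟩ := hO.bound
  have hk16 : (16 : ℝ) ≤ k := by exact_mod_cast hk2
  have hgk : g k ≤ 1 / 12 * k := by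
    have h2 := le_abs_self (g k)
    rw [Real.norm_eq_abs, Real.norm_eq_abs, Nat.abs_cast] at hk1
    linarith
  have hd : 0 < ((k : ℝ) - 1) / 6 - g k := by linarith
  have hT : Tendsto (fun n : ℕ => (n : ℝ) ^ (((k : ℝ) - 1) / 6 - g k)) atTop atTop :=
    (tendsto_rpow_atTop hd).comp tendsto_natCast_atTop_atTop
  obtain ⟨n, ⟨⟨hn1, hn2⟩, hn3⟩, hn4⟩ := (((hlow.and hC).and
    (hT.eventually (eventually_gt_atTop (C / c)))).and (eventually_gt_atTop 0)).exists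
  have hn0 : (0 : ℝ) < n := by exact_mod_cast hn4
  rw [Real.norm_eq_abs, Real.norm_eq_abs, abs_of_nonneg (Nat.cast_nonneg _),
    abs_of_nonneg (Real.rpow_nonneg hn0.le _)] at hn2
  have h3 : 0 < (n : ℝ) ^ g k := Real.rpow_pos_of_pos hn0 _
  have h4 : (n : ℝ) ^ (((k : ℝ) - 1) / 6) =
      (n : ℝ) ^ (((k : ℝ) - 1) / 6 - g k) * (n : ℝ) ^ g k := by
    rw [← Real.rpow_add hn0]
    congr 1
    ring
  rw [div_lt_iff₀ hc] at hn3
  rw [h4] at hn1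
  have h5 : c * ((n : ℝ) ^ (((k : ℝ) - 1) / 6 - g k) * (n : ℝ) ^ g k) ≤ C * (n : ℝ) ^ g k :=
    hn1.trans hn2
  have h6 : C * (n : ℝ) ^ g k <
      (n : ℝ) ^ (((k : ℝ) - 1) / 6 - g k) * c * (n : ℝ) ^ g k :=
    mul_lt_mul_of_pos_right hn3 h3
  linarith

end Vale.Agent.P310
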