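import Vale.Agent.Lib.P310.SM

/-!
# P310: removing blanks from the input word (module PREP)

The new machine has two more stacks (raw input, auxiliary stack). It moves the symbols of the raw
input that are not blank to the auxiliary stack, then it moves the auxiliary stack to the input
stack of the old machine, and then it runs the old machine.
-/

namespace Vale.Agent.P310

namespace Prep

/-- The control states are `N.Q` (run) and `(false, none)` (read raw input), `(false, some b)`
(push `b` to the auxiliary stack), `(true, none)` (read the auxiliary stack), `(true, some b)`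
(push `b` to the input stack). -/
abbrev PQ (N : SM) := N.Q ⊕ (Bool × Option Bool)

/-- selected stack -/
def sel (N : SM) (kin : N.K) : PQ N → N.K ⊕ Bool
  | Sum.inl q => Sum.inl (N.sel q)
  | Sum.inr (false, none) => Sum.inr true
  | Sum.inr (false, some _) => Sum.inr false
  | Sum.inr (true, none) => Sum.inr false
  | Sum.inr (true, some _) => Sum.inl kin

/-- projection of the stack symbols to the old ones -/
def proj (N : SM) : Option (N.G ⊕ Option Bool) → Option N.G
  | some (Sum.inl g) => some g
  | _ => none

/-- next state -/
def nxt (N : SM) : PQ N → Option (N.G ⊕ Option Bool) → PQ N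
  | Sum.inl q, o => Sum.inl (N.nxt q (proj N o))
  | Sum.inr (false, none), some (Sum.inr none) => Sum.inr (false, none)
  | Sum.inr (false, none), some (Sum.inr (some b)) => Sum.inr (false, some b)
  | Sum.inr (false, none), _ => Sum.inr (true, none)
  | Sum.inr (false, some _), _ => Sum.inr (false, none)
  | Sum.inr (true, none), some (Sum.inr (some b)) => Sum.inr (true, some b)
  | Sum.inr (true, none), _ => Sum.inl N.q0
  | Sum.inr (true, some _), _ => Sum.inr (true, none)

/-- operation -/
def op (N : SM) (sym : Bool → N.G) :
    PQ N → Option (N.G ⊕ Option Bool) → Option (Option (N.G ⊕ Option Bool))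
  | Sum.inl q, o => (N.op q (proj N o)).map (fun x => x.map Sum.inl)
  | Sum.inr (false, none), some (Sum.inr _) => some none
  | Sum.inr (false, none), _ => none
  | Sum.inr (false, some b), _ => some (some (Sum.inr (some b)))
  | Sum.inr (true, none), some (Sum.inr (some _)) => some none
  | Sum.inr (true, none), _ => none
  | Sum.inr (true, some b), _ => some (some (Sum.inl (sym b)))

/-- halting states -/
def hlt (N : SM) : PQ N → Prop
  | Sum.inl q => N.halt q
  | Sum.inr _ => False

/-- the new machine -/
def mach (N : SM) (kin : N.K) (sym : Bool → N.G) : SM where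
  K := N.K ⊕ Bool
  G := N.G ⊕ Option Bool
  Q := PQ N
  finK := by
    have := N.finK
    infer_instance
  finG := by
    have := N.finG
    infer_instance
  finQ := by
    have := N.finQ
    infer_instance
  sel := sel N kin
  nxt := nxt N
  op := op N sym
  halt := hlt N
  q0 := Sum.inr (false, none)

variable {N : SM} {kin : N.K} {sym : Bool → N.G}

/-- configurations of the new machine -/
def mk (N : SM) (kin : N.K) (sym : Bool → N.G) (q : PQ N) (raw : List (Option Bool))
    (aux : List Bool) (s : N.K → List N.G) : (mach N kin sym).Cfg where
  q := q
  stk := fun k => match k with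
    | Sum.inl k => (s k).map Sum.inl
    | Sum.inr true => raw.map Sum.inr
    | Sum.inr false => aux.map (fun b => Sum.inr (some b))

theorem cfg_ext {M : SM} {c c' : M.Cfg} (h1 : c.q = c'.q) (h2 : ∀ k, c.stk k = c'.stk k) :
    c = c' := by
  obtain ⟨q, s⟩ := c
  obtain ⟨q', s'⟩ := c'
  have h3 : s = s' := funext h2
  have h4 : q = q' := h1
  rw [h3, h4]

theorem step_nop {M : SM} (c : M.Cfg) (h : ¬ M.halt c.q)
    (ho : M.op c.q (c.stk (M.sel c.q)).head? = none) :
    M.step c = { q := M.nxt c.q (c.stk (M.sel c.q)).head?, stk := c.stk } := by
  unfold SM.step
  rw [if_neg h, ho]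

open Classical in
theorem step_pop {M : SM} (c : M.Cfg) (h : ¬ M.halt c.q)
    (ho : M.op c.q (c.stk (M.sel c.q)).head? = some none) :
    M.step c = { q := M.nxt c.q (c.stk (M.sel c.q)).head?
                 stk := Function.update c.stk (M.sel c.q) (c.stk (M.sel c.q)).tail } := by
  unfold SM.step
  rw [if_neg h, ho]

open Classical in
theorem step_add {M : SM} (c : M.Cfg) (h : ¬ M.halt c.q) (g : M.G)
    (ho : M.op c.q (c.stk (M.sel c.q)).head? = some (some g)) :
    M.step c = { q := M.nxt c.q (c.stk (M.sel c.q)).head?
                 stk := Function.update c.stk (M.sel c.q) (g :: c.stk (M.sel c.q)) } := by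
  unfold SM.step
  rw [if_neg h, ho]

theorem step_none (w : List (Option Bool)) (a : List Bool) (s : N.K → List N.G) :
    (mach N kin sym).step (mk N kin sym (Sum.inr (false, none)) (none :: w) a s) =
      mk N kin sym (Sum.inr (false, none)) w a s := by
  refine (step_pop _ (fun h => by exact h) rfl).trans (cfg_ext rfl fun k => ?_)
  rcases k with k | k
  · simp [mk, mach, sel, Function.update]
  · cases k <;> simp [mk, mach, sel, Function.update]

theorem step_some (b : Bool) (w : List (Option Bool)) (a : List Bool) (s : N.K → List N.G) :
    (mach N kin sym).step (mk N kin sym (Sum.inr (false, none)) (some b :: w) a s) =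
      mk N kin sym (Sum.inr (false, some b)) w a s := by
  refine (step_pop _ (fun h => by exact h) rfl).trans (cfg_ext rfl fun k => ?_)
  rcases k with k | k
  · simp [mk, mach, sel, Function.update]
  · cases k <;> simp [mk, mach, sel, Function.update]

theorem step_push (b : Bool) (w : List (Option Bool)) (a : List Bool) (s : N.K → List N.G) :
    (mach N kin sym).step (mk N kin sym (Sum.inr (false, some b)) w a s) =
      mk N kin sym (Sum.inr (false, none)) w (b :: a) s := by
  refine (step_add _ (fun h => by exact h) _ rfl).trans (cfg_ext rfl fun k => ?_)
  rcases k with k | k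
  · simp [mk, mach, sel, Function.update]
  · cases k <;> simp [mk, mach, sel, Function.update]

theorem step_end (a : List Bool) (s : N.K → List N.G) :
    (mach N kin sym).step (mk N kin sym (Sum.inr (false, none)) [] a s) =
      mk N kin sym (Sum.inr (true, none)) [] a s :=
  (step_nop _ (fun h => by exact h) rfl).trans (cfg_ext rfl fun k => rfl)

theorem step_back (b : Bool) (w : List (Option Bool)) (a : List Bool) (s : N.K → List N.G) :
    (mach N kin sym).step (mk N kin sym (Sum.inr (true, none)) w (b :: a) s) =
      mk N kin sym (Sum.inr (true, some b)) w a s := by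
  refine (step_pop _ (fun h => by exact h) rfl).trans (cfg_ext rfl fun k => ?_)
  rcases k with k | k
  · simp [mk, mach, sel, Function.update]
  · cases k <;> simp [mk, mach, sel, Function.update]

open Classical in
theorem step_back_push (b : Bool) (w : List (Option Bool)) (a : List Bool)
    (s : N.K → List N.G) :
    (mach N kin sym).step (mk N kin sym (Sum.inr (true, some b)) w a s) =
      mk N kin sym (Sum.inr (true, none)) w a (Function.update s kin (sym b :: s kin)) := by
  refine (step_add _ (fun h => by exact h) _ rfl).trans (cfg_ext rfl fun k => ?_)
  rcases k with k | k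
  · by_cases hk : k = kin
    · subst hk
      simp [mk, mach, sel, Function.update]
    · simp [mk, mach, sel, Function.update, hk]
  · cases k <;> simp [mk, mach, sel, Function.update]

theorem step_start (w : List (Option Bool)) (s : N.K → List N.G) :
    (mach N kin sym).step (mk N kin sym (Sum.inr (true, none)) w [] s) =
      mk N kin sym (Sum.inl N.q0) w [] s :=
  (step_nop _ (fun h => by exact h) rfl).trans (cfg_ext rfl fun k => rfl)

theorem proj_head (l : List N.G) :
    proj N (l.map (Sum.inl : N.G → N.G ⊕ Option Bool)).head? = l.head? := by
  cases l <;> rfl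

theorem head_iff (l : List N.G) (g : N.G) :
    (l.map (Sum.inl : N.G → N.G ⊕ Option Bool)).head? = some (Sum.inl g) ↔
      l.head? = some g := by
  cases l <;> simp

theorem step_run (c : N.Cfg) (w : List (Option Bool)) (a : List Bool) :
    (mach N kin sym).step (mk N kin sym (Sum.inl c.q) w a c.stk) =
      mk N kin sym (Sum.inl (N.step c).q) w a (N.step c).stk := by
  classical
  by_cases h : N.halt c.q
  · have h1 : N.step c = c := by rw [SM.step, if_pos h]
    rw [h1]
    exact if_pos h
  · have hp := proj_head (N := N) (c.stk (N.sel c.q))
    rcases ho : N.op c.q (c.stk (N.sel c.q)).head? with _ | _ | g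
    · have ho' : (mach N kin sym).op (mk N kin sym (Sum.inl c.q) w a c.stk).q
          ((mk N kin sym (Sum.inl c.q) w a c.stk).stk
            ((mach N kin sym).sel (mk N kin sym (Sum.inl c.q) w a c.stk).q)).head? = none := by
        change (N.op c.q (proj N ((c.stk (N.sel c.q)).map Sum.inl).head?)).map _ = none
        rw [hp, ho]
        rfl
      rw [step_nop _ (by exact h) ho', step_nop _ h ho]
      refine cfg_ext ?_ fun k => rfl
      change Sum.inl (N.nxt c.q (proj N ((c.stk (N.sel c.q)).map Sum.inl).head?)) = _
      rw [hp]
      rfl
    · have ho' : (mach N kin sym).op (mk N kin sym (Sum.inl c.q) w a c.stk).q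
          ((mk N kin sym (Sum.inl c.q) w a c.stk).stk
            ((mach N kin sym).sel (mk N kin sym (Sum.inl c.q) w a c.stk).q)).head? =
            some none := by
        change (N.op c.q (proj N ((c.stk (N.sel c.q)).map Sum.inl).head?)).map _ = some none
        rw [hp, ho]
        rfl
      rw [step_pop _ (by exact h) ho', step_pop _ h ho]
      refine cfg_ext ?_ fun k => ?_
      · change Sum.inl (N.nxt c.q (proj N ((c.stk (N.sel c.q)).map Sum.inl).head?)) = _
        rw [hp]
        rfl
      · rcases k with k | k
        · by_cases hk : k = N.sel c.q
          · subst hk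
            simp [mk, mach, sel, Function.update]
          · simp [mk, mach, sel, Function.update, hk]
        · cases k <;> simp [mk, mach, sel, Function.update]
    · have ho' : (mach N kin sym).op (mk N kin sym (Sum.inl c.q) w a c.stk).q
          ((mk N kin sym (Sum.inl c.q) w a c.stk).stk
            ((mach N kin sym).sel (mk N kin sym (Sum.inl c.q) w a c.stk).q)).head? =
            some (some (Sum.inl g)) := by
        change (N.op c.q (proj N ((c.stk (N.sel c.q)).map Sum.inl).head?)).map _ = _
        rw [hp, ho]
        rfl
      rw [step_add _ (by exact h) _ ho', step_add _ h _ ho]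
      refine cfg_ext ?_ fun k => ?_
      · change Sum.inl (N.nxt c.q (proj N ((c.stk (N.sel c.q)).map Sum.inl).head?)) = _
        rw [hp]
        rfl
      · rcases k with k | k
        · by_cases hk : k = N.sel c.q
          · subst hk
            simp [mk, mach, sel, Function.update]
          · simp [mk, mach, sel, Function.update, hk]
        · cases k <;> simp [mk, mach, sel, Function.update]

theorem run_iter (n : ℕ) (c : N.Cfg) (w : List (Option Bool)) (a : List Bool) :
    (mach N kin sym).step^[n] (mk N kin sym (Sum.inl c.q) w a c.stk) =
      mk N kin sym (Sum.inl (N.step^[n] c).q) w a (N.step^[n] c).stk := by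
  induction n generalizing c with
  | zero => rfl
  | succ n ih => rw [Function.iterate_succ_apply, step_run, ih, Function.iterate_succ_apply]

theorem phaseA (w : List (Option Bool)) (a : List Bool) (s : N.K → List N.G) :
    ∃ n ≤ 2 * w.length + 1, (mach N kin sym).step^[n]
      (mk N kin sym (Sum.inr (false, none)) w a s) =
      mk N kin sym (Sum.inr (true, none)) [] (w.reduceOption.reverse ++ a) s := by
  induction w generalizing a with
  | nil => exact ⟨1, le_rfl, step_end a s⟩
  | cons o w ih =>
    rcases o with _ | b
    · obtain ⟨n, hn, h⟩ := ih a
      refine ⟨n + 1, by simp only [List.length_cons]; omega, ?_⟩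
      rw [Function.iterate_succ_apply, step_none, h, List.reduceOption_cons_of_none]
    · obtain ⟨n, hn, h⟩ := ih (b :: a)
      refine ⟨n + 2, by simp only [List.length_cons]; omega, ?_⟩
      rw [show n + 2 = (n + 1) + 1 from rfl, Function.iterate_succ_apply, step_some,
        Function.iterate_succ_apply, step_push, h, List.reduceOption_cons_of_some]
      simp

open Classical in
theorem phaseB (w : List (Option Bool)) (a : List Bool) (s : N.K → List N.G) :
    (mach N kin sym).step^[2 * a.length + 1] (mk N kin sym (Sum.inr (true, none)) w a s) =
      mk N kin sym (Sum.inl N.q0) w []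
        (Function.update s kin (a.reverse.map sym ++ s kin)) := by
  induction a generalizing s with
  | nil =>
    simp only [List.length_nil, mul_zero, zero_add, Function.iterate_one, List.reverse_nil,
      List.map_nil, List.nil_append, Function.update_eq_self]
    exact step_start w s
  | cons b a ih =>
    rw [show 2 * (b :: a).length + 1 = (2 * a.length + 1 + 1) + 1 by
      simp only [List.length_cons]; ring, Function.iterate_succ_apply, step_back,
      Function.iterate_succ_apply, step_back_push, ih]
    congr 1
    rw [Function.update_idem, Function.update_self]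
    simp

end Prep

open Prep in
theorem prep (N : SM) (kin kout : N.K) (sym : Bool → N.G) (gacc : N.G) :
    ∃ (N' : SM) (kin' kout' : N'.K) (sym' : Option Bool → N'.G) (gacc' : N'.G),
      ∀ (w : List (Option Bool)) (n : ℕ),
        N.halt (N.step^[n] (N.init kin sym w.reduceOption)).q →
        ∃ n' ≤ n + 4 * w.length + 4, N'.halt (N'.step^[n'] (N'.init kin' sym' w)).q ∧
          (((N'.step^[n'] (N'.init kin' sym' w)).stk kout').head? = some gacc' ↔
            ((N.step^[n] (N.init kin sym w.reduceOption)).stk kout).head? = some gacc) := by
  classical
  refine ⟨mach N kin sym, Sum.inr true, Sum.inl kout, Sum.inr, Sum.inl gacc, fun w n hn => ?_⟩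
  have hinit : (mach N kin sym).init (Sum.inr true) (Sum.inr : Option Bool → N.G ⊕ Option Bool) w =
      mk N kin sym (Sum.inr (false, none)) w [] (fun _ => []) := by
    simp only [SM.init, mk, mach]
    congr 1
    funext k
    rcases k with k | k
    · simp [Function.update]
    · cases k <;> simp [Function.update]
  obtain ⟨n1, hn1, h1⟩ := phaseA (N := N) (kin := kin) (sym := sym) w [] (fun _ => [])
  have h2 := phaseB (N := N) (kin := kin) (sym := sym) [] (w.reduceOption.reverse ++ [])
    (fun _ => [])
  have h3 := run_iter (kin := kin) (sym := sym) n (N.init kin sym w.reduceOption) [] []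
  set m := 2 * (w.reduceOption.reverse ++ []).length + 1 with hm
  have hlen : m ≤ 2 * w.length + 1 := by
    have := List.reduceOption_length_le w
    rw [hm]
    simp only [List.append_nil, List.length_reverse]
    omega
  have hstart : mk N kin sym (Sum.inl N.q0) [] []
      (Function.update (fun _ => []) kin
        ((w.reduceOption.reverse ++ []).reverse.map sym ++ [])) =
      mk N kin sym (Sum.inl (N.init kin sym w.reduceOption).q) [] []
        (N.init kin sym w.reduceOption).stk := by
    simp [SM.init]
  have htot : (mach N kin sym).step^[n + (m + n1)]
      ((mach N kin sym).init (Sum.inr true) (Sum.inr : Option Bool → N.G ⊕ Option Bool) w) =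
      mk N kin sym (Sum.inl (N.step^[n] (N.init kin sym w.reduceOption)).q) [] []
        (N.step^[n] (N.init kin sym w.reduceOption)).stk := by
    rw [hinit, Function.iterate_add_apply, Function.iterate_add_apply, h1, h2, hstart, h3]
  refine ⟨n + (m + n1), by omega, ?_, ?_⟩
  · rw [htot]
    exact hn
  · rw [htot]
    exact head_iff _ _

end Vale.Agent.P310
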