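import Vale.Agent.Lib.P310.SimDefs

/-!
# P310: completeness of the simulation (module SIMCOMPLETE)
-/

namespace Vale.Agent.P310

namespace Sim

section Aux
variable {m : ℕ} {Y : Type} {num : Y → ℕ} {p : ℕ} {T : Set (ZMod p × ZMod p × ZMod p)}
  {z : Fin m → Fin 2 → ZMod p}

theorem cpl_conj (l : List (BF m Y)) :
    (conj l).eval num T z ↔ ∀ φ ∈ l, φ.eval num T z := by
  induction l with
  | nil => simp [conj, BF.eval]
  | cons a l ih => simp [conj, BF.eval, ih]

theorem cpl_iffF (P : Prop) : (iffF P : BF m Y).eval num T z ↔ P := by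
  unfold iffF
  split_ifs with h <;> simp [BF.eval, h]

theorem cpl_carry {yMax : Y}
    (hmax : ∀ a b : ZMod p, (((num yMax : ℕ) : ZMod p), a, b) ∈ T ↔ a = -1) (r : Fin 2)
    (j : Fin m) : (carryF yMax r j : BF m Y).eval num T z ↔ (∀ i < j, z i r = -1) ∧ z j r ≠ -1 := by
  unfold carryF
  simp only [BF.eval, cpl_conj, List.mem_map, List.mem_filter, List.mem_finRange, true_and,
    decide_eq_true_eq, hmax]
  constructor
  · rintro ⟨h1, h2⟩
    refine ⟨fun i hi => ?_, h2⟩
    have := h1 _ ⟨i, hi, rfl⟩
    simpa only [BF.eval, hmax] using this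
  · rintro ⟨h1, h2⟩
    refine ⟨?_, h2⟩
    rintro φ ⟨i, hi, rfl⟩
    simpa only [BF.eval, hmax] using h1 i hi

theorem cpl_zero {yZero : Y}
    (hzero : ∀ a b : ZMod p, (((num yZero : ℕ) : ZMod p), a, b) ∈ T ↔ a = 0) (r : Fin 2) :
    (zeroF yZero r : BF m Y).eval num T z ↔ ∀ i, z i r = 0 := by
  unfold zeroF
  simp only [cpl_conj, List.mem_map, List.mem_finRange, true_and]
  constructor
  · intro h i
    have := h _ ⟨i, rfl⟩
    simpa only [BF.eval, hzero] using this
  · rintro h φ ⟨i, rfl⟩
    simpa only [BF.eval, hzero] using h i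

/-- everything that differs only in the register `r` is reached by unit shifts of `r` -/
theorem cpl_reach [NeZero p] (r : Fin 2) (A : (Fin m → Fin 2 → ZMod p) → Prop)
    (hA : ∀ z i, A z → A (z + modp p (e r i))) {z z' : Fin m → Fin 2 → ZMod p} (hz : A z)
    (h : ∀ i j, j ≠ r → z' i j = z i j) : A z' := by
  classical
  -- one coordinate, n times
  have h1 : ∀ (i : Fin m) (n : ℕ) (z : Fin m → Fin 2 → ZMod p), A z →
      A (fun i' j => if i' = i ∧ j = r then z i' j + n else z i' j) := by
    intro i n
    induction n with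
    | zero =>
      intro z hz
      convert hz using 1
      funext i' j
      simp
    | succ n ih =>
      intro z hz
      convert hA _ i (ih z hz) using 1
      funext i' j
      simp only [Pi.add_apply, modp, e]
      split_ifs <;> simp [add_assoc]
  -- a set of coordinates
  have h2 : ∀ s : Finset (Fin m), A (fun i j => if i ∈ s ∧ j = r then z' i j else z i j) := by
    intro s
    induction s using Finset.induction_on with
    | empty => simpa using hz
    | insert a s ha ih =>
      convert h1 a (z' a r - z a r).val _ ih using 1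
      funext i' j
      simp only [Finset.mem_insert]
      by_cases hj : j = r
      · subst hj
        by_cases hi : i' = a
        · subst hi
          simp [ha]
        · simp [hi]
      · simp [hj]
  convert h2 Finset.univ using 1
  funext i j
  by_cases hj : j = r
  · simp [hj]
  · simp [hj, h i j hj]

/-- adding `up` realizes the successor -/
theorem cpl_up [NeZero p] (hp : 2 ≤ p) (r : Fin 2) (j : Fin m) (z : Fin m → Fin 2 → ZMod p)
    (h : ∀ i < j, z i r = -1) (hj : z j r ≠ -1) :
    (numOf fun i => (z + modp p (up r j)) i r) = (numOf fun i => z i r) + 1 := by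
  rw [← numOf_succ hp (fun i => z i r) j h hj]
  congr 1
  funext i
  simp only [Pi.add_apply, modp, up]
  split_ifs with h1 h2 h2 <;> simp_all

theorem cpl_up_ne (r s : Fin 2) (hs : s ≠ r) (j : Fin m) (z : Fin m → Fin 2 → ZMod p) (i : Fin m) :
    (z + modp p (up r j)) i s = z i s := by
  simp [modp, up, hs]

theorem cpl_modp_zero : modp p (0 : Fin m → Fin 2 → ℤ) = 0 := by
  funext i j; simp [modp]

end Aux

section
variable {N : SM} {I : Type} [Finite I] {m : ℕ} {Y : Type} {kin kout : N.K} {sym : I → N.G}
  {gacc : N.G} {yZero yMax : Y} {inF : I → BF m Y} {blankF : BF m Y} {num : Y → ℕ}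
  {p : ℕ} {T : Set (ZMod p × ZMod p × ZMod p)}

theorem cpl_rule (ρ : Ru N I m) (z : Fin m → Fin 2 → ZMod p)
    (hc : (cnd kin yZero yMax inF blankF ρ).eval num T z)
    (h1 : (shape kin kout sym gacc yZero yMax inF blankF).Known num T (pr kin kout sym gacc ρ).2.1
      (z + modp p (sh ρ).2.1))
    (h2 : (shape kin kout sym gacc yZero yMax inF blankF).Known num T (pr kin kout sym gacc ρ).2.2
      (z + modp p (sh ρ).2.2)) :
    (shape kin kout sym gacc yZero yMax inF blankF).Known num T (pr kin kout sym gacc ρ).1
      (z + modp p (sh ρ).1) :=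
  CShape.Known.rule (C := shape kin kout sym gacc yZero yMax inF blankF) ρ z hc h1 h2

/-- rule without shifts of the bodies -/
theorem cpl_rule0 (ρ : Ru N I m) (z : Fin m → Fin 2 → ZMod p)
    (hc : (cnd kin yZero yMax inF blankF ρ).eval num T z)
    (h1 : (shape kin kout sym gacc yZero yMax inF blankF).Known num T
      (pr kin kout sym gacc ρ).2.1 z)
    (h2 : (shape kin kout sym gacc yZero yMax inF blankF).Known num T
      (pr kin kout sym gacc ρ).2.2 z) (e1 : (sh ρ).2.1 = 0) (e2 : (sh ρ).2.2 = 0) :
    (shape kin kout sym gacc yZero yMax inF blankF).Known num T (pr kin kout sym gacc ρ).1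
      (z + modp p (sh ρ).1) := by
  apply cpl_rule ρ z hc
  · rw [e1, cpl_modp_zero, add_zero]; exact h1
  · rw [e2, cpl_modp_zero, add_zero]; exact h2

/-- rule without shifts -/
theorem cpl_rule00 (ρ : Ru N I m) (z : Fin m → Fin 2 → ZMod p)
    (hc : (cnd kin yZero yMax inF blankF ρ).eval num T z)
    (h1 : (shape kin kout sym gacc yZero yMax inF blankF).Known num T
      (pr kin kout sym gacc ρ).2.1 z)
    (h2 : (shape kin kout sym gacc yZero yMax inF blankF).Known num T
      (pr kin kout sym gacc ρ).2.2 z) (e0 : (sh ρ).1 = 0) (e1 : (sh ρ).2.1 = 0)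
    (e2 : (sh ρ).2.2 = 0) :
    (shape kin kout sym gacc yZero yMax inF blankF).Known num T
      (pr kin kout sym gacc ρ).1 z := by
  have := cpl_rule0 ρ z hc h1 h2 e1 e2
  rwa [e0, cpl_modp_zero, add_zero] at this

theorem cpl_zt [NeZero p] (z : Fin m → Fin 2 → ZMod p) (hz : ∀ i, z i 0 = 0) :
    (shape kin kout sym gacc yZero yMax inF blankF).Known num T (Pr.zt : Pr N) z := by
  refine cpl_reach (z := 0) 1
    (fun z => (shape kin kout sym gacc yZero yMax inF blankF).Known num T (Pr.zt : Pr N) z) ?_ ?_ ?_
  · intro z i h
    exact cpl_rule0 (Ru.ztS i) z trivial h h rfl rfl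
  · have hs : (shape kin kout sym gacc yZero yMax inF blankF).Known num T (Pr.start : Pr N)
        (0 : Fin m → Fin 2 → ZMod p) :=
      CShape.Known.start (C := shape kin kout sym gacc yZero yMax inF blankF)
    exact cpl_rule00 Ru.zt0 0 trivial hs hs rfl rfl rfl
  · intro i j hj
    have : j = 0 := by omega
    subst this
    rw [hz i]; rfl

/-- a vector with prescribed registers -/
theorem cpl_regs_num [NeZero p] {t : ℕ} (ht : t < p ^ m) (v : Fin m → ZMod p) :
    (numOf fun i => (regs (dig p t) v) i 0) = t ∧ (fun i => (regs (dig p t) v) i 1) = v := by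
  refine ⟨?_, ?_⟩
  · have : (fun i => (regs (dig p t) v) i 0) = (dig p t : Fin m → ZMod p) := by
      funext i; simp [regs]
    rw [this, numOf_dig ht]
  · funext i; simp [regs]

open Classical in
theorem cpl_step [NeZero p] (hp : 2 ≤ p)
    (hzero : ∀ a b : ZMod p, (((num yZero : ℕ) : ZMod p), a, b) ∈ T ↔ a = 0)
    (hmax : ∀ a b : ZMod p, (((num yMax : ℕ) : ZMod p), a, b) ∈ T ↔ a = -1)
    (c : N.Cfg) (t : ℕ) (ht : t + 1 < p ^ m) (hh : ¬ N.halt c.q)
    (h1 : ∀ z : Fin m → Fin 2 → ZMod p, (numOf fun i => z i 0) = t →
      (shape kin kout sym gacc yZero yMax inF blankF).Known num T (Pr.ctl c.q) z)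
    (h2 : ∀ z : Fin m → Fin 2 → ZMod p, (numOf fun i => z i 0) = t →
      (numOf fun i => z i 1) + t < p ^ m → ∀ k,
      (shape kin kout sym gacc yZero yMax inF blankF).Known num T
        (Pr.cell k ((c.stk k)[numOf fun i => z i 1]?)) z) :
    (∀ z : Fin m → Fin 2 → ZMod p, (numOf fun i => z i 0) = t + 1 →
      (shape kin kout sym gacc yZero yMax inF blankF).Known num T
        (Pr.ctl (N.step c).q) z) ∧
    (∀ z : Fin m → Fin 2 → ZMod p, (numOf fun i => z i 0) = t + 1 →
      (numOf fun i => z i 1) + (t + 1) < p ^ m → ∀ k,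
      (shape kin kout sym gacc yZero yMax inF blankF).Known num T
        (Pr.cell k (((N.step c).stk k)[numOf fun i => z i 1]?)) z) := by
  set o : Option N.G := (c.stk (N.sel c.q)).head? with ho
  -- act0
  have a0 : ∀ z : Fin m → Fin 2 → ZMod p, (numOf fun i => z i 0) = t → (∀ i, z i 1 = 0) →
      (shape kin kout sym gacc yZero yMax inF blankF).Known num T (Pr.act0 c.q o) z := by
    intro z hz hz1
    have e0 : (numOf fun i => z i 1) = 0 := by
      unfold numOf
      simp [hz1]
    have hc : (shape kin kout sym gacc yZero yMax inF blankF).Known num T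
        (Pr.cell (N.sel c.q) o) z := by
      have := h2 z hz (by rw [e0]; omega) (N.sel c.q)
      rw [e0] at this
      convert this using 2
      rw [ho, List.head?_eq_getElem?]
    refine cpl_rule00 (Ru.a0 c.q o) z ?_ (h1 z hz) hc rfl rfl rfl
    exact ⟨(cpl_iffF _).2 hh, (cpl_zero hzero 1).2 hz1⟩
  -- act
  have a1 : ∀ z : Fin m → Fin 2 → ZMod p, (numOf fun i => z i 0) = t →
      (shape kin kout sym gacc yZero yMax inF blankF).Known num T (Pr.act c.q o) z := by
    intro z hz
    refine cpl_reach (z := fun i j => if j = 0 then z i 0 else 0) 1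
      (fun z => (shape kin kout sym gacc yZero yMax inF blankF).Known num T (Pr.act c.q o) z)
      ?_ ?_ ?_
    · intro z i h
      exact cpl_rule0 (Ru.aS c.q o i) z trivial h h rfl rfl
    · have h := a0 (fun i j => if j = 0 then z i 0 else 0) (by simpa using hz) (by simp)
      exact cpl_rule00 (Ru.a c.q o) _ trivial h h rfl rfl rfl
    · intro i j hj
      have : j = 0 := by omega
      subst this
      simp
  -- nctl
  have n1 : ∀ z : Fin m → Fin 2 → ZMod p, (numOf fun i => z i 0) = t →
      (shape kin kout sym gacc yZero yMax inF blankF).Known num T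
        (Pr.nctl (N.step c).q) z := by
    intro z hz
    have e1 : (N.step c).q = N.nxt c.q o := by
      unfold SM.step; rw [if_neg hh]
    rw [e1]
    exact cpl_rule00 (Ru.nc c.q o) z trivial (a1 z hz) (a1 z hz) rfl rfl rfl
  -- ncell
  have n2 : ∀ z : Fin m → Fin 2 → ZMod p, (numOf fun i => z i 0) = t →
      (numOf fun i => z i 1) + (t + 1) < p ^ m → ∀ k,
      (shape kin kout sym gacc yZero yMax inF blankF).Known num T
        (Pr.ncell k (((N.step c).stk k)[numOf fun i => z i 1]?)) z := by
    intro z hz hr k
    have hstk : (N.step c).stk = match N.op c.q o with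
        | none => c.stk
        | some none => Function.update c.stk (N.sel c.q) (c.stk (N.sel c.q)).tail
        | some (some g) => Function.update c.stk (N.sel c.q) (g :: c.stk (N.sel c.q)) := by
      unfold SM.step; rw [if_neg hh]; rfl
    by_cases hk : k = N.sel c.q
    · subst hk
      rcases hop : N.op c.q o with _ | _ | g
      · rw [hop] at hstk
        rw [hstk]
        refine cpl_rule00 (Ru.keep c.q o (N.sel c.q) _) z ?_ (a1 z hz)
          (h2 z hz (by omega) (N.sel c.q)) rfl rfl rfl
        exact (cpl_iffF _).2 (Or.inr hop)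
      · rw [hop] at hstk
        have e1 : (N.step c).stk (N.sel c.q) = (c.stk (N.sel c.q)).tail := by
          rw [hstk]; simp
        rw [e1]
        obtain ⟨j, hj1, hj2⟩ := exists_carry hp (fun i => z i 1) (by omega)
        have eu := cpl_up hp 1 j z hj1 hj2
        have et : (numOf fun i => (z + modp p (up 1 j)) i 0) = t := by
          rw [← hz]; congr 1; funext i; exact cpl_up_ne 1 0 (by decide) j z i
        have hcell := h2 (z + modp p (up 1 j)) et (by rw [eu]; omega) (N.sel c.q)
        rw [eu] at hcell
        have hd := cpl_rule (kin := kin) (kout := kout) (sym := sym) (gacc := gacc)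
          (yZero := yZero) (yMax := yMax) (inF := inF) (blankF := blankF) (num := num) (T := T)
          (Ru.pop c.q o ((c.stk (N.sel c.q))[(numOf fun i => z i 1) + 1]?) j) z
          ⟨(cpl_iffF _).2 hop, (cpl_carry hmax 1 j).2 ⟨hj1, hj2⟩⟩
          (by
            have : (sh (Ru.pop c.q o ((c.stk (N.sel c.q))[(numOf fun i => z i 1) + 1]?) j :
              Ru N I m)).2.1 = 0 := rfl
            rw [this, cpl_modp_zero, add_zero]; exact a1 z hz) hcell
        have e3 : (sh (Ru.pop c.q o ((c.stk (N.sel c.q))[(numOf fun i => z i 1) + 1]?) j :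
              Ru N I m)).1 = 0 := rfl
        rw [e3, cpl_modp_zero, add_zero] at hd
        rw [List.getElem?_tail]
        exact hd
      · rw [hop] at hstk
        have e1 : (N.step c).stk (N.sel c.q) = g :: c.stk (N.sel c.q) := by
          rw [hstk]; simp
        rw [e1]
        rcases hn : (numOf fun i => z i 1) with _ | r0
        · -- depth zero
          have hz1 : ∀ i, z i 1 = 0 := by
            have : (fun i => z i 1) = (fun _ => 0) := by
              apply numOf_injective (p := p)
              rw [hn]; unfold numOf; simp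
            intro i
            exact congrFun this i
          refine cpl_rule00 (Ru.push0 c.q o g) z ?_ (a0 z hz hz1) (a0 z hz hz1) rfl rfl rfl
          exact (cpl_iffF _).2 hop
        · -- depth r0 + 1
          have hr0 : r0 + 1 < p ^ m := by omega
          have hr0' : r0 < p ^ m := by omega
          set z0 : Fin m → Fin 2 → ZMod p := fun i j => if j = 0 then z i 0 else dig p r0 i with hz0
          have hz0t : (numOf fun i => z0 i 0) = t := by rw [hz0]; simpa using hz
          have hz0r : (numOf fun i => z0 i 1) = r0 := by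
            have : (fun i => z0 i 1) = (dig p r0 : Fin m → ZMod p) := by
              funext i; simp [hz0]
            rw [this, numOf_dig hr0']
          obtain ⟨j, hj1, hj2⟩ := exists_carry hp (fun i => z0 i 1) (by rw [hz0r]; exact hr0)
          have eu := cpl_up hp 1 j z0 hj1 hj2
          have ez : z0 + modp p (up 1 j) = z := by
            funext i k
            by_cases hk : k = 0
            · subst hk
              rw [cpl_up_ne 1 0 (by decide) j z0 i]; simp [hz0]
            · have hk1 : k = 1 := by omega
              subst hk1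
              have : (fun i => (z0 + modp p (up 1 j)) i 1) = (fun i => z i 1) := by
                apply numOf_injective (p := p)
                rw [eu, hz0r, hn]
              exact congrFun this i
          have hcell := h2 z0 hz0t (by rw [hz0r]; omega) (N.sel c.q)
          rw [hz0r] at hcell
          have hd := cpl_rule0 (kin := kin) (kout := kout) (sym := sym) (gacc := gacc)
            (yZero := yZero) (yMax := yMax) (inF := inF) (blankF := blankF) (num := num) (T := T)
            (Ru.push c.q o g ((c.stk (N.sel c.q))[r0]?) j) z0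
            ⟨(cpl_iffF _).2 hop, (cpl_carry hmax 1 j).2 ⟨hj1, hj2⟩⟩ (a1 z0 hz0t) hcell rfl rfl
          have e3 : z0 + modp p (sh (Ru.push c.q o g ((c.stk (N.sel c.q))[r0]?) j :
            Ru N I m)).1 = z := ez
          rw [e3] at hd
          rw [List.getElem?_cons_succ]
          exact hd
    · have e1 : (N.step c).stk k = c.stk k := by
        rw [hstk]
        rcases hop : N.op c.q o with _ | _ | g
        · rfl
        · simp [hk]
        · simp [hk]
      rw [e1]
      refine cpl_rule00 (Ru.keep c.q o k _) z ?_ (a1 z hz) (h2 z hz (by omega) k) rfl rfl rfl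
      exact (cpl_iffF _).2 (Or.inl hk)
  -- transfer of time
  have ht0 : t < p ^ m := by omega
  have tr : ∀ z : Fin m → Fin 2 → ZMod p, (numOf fun i => z i 0) = t + 1 →
      ∃ (z0 : Fin m → Fin 2 → ZMod p) (j : Fin m), (numOf fun i => z0 i 0) = t ∧
        (∀ i, z0 i 1 = z i 1) ∧ ((∀ i < j, z0 i 0 = -1) ∧ z0 j 0 ≠ -1) ∧
        z0 + modp p (up 0 j) = z := by
    intro z hz
    set z0 : Fin m → Fin 2 → ZMod p := fun i j => if j = 0 then dig p t i else z i 1 with hz0
    have hz0t : (numOf fun i => z0 i 0) = t := by
      have : (fun i => z0 i 0) = (dig p t : Fin m → ZMod p) := by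
        funext i; simp [hz0]
      rw [this, numOf_dig ht0]
    obtain ⟨j, hj1, hj2⟩ := exists_carry hp (fun i => z0 i 0) (by rw [hz0t]; exact ht)
    have eu := cpl_up hp 0 j z0 hj1 hj2
    refine ⟨z0, j, hz0t, fun i => by simp [hz0], ⟨hj1, hj2⟩, ?_⟩
    funext i k
    by_cases hk : k = 0
    · subst hk
      have : (fun i => (z0 + modp p (up 0 j)) i 0) = (fun i => z i 0) := by
        apply numOf_injective (p := p)
        rw [eu, hz0t, hz]
      exact congrFun this i
    · have hk1 : k = 1 := by omega
      subst hk1
      rw [cpl_up_ne 0 1 (by decide) j z0 i]; simp [hz0]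
  refine ⟨?_, ?_⟩
  · intro z hz
    obtain ⟨z0, j, g1, g2, g3, g4⟩ := tr z hz
    have hd := cpl_rule0 (kin := kin) (kout := kout) (sym := sym) (gacc := gacc)
      (yZero := yZero) (yMax := yMax) (inF := inF) (blankF := blankF) (num := num) (T := T)
      (Ru.tctl (N.step c).q j) z0 ((cpl_carry hmax 0 j).2 g3) (n1 z0 g1) (n1 z0 g1) rfl rfl
    have e3 : z0 + modp p (sh (Ru.tctl (N.step c).q j : Ru N I m)).1 = z := g4
    rw [e3] at hd
    exact hd
  · intro z hz hr k
    obtain ⟨z0, j, g1, g2, g3, g4⟩ := tr z hz
    have eq1 : (numOf fun i => z0 i 1) = numOf fun i => z i 1 := by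
      congr 1; funext i; exact g2 i
    have hc := n2 z0 g1 (by rw [eq1]; exact hr) k
    rw [eq1] at hc
    have hd := cpl_rule0 (kin := kin) (kout := kout) (sym := sym) (gacc := gacc)
      (yZero := yZero) (yMax := yMax) (inF := inF) (blankF := blankF) (num := num) (T := T)
      (Ru.tcell k (((N.step c).stk k)[numOf fun i => z i 1]?) j) z0 ((cpl_carry hmax 0 j).2 g3)
      hc hc rfl rfl
    have e3 : z0 + modp p (sh (Ru.tcell k (((N.step c).stk k)[numOf fun i => z i 1]?) j :
      Ru N I m)).1 = z := g4
    rw [e3] at hd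
    exact hd

end

section
variable {N : SM} {I : Type} [Finite I] {m : ℕ} {Y : Type} (kin kout : N.K) (sym : I → N.G)
  (gacc : N.G) (yZero yMax : Y) (inF : I → BF m Y) (blankF : BF m Y) (num : Y → ℕ)
  {p : ℕ} (hp : 2 ≤ p) (T : Set (ZMod p × ZMod p × ZMod p)) (w : List I)
  (hzero : ∀ a b : ZMod p, (((num yZero : ℕ) : ZMod p), a, b) ∈ T ↔ a = 0)
  (hmax : ∀ a b : ZMod p, (((num yMax : ℕ) : ZMod p), a, b) ∈ T ↔ a = -1)
  (hin : ∀ x, ∀ n < p ^ m, (inF x).eval num T (regs 0 (dig p n)) ↔ w[n]? = some x)
  (hblank : ∀ n < p ^ m, blankF.eval num T (regs 0 (dig p n)) ↔ w[n]? = none)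

include hp hzero hmax hin hblank

/-- Completeness: induction on the time `t`; before the machine halts the state and the cells at
depth `r < p ^ m - t` are derivable. -/
theorem complete (t : ℕ) (ht : t < p ^ m)
    (hrun : ∀ s < t, ¬ N.halt (N.step^[s] (N.init kin sym w)).q) :
    (∀ z : Fin m → Fin 2 → ZMod p, (numOf fun i => z i 0) = t →
      (shape kin kout sym gacc yZero yMax inF blankF).Known num T
        (Pr.ctl (N.step^[t] (N.init kin sym w)).q) z) ∧
    (∀ z : Fin m → Fin 2 → ZMod p, (numOf fun i => z i 0) = t →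
      (numOf fun i => z i 1) + t < p ^ m → ∀ k,
      (shape kin kout sym gacc yZero yMax inF blankF).Known num T
        (Pr.cell k (((N.step^[t] (N.init kin sym w)).stk k)[numOf fun i => z i 1]?)) z) := by
  have : NeZero p := ⟨by omega⟩
  induction t with
  | zero =>
    have hz0 : ∀ z : Fin m → Fin 2 → ZMod p, (numOf fun i => z i 0) = 0 → ∀ i, z i 0 = 0 := by
      intro z hz
      have : (fun i => z i 0) = (fun _ => 0) := by
        apply numOf_injective (p := p)
        rw [hz]; unfold numOf; simp
      intro i
      exact congrFun this i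
    refine ⟨?_, ?_⟩
    · intro z hz
      have h := cpl_zt (kin := kin) (kout := kout) (sym := sym) (gacc := gacc)
        (yZero := yZero) (yMax := yMax) (inF := inF) (blankF := blankF) (num := num) (T := T)
        z (hz0 z hz)
      exact cpl_rule00 Ru.ictl z trivial h h rfl rfl rfl
    · intro z hz hr k
      have h := cpl_zt (kin := kin) (kout := kout) (sym := sym) (gacc := gacc)
        (yZero := yZero) (yMax := yMax) (inF := inF) (blankF := blankF) (num := num) (T := T)
        z (hz0 z hz)
      set n := (numOf fun i => z i 1) with hn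
      have hz' : z = regs 0 (dig p n) := by
        funext i j
        by_cases hj : j = 0
        · subst hj; rw [hz0 z hz i]; simp [regs]
        · have hj1 : j = 1 := by omega
          subst hj1
          have := congrFun (dig_numOf (fun i => z i 1)) i
          simp only [regs]
          rw [hn, this]; simp
      change (shape kin kout sym gacc yZero yMax inF blankF).Known num T
        (Pr.cell k (((N.init kin sym w).stk k)[n]?)) z
      by_cases hk : k = kin
      · subst hk
        have e1 : (N.init k sym w).stk k = w.map sym := by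
          simp [SM.init]
        rw [e1, List.getElem?_map]
        rcases hw : w[n]? with _ | x
        · refine cpl_rule00 Ru.iblank z ?_ h h rfl rfl rfl
          change blankF.eval num T z
          rw [hz']
          exact (hblank n (by omega)).2 hw
        · refine cpl_rule00 (Ru.icell x) z ?_ h h rfl rfl rfl
          change (inF x).eval num T z
          rw [hz']
          exact (hin x n (by omega)).2 hw
      · have e1 : (N.init kin sym w).stk k = [] := by
          simp [SM.init, hk]
        rw [e1]
        refine cpl_rule00 (Ru.iother k) z ?_ h h rfl rfl rfl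
        exact (cpl_iffF _).2 hk
  | succ t ih =>
    obtain ⟨g1, g2⟩ := ih (by omega) (fun s hs => hrun s (by omega))
    have := cpl_step hp hzero hmax (N.step^[t] (N.init kin sym w)) t ht (hrun t (by omega)) g1 g2
    rw [Function.iterate_succ_apply']
    exact this

end

end Sim

end Vale.Agent.P310
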