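import Vale.Agent.Lib.P310.SimSound
import Vale.Agent.Lib.P310.SimComplete

/-!
# P310: simulation of a stack machine by a conditional Horn system (assembly)
-/

namespace Vale.Agent.P310

private theorem step_of_halt (N : SM) (c : N.Cfg) (h : N.halt c.q) : N.step c = c := by
  unfold SM.step
  rw [if_pos h]

/-- A halted computation stays as it is. -/
private theorem halted_iterate (N : SM) (c₀ : N.Cfg) {s : ℕ} (hs : N.halt (N.step^[s] c₀).q)
    (n : ℕ) : N.step^[s + n] c₀ = N.step^[s] c₀ := by
  classical
  induction n with
  | zero => rfl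
  | succ n ih =>
    have h1 : N.step^[s + (n + 1)] c₀ = N.step (N.step^[s + n] c₀) := by
      rw [← Nat.add_assoc, Function.iterate_succ_apply']
    rw [h1, ih]
    exact step_of_halt N _ hs

private theorem halted_eq (N : SM) (c₀ : N.Cfg) {s t : ℕ} (hs : N.halt (N.step^[s] c₀).q)
    (ht : N.halt (N.step^[t] c₀).q) : N.step^[s] c₀ = N.step^[t] c₀ := by
  rcases le_total s t with h | h
  · obtain ⟨n, rfl⟩ := Nat.exists_eq_add_of_le h
    exact (halted_iterate N c₀ hs n).symm
  · obtain ⟨n, rfl⟩ := Nat.exists_eq_add_of_le h
    exact halted_iterate N c₀ ht n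

private theorem conj_eval {m : ℕ} {Y : Type} (num : Y → ℕ) {p : ℕ}
    (T : Set (ZMod p × ZMod p × ZMod p)) (z : Fin m → Fin 2 → ZMod p) (l : List (BF m Y))
    (h : ∀ φ ∈ l, φ.eval num T z) : (Sim.conj l).eval num T z := by
  induction l with
  | nil => exact trivial
  | cons φ l ih =>
    exact ⟨h φ (List.mem_cons_self ..), ih fun ψ hψ => h ψ (List.mem_cons_of_mem _ hψ)⟩

private theorem iffF_eval {m : ℕ} {Y : Type} (num : Y → ℕ) {p : ℕ}
    (T : Set (ZMod p × ZMod p × ZMod p)) (z : Fin m → Fin 2 → ZMod p) {P : Prop} (h : P) :
    (Sim.iffF (m := m) (Y := Y) P).eval num T z := by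
  unfold Sim.iffF
  rw [if_pos h]
  exact trivial

theorem sm_horn (N : SM) (kin kout : N.K) {I : Type} [Finite I] (sym : I → N.G) (gacc : N.G)
    {m : ℕ} {Y : Type} (yZero yMax : Y) (inF : I → BF m Y) (blankF : BF m Y) :
    ∃ C : CShape m Y, ∀ (num : Y → ℕ) (p : ℕ) (_ : 2 ≤ p)
      (T : Set (ZMod p × ZMod p × ZMod p)) (w : List I)
      (_ : ∀ a b : ZMod p, (((num yZero : ℕ) : ZMod p), a, b) ∈ T ↔ a = 0)
      (_ : ∀ a b : ZMod p, (((num yMax : ℕ) : ZMod p), a, b) ∈ T ↔ a = -1)
      (_ : ∀ x, ∀ n < p ^ m, (inF x).eval num T (regs 0 (dig p n)) ↔ w[n]? = some x)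
      (_ : ∀ n < p ^ m, blankF.eval num T (regs 0 (dig p n)) ↔ w[n]? = none)
      (n₀ : ℕ) (_ : N.halt (N.step^[n₀] (N.init kin sym w)).q) (_ : n₀ < p ^ m),
      C.Known num T C.goal 0 ↔
        ((N.step^[n₀] (N.init kin sym w)).stk kout).head? = some gacc := by
  classical
  refine ⟨Sim.shape kin kout sym gacc yZero yMax inF blankF, ?_⟩
  intro num p hp T w hzero hmax hin hblank n₀ hhalt hn₀
  have hne : NeZero p := ⟨by omega⟩
  constructor
  · intro hk
    have h1 := Sim.sound kin kout sym gacc yZero yMax inF blankF num hp T w hzero hmax hin hblank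
      _ _ hk
    obtain ⟨-, t, ht1, ht2⟩ : (∀ i : Fin m, (0 : Fin m → Fin 2 → ZMod p) i 1 = 0) ∧
        ∃ t, N.halt (N.step^[t] (N.init kin sym w)).q ∧
          ((N.step^[t] (N.init kin sym w)).stk kout).head? = some gacc := h1
    rw [halted_eq N _ hhalt ht1]
    exact ht2
  · intro hacc
    have hex : ∃ s, N.halt (N.step^[s] (N.init kin sym w)).q := ⟨n₀, hhalt⟩
    set t := Nat.find hex with ht
    have htt : N.halt (N.step^[t] (N.init kin sym w)).q := Nat.find_spec hex
    have htmin : ∀ s < t, ¬ N.halt (N.step^[s] (N.init kin sym w)).q :=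
      fun s hs => Nat.find_min hex hs
    have htn : t < p ^ m := lt_of_le_of_lt (Nat.find_min' hex hhalt) hn₀
    rw [halted_eq N _ hhalt htt] at hacc
    obtain ⟨hctl, hcell⟩ := Sim.complete kin kout sym gacc yZero yMax inF blankF num hp T w
      hzero hmax hin hblank t htn htmin
    set z : Fin m → Fin 2 → ZMod p := regs (dig p t) 0 with hz
    have hz0 : (fun i => z i 0) = (dig p t : Fin m → ZMod p) := by
      funext i
      simp [hz, regs]
    have hz1 : ∀ i, z i 1 = 0 := by
      intro i
      simp [hz, regs]
    have hnum0 : (numOf fun i => z i 0) = t := by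
      rw [hz0]
      exact numOf_dig htn
    have hnum1 : (numOf fun i => z i 1) = 0 := by
      have : (fun i => z i 1) = fun _ => (0 : ZMod p) := funext hz1
      rw [this]
      simp [numOf]
    have hk1 := hctl z hnum0
    have hk2 := hcell z hnum0 (by rw [hnum1]; omega) kout
    rw [hnum1, ← List.head?_eq_getElem?, hacc] at hk2
    -- the accepting rule
    have hacc0 : (Sim.shape kin kout sym gacc yZero yMax inF blankF).Known num T
        (Sim.Pr.acc0 : Sim.Pr N) z := by
      have h := CShape.Known.rule (C := Sim.shape kin kout sym gacc yZero yMax inF blankF)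
        (num := num) (T := T)
        (Sim.Ru.ac0 ((N.step^[t] (N.init kin sym w)).q) : Sim.Ru N I m) z ?_ ?_ ?_
      · have h2 : z + modp p ((Sim.shape kin kout sym gacc yZero yMax inF blankF).ish
            (Sim.Ru.ac0 ((N.step^[t] (N.init kin sym w)).q) : Sim.Ru N I m) 0) = z := by
          funext i r
          simp [modp, Sim.shape, Sim.pick, Sim.sh]
        rw [h2] at h
        exact h
      · refine ⟨iffF_eval num T z htt, ?_⟩
        refine conj_eval num T z _ ?_
        intro φ hφ
        obtain ⟨i, -, rfl⟩ := List.mem_map.1 hφ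
        exact (hzero _ _).2 (hz1 i)
      · have h2 : z + modp p ((Sim.shape kin kout sym gacc yZero yMax inF blankF).ish
            (Sim.Ru.ac0 ((N.step^[t] (N.init kin sym w)).q) : Sim.Ru N I m) 1) = z := by
          funext i r
          simp [modp, Sim.shape, Sim.pick, Sim.sh]
        rw [h2]
        exact hk1
      · have h2 : z + modp p ((Sim.shape kin kout sym gacc yZero yMax inF blankF).ish
            (Sim.Ru.ac0 ((N.step^[t] (N.init kin sym w)).q) : Sim.Ru N I m) 2) = z := by
          funext i r
          simp [modp, Sim.shape, Sim.pick, Sim.sh]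
        rw [h2]
        exact hk2
    have haccz : (Sim.shape kin kout sym gacc yZero yMax inF blankF).Known num T
        (Sim.Pr.acc : Sim.Pr N) z := by
      have h2 : ∀ j, z + modp p ((Sim.shape kin kout sym gacc yZero yMax inF blankF).ish
            (Sim.Ru.ac : Sim.Ru N I m) j) = z := by
        intro j
        funext i r
        simp [modp, Sim.shape, Sim.pick, Sim.sh]
      have h := CShape.Known.rule (C := Sim.shape kin kout sym gacc yZero yMax inF blankF)
        (num := num) (T := T) (Sim.Ru.ac : Sim.Ru N I m) z trivial
        (by rw [h2]; exact hacc0) (by rw [h2]; exact hacc0)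
      rw [h2] at h
      exact h
    -- unit shifts
    have hstep : ∀ (v : Fin m → ZMod p) (i : Fin m),
        (Sim.shape kin kout sym gacc yZero yMax inF blankF).Known num T
          (Sim.Pr.acc : Sim.Pr N) (regs v 0) →
        (Sim.shape kin kout sym gacc yZero yMax inF blankF).Known num T
          (Sim.Pr.acc : Sim.Pr N) (regs (Function.update v i (v i + 1)) 0) := by
      intro v i hv
      have h0 : regs v 0 + modp p ((Sim.shape kin kout sym gacc yZero yMax inF blankF).ish
            (Sim.Ru.acS i : Sim.Ru N I m) 0) = regs (Function.update v i (v i + 1)) 0 := by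
        funext i' r
        by_cases hi : i' = i
        · subst hi
          by_cases hr : r = 0
          · subst hr
            simp [modp, Sim.shape, Sim.pick, Sim.sh, Sim.e, regs]
          · simp [modp, Sim.shape, Sim.pick, Sim.sh, Sim.e, regs, hr]
        · by_cases hr : r = 0
          · subst hr
            simp [modp, Sim.shape, Sim.pick, Sim.sh, Sim.e, regs, hi]
          · simp [modp, Sim.shape, Sim.pick, Sim.sh, Sim.e, regs, hr, hi]
      have h1 : regs v 0 + modp p ((Sim.shape kin kout sym gacc yZero yMax inF blankF).ish
            (Sim.Ru.acS i : Sim.Ru N I m) 1) = regs v 0 := by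
        funext i' r
        simp [modp, Sim.shape, Sim.pick, Sim.sh]
      have h2 : regs v 0 + modp p ((Sim.shape kin kout sym gacc yZero yMax inF blankF).ish
            (Sim.Ru.acS i : Sim.Ru N I m) 2) = regs v 0 := by
        funext i' r
        simp [modp, Sim.shape, Sim.pick, Sim.sh]
      have h := CShape.Known.rule (C := Sim.shape kin kout sym gacc yZero yMax inF blankF)
        (num := num) (T := T) (Sim.Ru.acS i : Sim.Ru N I m) (regs v 0) trivial
        (by rw [h1]; exact hv) (by rw [h2]; exact hv)
      rw [h0] at h
      exact h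
    have hiter : ∀ (n : ℕ) (v : Fin m → ZMod p) (i : Fin m),
        (Sim.shape kin kout sym gacc yZero yMax inF blankF).Known num T
          (Sim.Pr.acc : Sim.Pr N) (regs v 0) →
        (Sim.shape kin kout sym gacc yZero yMax inF blankF).Known num T
          (Sim.Pr.acc : Sim.Pr N) (regs (Function.update v i (v i + n)) 0) := by
      intro n
      induction n with
      | zero =>
        intro v i hv
        simpa using hv
      | succ n ih =>
        intro v i hv
        have h := hstep _ i (ih v i hv)
        rw [Function.update_idem, Function.update_self, add_assoc] at h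
        rw [Nat.cast_succ]
        exact h
    have hall : ∀ s : Finset (Fin m),
        (Sim.shape kin kout sym gacc yZero yMax inF blankF).Known num T
          (Sim.Pr.acc : Sim.Pr N)
          (regs (fun i => if i ∈ s then 0 else (dig p t : Fin m → ZMod p) i) 0) := by
      intro s
      induction s using Finset.induction_on with
      | empty =>
        simpa using haccz
      | insert i s his ih =>
        have h := hiter (-((dig p t : Fin m → ZMod p) i)).val _ i ih
        rw [ZMod.natCast_zmod_val] at h
        have h3 : Function.update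
            (fun i => if i ∈ s then 0 else (dig p t : Fin m → ZMod p) i) i
            ((fun i => if i ∈ s then 0 else (dig p t : Fin m → ZMod p) i) i +
              -((dig p t : Fin m → ZMod p) i)) =
            fun i' => if i' ∈ insert i s then 0 else (dig p t : Fin m → ZMod p) i' := by
          funext i'
          by_cases hi : i' = i
          · subst hi
            simp [his]
          · simp [hi]
        rw [h3] at h
        exact h
    have hfin := hall Finset.univ
    have h4 : regs (fun i => if i ∈ (Finset.univ : Finset (Fin m)) then 0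
        else (dig p t : Fin m → ZMod p) i) 0 = (0 : Fin m → Fin 2 → ZMod p) := by
      funext i r
      simp [regs]
    rw [h4] at hfin
    exact hfin

end Vale.Agent.P310
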