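import Vale.Agent.Lib.P310.WLGame

/-!
# P310: from `k`-WL equivalence to back-and-forth systems (module WLGAME-B)
-/

namespace Vale.Agent.P310

variable {k : ℕ} {V W : Type*}

/-- equal multisets of values: there is a bijection respecting the values -/
theorem wlB_equiv_of_map_eq {V W C : Type*} [Fintype V] [Fintype W] (f : V → C) (g : W → C)
    (h : (Finset.univ : Finset V).val.map f = (Finset.univ : Finset W).val.map g) :
    ∃ e : V ≃ W, ∀ v, f v = g (e v) := by
  classical
  have hfib : ∀ c, Nonempty ({a // f a = c} ≃ {b // g b = c}) := by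
    intro c
    have h1 := congrArg (Multiset.count c) h
    rw [Multiset.count_map, Multiset.count_map] at h1
    refine ⟨Fintype.equivOfCardEq ?_⟩
    rw [Fintype.card_subtype, Fintype.card_subtype]
    have h2 : ∀ {α : Type _} [Fintype α] (u : α → C),
        (Finset.univ.filter (fun a => u a = c)).card =
          Multiset.card ((Finset.univ : Finset α).val.filter (fun a => c = u a)) := by
      intro α _ u
      rw [Finset.card_def, Finset.filter_val]
      congr 1
      refine Multiset.filter_congr ?_
      intro a _
      exact ⟨Eq.symm, Eq.symm⟩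
    rw [h2 f, h1]
    rw [Finset.card_def, Finset.filter_val]
    congr 1
    refine Multiset.filter_congr ?_
    intro a _
    exact ⟨Eq.symm, Eq.symm⟩
  refine ⟨Equiv.ofFiberEquiv (fun c => Classical.choice (hfib c)), ?_⟩
  intro v
  exact (Equiv.ofFiberEquiv_map _ v).symm

theorem wlB_color_mono [Fintype V] [Fintype W] {G : SimpleGraph V} {H : SimpleGraph W}
    {x : Fin k → V} {y : Fin k → W} {r s : ℕ} (hrs : r ≤ s)
    (h : color G s x = color H s y) : color G r x = color H r y := by
  induction s, hrs using Nat.le_induction with
  | base => exact h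
  | succ s _ ih => exact ih (congrArg Prod.fst h)

/-- a finite set of choices working at every level, downward closed: one choice works at all
levels -/
theorem wlB_pigeon {A : Type*} [Finite A] (P : ℕ → A → Prop)
    (hmono : ∀ r s a, r ≤ s → P s a → P r a) (h : ∀ r, ∃ a, P r a) : ∃ a, ∀ r, P r a := by
  choose f hf using h
  obtain ⟨a, ha⟩ := Finite.exists_infinite_fiber f
  refine ⟨a, fun r => ?_⟩
  have hinf : (f ⁻¹' {a}).Infinite := Set.infinite_coe_iff.1 ha
  obtain ⟨s, hs, hrs⟩ := hinf.exists_gt r
  have h1 : f s = a := hs
  exact hmono r s a hrs.le (h1 ▸ hf s)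

/-- from `k`-WL equivalence to a back-and-forth system: `R x y` iff all the colours agree;
the bijection for `x, y` works for infinitely many `r` -/
theorem exists_backForth_of_wlEquiv [Fintype V] [Fintype W] {G : SimpleGraph V}
    {H : SimpleGraph W} (h : WLEquiv k G H) :
    ∃ R : (Fin k → V) → (Fin k → W) → Prop, BackForth k G H R ∧ ∀ x, ∃ y, R x y := by
  refine ⟨fun x y => ∀ r, color G r x = color H r y, ⟨?_, ?_, ?_⟩, ?_⟩
  · intro x y hxy i j
    have h1 := congrFun (congrFun (hxy 0) i) j
    exact iff_of_eq (congrArg Prod.fst h1)
  · intro x y hxy i j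
    have h1 := congrFun (congrFun (hxy 0) i) j
    exact iff_of_eq (congrArg Prod.snd h1)
  · intro x y hxy
    obtain ⟨f, hf⟩ := wlB_pigeon (A := V ≃ W)
      (fun r f => ∀ v i, color G r (Function.update x i v) =
        color H r (Function.update y i (f v)))
      (fun r s f hrs hs v i => wlB_color_mono hrs (hs v i))
      (fun r => by
        have h1 := congrArg Prod.snd (hxy (r + 1))
        obtain ⟨e, he⟩ := wlB_equiv_of_map_eq
          (fun v => fun i => color G r (Function.update x i v))
          (fun w => fun i => color H r (Function.update y i w)) h1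
        exact ⟨e, fun v i => congrFun (he v) i⟩)
    exact ⟨f, fun v i r => hf r v i⟩
  · intro x
    refine wlB_pigeon (A := Fin k → W) (fun r y => color G r x = color H r y)
      (fun r s y hrs hs => wlB_color_mono hrs hs) (fun r => ?_)
    obtain ⟨e, he⟩ := wlB_equiv_of_map_eq _ _ (h r)
    exact ⟨e x, he x⟩

/-- corresponding vertices have the same degree (use the bijection of `ext` at a position
`j ≠ i`) -/
theorem BackForth.degree_eq [Finite V] [Finite W] {G : SimpleGraph V} {H : SimpleGraph W}
    {R : (Fin k → V) → (Fin k → W) → Prop} (hR : BackForth k G H R) (hk : 2 ≤ k)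
    {x : Fin k → V} {y : Fin k → W} (h : R x y) (i : Fin k) :
    {v | G.Adj (x i) v}.ncard = {w | H.Adj (y i) w}.ncard := by
  obtain ⟨j, hj⟩ : ∃ j : Fin k, j ≠ i := by
    have : Nontrivial (Fin k) := Fin.nontrivial_iff_two_le.2 hk
    exact exists_ne i
  obtain ⟨f, hf⟩ := hR.ext x y h
  have hadj : ∀ v, G.Adj (x i) v ↔ H.Adj (y i) (f v) := by
    intro v
    have h1 := hR.adj_iff _ _ (hf v j) i j
    rw [Function.update_of_ne hj.symm, Function.update_self, Function.update_of_ne hj.symm,
      Function.update_self] at h1
    exact h1
  have himg : {w | H.Adj (y i) w} = f '' {v | G.Adj (x i) v} := by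
    ext w
    constructor
    · intro hw
      refine ⟨f.symm w, ?_, f.apply_symm_apply w⟩
      have h2 : H.Adj (y i) w := hw
      have h3 : G.Adj (x i) (f.symm w) := by
        rw [hadj, f.apply_symm_apply]; exact h2
      exact h3
    · rintro ⟨v, hv, rfl⟩
      exact (hadj v).1 hv
  rw [himg, Set.ncard_image_of_injective _ f.injective]

theorem wlB_color_comap [Fintype V] [Fintype W] (e : W ≃ V) (G : SimpleGraph V) (r : ℕ) :
    ∀ x : Fin k → W, color (G.comap e) r x = color G r (e ∘ x) := by
  induction r with
  | zero =>
    intro x
    funext i j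
    refine Prod.ext ?_ ?_
    · exact propext ⟨fun h => congrArg e h, fun h => e.injective h⟩
    · rfl
  | succ r ih =>
    intro x
    refine Prod.ext (ih x) ?_
    have h1 : (Finset.univ : Finset V).val.map (fun y => fun i =>
        color G r (Function.update (e ∘ x) i y)) =
        (Finset.univ : Finset W).val.map ((fun y => fun i =>
          color G r (Function.update (e ∘ x) i y)) ∘ e) := by
      rw [← Multiset.map_map, Multiset.map_univ_val_equiv]
    change (Finset.univ : Finset W).val.map (fun y => fun i =>
        color (G.comap e) r (Function.update x i y)) =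
      (Finset.univ : Finset V).val.map (fun y => fun i =>
        color G r (Function.update (e ∘ x) i y))
    rw [h1]
    refine Multiset.map_congr rfl ?_
    intro y _
    funext i
    rw [ih]
    change color G r (e ∘ Function.update x i y) = color G r (Function.update (e ∘ x) i (e y))
    rw [Function.comp_update]

/-- invariance under renaming of the vertices -/
theorem wlEquiv_comap [Fintype V] [Fintype W] (e : W ≃ V) (G H : SimpleGraph V) :
    WLEquiv k (G.comap e) (H.comap e) ↔ WLEquiv k G H := by
  have key : ∀ (K : SimpleGraph V) (r : ℕ),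
      (Finset.univ : Finset (Fin k → W)).val.map (color (K.comap e) r) =
        (Finset.univ : Finset (Fin k → V)).val.map (color K r) := by
    intro K r
    have h1 : color (k := k) (K.comap e) r = color K r ∘ (Equiv.arrowCongr (Equiv.refl (Fin k)) e) := by
      funext x
      rw [wlB_color_comap]
      rfl
    rw [h1, ← Multiset.map_map, Multiset.map_univ_val_equiv]
  unfold WLEquiv
  simp only [key]

end Vale.Agent.P310
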