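import Vale.Agent.Lib.P310.Deg
import Vale.Agent.Lib.P310.ExtA
import Vale.Agent.Lib.P310.WLGameB

/-!
# P310: Spoiler wins if the goal is derivable (module SPO)
-/

namespace Vale.Agent.P310

variable {M : ℕ} {X : Type} [AddCommGroup X] {h : Horn M X} {B D : ℕ}

private theorem wireGen_inj2 {R : Type} {B : ℕ} {a b : R × Slot B}
    (he : wireGen a = wireGen b) : a = b := by
  classical
  by_contra hne
  have h1 := congrFun he a
  simp only [wireGen] at h1
  rw [Pi.single_eq_same, Pi.single_eq_of_ne hne] at h1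
  exact one_ne_zero h1

private theorem lab_of_rule {l : Lab M h.Rule B D} {u : X} {i : Fin M} {ρ : h.Rule}
    {γ : Wire h.Rule B} {u' : X} (hl : l.node h u = some (Node.rule i ρ γ u')) :
    ∃ α, l = .rule i ρ γ α ∧ u = u' := by
  cases l with
  | rule i₁ ρ₁ γ₁ α =>
    simp only [Lab.node, Option.some.injEq, Node.rule.injEq] at hl
    obtain ⟨rfl, rfl, rfl, rfl⟩ := hl
    exact ⟨α, rfl, rfl⟩
  | ax γ₁ α => simp [Lab.node] at hl
  | goal α => simp [Lab.node] at hl
  | ord c e => simp [Lab.node] at hl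
  | hub e => simp [Lab.node] at hl

private theorem lab_of_ax {l : Lab M h.Rule B D} {u : X} {γ : Wire h.Rule B}
    (hl : l.node h u = some (Node.ax γ)) : ∃ α, l = .ax γ α := by
  cases l with
  | rule i₁ ρ₁ γ₁ α => simp [Lab.node] at hl
  | ax γ₁ α =>
    simp only [Lab.node, Option.some.injEq, Node.ax.injEq] at hl
    subst hl
    exact ⟨α, rfl⟩
  | goal α => simp [Lab.node] at hl
  | ord c e => simp [Lab.node] at hl
  | hub e => simp [Lab.node] at hl

private theorem lab_of_goal {l : Lab M h.Rule B D} {u : X}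
    (hl : l.node h u = some Node.goal) : ∃ α, l = .goal α := by
  cases l with
  | rule i₁ ρ₁ γ₁ α => simp [Lab.node] at hl
  | ax γ₁ α => simp [Lab.node] at hl
  | goal α => exact ⟨α, rfl⟩
  | ord c e => simp [Lab.node] at hl
  | hub e => simp [Lab.node] at hl

private theorem holds_unique {l : Lab M h.Rule B D} {u : X} {w : Var h B} {c c' : ZMod 2}
    (h1 : l.Holds h u w c) (h2 : l.Holds h u w c') : c = c' := by
  cases l with
  | rule i ρ γ α =>
    obtain ⟨s, hs, rfl⟩ := h1
    obtain ⟨s', hs', rfl⟩ := h2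
    rw [slotVar_inj i ρ γ u (hs.symm.trans hs')]
  | ax γ α =>
    obtain ⟨s, hs, rfl⟩ := h1
    obtain ⟨s', hs', rfl⟩ := h2
    have : s = s' := congrArg Prod.fst (hs.symm.trans hs')
    rw [this]
  | goal α =>
    obtain ⟨s, hs, rfl⟩ := h1
    obtain ⟨s', hs', rfl⟩ := h2
    have : s = s' := congrArg Prod.fst (hs.symm.trans hs')
    rw [this]
  | ord c e => exact absurd h1 (fun h => h)
  | hub e => exact absurd h1 (fun h => h)

private theorem holds_mem {l : Lab M h.Rule B D} {u : X} {w : Var h B} {c : ZMod 2}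
    {N : Node h B} (hN : l.node h u = some N) (h1 : l.Holds h u w c) : w ∈ N.vars := by
  cases l with
  | rule i ρ γ α =>
    obtain ⟨s, hs, rfl⟩ := h1
    simp only [Lab.node, Option.some.injEq] at hN
    subst hN
    exact ⟨s, hs⟩
  | ax γ α =>
    obtain ⟨s, hs, rfl⟩ := h1
    simp only [Lab.node, Option.some.injEq] at hN
    subst hN
    exact ⟨s, hs⟩
  | goal α =>
    obtain ⟨s, hs, rfl⟩ := h1
    simp only [Lab.node, Option.some.injEq] at hN
    subst hN
    exact ⟨s, hs⟩
  | ord c e => exact absurd h1 (fun h => h)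
  | hub e => exact absurd h1 (fun h => h)

section game
variable {J : Type} {cidx : Cls M h.Rule B → ℕ} {rank : X → ℕ}

private theorem adj_iff_val {g : Bool} {l l' : Lab M h.Rule B D} {u u' : X}
    (hl : l.Valid h g u) (hl' : l'.Valid h g u') {N N' : Node h B}
    (hN : l.node h u = some N) (hN' : l'.node h u' = some N') (hne : N ≠ N')
    (hsub : ∀ v w, v ∈ N.vars → v ∈ N'.vars → w ∈ N.vars → w ∈ N'.vars → v = w)
    {w : Var h B} {α α' : ZMod 2} (hw : l.Holds h u w α) (hw' : l'.Holds h u' w α') :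
    (pairGraph h D J cidx rank g).Adj (Sum.inl (l, u)) (Sum.inl (l', u')) ↔ α = α' := by
  constructor
  · rintro ⟨l₁, u₁, l₂, u₂, h1, h2, h3⟩
    obtain ⟨rfl, rfl⟩ := Prod.mk.inj (Sum.inl_injective h1)
    obtain ⟨rfl, rfl⟩ := Prod.mk.inj (Sum.inl_injective h2)
    rcases h3 with ⟨-, -, -, v, c, h4, h5⟩ | ⟨c, e, c', rfl, -⟩ | ⟨c, e, c', rfl, -⟩ | ⟨h4, -, -⟩
    · have h6 : v = w := hsub v w (holds_mem hN h4) (holds_mem hN' h5) (holds_mem hN hw)
        (holds_mem hN' hw')
      subst h6
      exact (holds_unique hw h4).trans (holds_unique h5 hw')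
    · exact absurd hl (fun h => h)
    · exact absurd hl' (fun h => h)
    · cases l with
      | rule _ _ _ _ => exact absurd h4 (fun h => h)
      | ax _ _ => exact absurd h4 (fun h => h)
      | goal _ => exact absurd h4 (fun h => h)
      | ord _ _ => exact absurd hl (fun h => h)
      | hub _ => exact absurd hl (fun h => h)
  · rintro rfl
    refine ⟨l, u, l', u', rfl, rfl, Or.inl ⟨hl, hl', ?_, w, α, hw, hw'⟩⟩
    rw [hN, hN']
    intro he
    exact hne (Option.some.inj he)

/-- corresponding vertices of a row: same node `N`, the difference at the variable `w` is `δ` -/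
private def Row (a b : (Lab M h.Rule B D × X) ⊕ J) (w : Var h B) (δ : ZMod 2)
    (N : Node h B) : Prop :=
  ∃ l u m t α β, a = Sum.inl (l, u) ∧ b = Sum.inl (m, t) ∧ l.Valid h false u ∧
    m.Valid h true t ∧ l.node h u = some N ∧ m.node h t = some N ∧
    l.Holds h u w α ∧ m.Holds h t w β ∧ α + β = δ

private theorem compare
    {R : (Fin M → (Lab M h.Rule B D × X) ⊕ J) → (Fin M → (Lab M h.Rule B D × X) ⊕ J) → Prop}
    (hR : BackForth M (pairGraph h D J cidx rank false) (pairGraph h D J cidx rank true) R)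
    {x y : Fin M → (Lab M h.Rule B D × X) ⊕ J} (hxy : R x y) {i j : Fin M} {w : Var h B}
    {δ δ' : ZMod 2} {N N' : Node h B} (hi : Row (x i) (y i) w δ N) (hj : Row (x j) (y j) w δ' N')
    (hne : N ≠ N')
    (hsub : ∀ v w, v ∈ N.vars → v ∈ N'.vars → w ∈ N.vars → w ∈ N'.vars → v = w) : δ = δ' := by
  obtain ⟨l, u, m, t, α, β, h1, h2, h3, h4, h5, h6, h7, h8, h9⟩ := hi
  obtain ⟨l', u', m', t', α', β', h1', h2', h3', h4', h5', h6', h7', h8', h9'⟩ := hj
  have hadj := hR.adj_iff x y hxy i j
  rw [h1, h2, h1', h2', adj_iff_val h3 h3' h5 h5' hne hsub h7 h7',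
    adj_iff_val h4 h4' h6 h6' hne hsub h8 h8'] at hadj
  have hz : ∀ a b c d : ZMod 2, (a = c ↔ b = d) → a + b = c + d := by decide
  rw [← h9, ← h9']
  exact hz _ _ _ _ hadj

/-- a valid vertex corresponds to a valid vertex of the same node -/
private theorem same_node (hp : PairOk h B D cidx rank) [Finite J]
    [Finite ((Lab M h.Rule B D × X) ⊕ J)]
    {R : (Fin M → (Lab M h.Rule B D × X) ⊕ J) → (Fin M → (Lab M h.Rule B D × X) ⊕ J) → Prop}
    (hR : BackForth M (pairGraph h D J cidx rank false) (pairGraph h D J cidx rank true) R)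
    {x y : Fin M → (Lab M h.Rule B D × X) ⊕ J} (hxy : R x y) {i : Fin M}
    {l : Lab M h.Rule B D} {u : X} (hx : x i = Sum.inl (l, u)) (hl : l.Valid h false u) :
    ∃ m t, y i = Sum.inl (m, t) ∧ m.Valid h true t ∧ m.node h t = l.node h u := by
  have hdeg := hR.degree_eq hp.hM hxy i
  rw [hx] at hdeg
  exact node_of_degree hp hl hdeg

private theorem main_induction (hp : PairOk h B D cidx rank) [Finite J]
    [Finite ((Lab M h.Rule B D × X) ⊕ J)]
    {R : (Fin M → (Lab M h.Rule B D × X) ⊕ J) → (Fin M → (Lab M h.Rule B D × X) ⊕ J) → Prop}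
    (hR : BackForth M (pairGraph h D J cidx rank false) (pairGraph h D J cidx rank true) R)
    {P : h.Pred} {x : Fin M → X} (hk : h.Known P x) :
    ∀ (γ : Wire h.Rule B) (a b : Fin M → (Lab M h.Rule B D × X) ⊕ J) (δ : Fin M → ZMod 2)
      (N : Fin M → Node h B), R a b → (∀ i, Row (a i) (b i) (i, P, γ, x i) (δ i) (N i)) →
      ∑ i, δ i = 1 →
      (∀ i, N i = Node.goal ∨ ∃ ρ γ' u', N i = Node.rule i ρ γ' u' ∧
        γ ≠ γ' + wireGen (ρ, none)) → False := by
  classical
  have hother : ∀ i : Fin M, ∃ j, j ≠ i := by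
    intro i
    have hM := hp.hM
    have : Nontrivial (Fin M) := Fin.nontrivial_iff_two_le.2 hM
    exact exists_ne i
  induction hk with
  | ax =>
    intro γ a b δ N hab hrow hδ hN
    obtain ⟨f, hf⟩ := hR.ext a b hab
    have hval : (Lab.ax γ (fun _ => 0) : Lab M h.Rule B D).Valid h false 0 := ⟨rfl, by simp⟩
    -- the image of the axiom vertex
    obtain ⟨β, hfv, hβ⟩ : ∃ β : Fin M → ZMod 2,
        f (Sum.inl (Lab.ax γ (fun _ => 0), 0)) = Sum.inl (Lab.ax γ β, 0) ∧ ∑ i, β i = 0 := by
      have hM : 0 < M := lt_of_lt_of_le (by norm_num) hp.hM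
      obtain ⟨m, t, h1, h2, h3⟩ := same_node hp hR
        (hf (Sum.inl (Lab.ax γ (fun _ => 0), 0)) ⟨0, hM⟩)
        (i := ⟨0, hM⟩) (Function.update_self _ _ _) hval
      rw [Function.update_self] at h1
      obtain ⟨β, rfl⟩ := lab_of_ax (h3.trans rfl)
      obtain ⟨rfl, h5⟩ := h2
      exact ⟨β, h1, h5⟩
    have hδβ : ∀ i, δ i = β i := by
      intro i
      obtain ⟨j, hj⟩ := hother i
      have h1 := hf (Sum.inl (Lab.ax γ (fun _ => 0), 0)) j
      have hrowi : Row (Function.update a j (Sum.inl (Lab.ax γ (fun _ => 0), 0)) i)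
          (Function.update b j (f (Sum.inl (Lab.ax γ (fun _ => 0), 0))) i)
          (i, h.P0, γ, (0 : Fin M → X) i) (δ i) (N i) := by
        rw [Function.update_of_ne hj.symm, Function.update_of_ne hj.symm]
        exact hrow i
      have hrowj : Row (Function.update a j (Sum.inl (Lab.ax γ (fun _ => 0), 0)) j)
          (Function.update b j (f (Sum.inl (Lab.ax γ (fun _ => 0), 0))) j)
          (i, h.P0, γ, (0 : Fin M → X) i) (β i) (Node.ax γ) := by
        rw [Function.update_self, Function.update_self, hfv]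
        exact ⟨_, _, _, _, 0, β i, rfl, rfl, hval, ⟨rfl, hβ⟩, rfl, rfl, ⟨i, rfl, rfl⟩,
          ⟨i, rfl, rfl⟩, zero_add _⟩
      rcases hN i with hg | ⟨ρ, γ', u', hr, -⟩
      · exfalso
        obtain ⟨l, u, m, t, α, β', -, -, -, -, h5, -, h7, -, -⟩ := hrow i
        have h8 := holds_mem h5 h7
        rw [hg] at h8
        obtain ⟨i', hi'⟩ := h8
        exact hp.good.P0_ne (congrArg (fun v => v.2.1) hi')
      · refine compare hR h1 hrowi hrowj ?_ ?_
        · rw [hr]
          intro he
          cases he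
        · intro v w hv hv' hw hw'
          have hne : N i ≠ Node.ax γ := by
            rw [hr]
            intro he
            cases he
          exact vars_inter_subsingleton hp.good.P0_ne hne hv hv' hw hw' ⟨i, ρ, γ', u', hr⟩
    rw [Finset.sum_congr rfl (fun i _ => hδβ i), hβ] at hδ
    exact zero_ne_one hδ
  | rule ρ z hz hc h1 h2 ih1 ih2 =>
    intro γ a b δ N hab hrow hδ hN
    obtain ⟨γ'', hγ''⟩ : ∃ γ'' : Wire h.Rule B, γ'' = γ - wireGen (ρ, none) := ⟨_, rfl⟩
    have hγ : γ = γ'' + wireGen (ρ, none) := by rw [hγ'', sub_add_cancel]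
    -- replace the rows one after the other
    have hrepl : ∀ T : Finset (Fin M), ∃ a' b' : Fin M → (Lab M h.Rule B D × X) ⊕ J, R a' b' ∧
        (∀ i, i ∉ T → a' i = a i ∧ b' i = b i) ∧
        (∀ i, i ∈ T → ∃ α β : Slot B → ZMod 2, a' i = Sum.inl (Lab.rule i ρ γ'' α, z i) ∧
          b' i = Sum.inl (Lab.rule i ρ γ'' β, z i) ∧ ∑ s, α s = 0 ∧ ∑ s, β s = 0 ∧
          α none + β none = δ i) := by
      intro T
      induction T using Finset.induction_on with
      | empty => exact ⟨a, b, hab, fun i _ => ⟨rfl, rfl⟩, fun i hi => absurd hi (by simp)⟩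
      | insert i T hiT ih =>
        obtain ⟨a', b', hab', hout, hin⟩ := ih
        obtain ⟨f, hf⟩ := hR.ext a' b' hab'
        have hval : (Lab.rule i ρ γ'' (fun _ => 0) : Lab M h.Rule B D).Valid h false (z i) :=
          ⟨hc i, by simp⟩
        obtain ⟨β, hfv, hβ⟩ : ∃ β : Slot B → ZMod 2,
            f (Sum.inl (Lab.rule i ρ γ'' (fun _ => 0), z i)) =
              Sum.inl (Lab.rule i ρ γ'' β, z i) ∧ ∑ s, β s = 0 := by
          obtain ⟨m, t, h1, h2, h3⟩ := same_node hp hR
            (hf (Sum.inl (Lab.rule i ρ γ'' (fun _ => 0), z i)) i)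
            (i := i) (Function.update_self _ _ _) hval
          rw [Function.update_self] at h1
          obtain ⟨β, rfl, rfl⟩ := lab_of_rule (h3.trans rfl)
          exact ⟨β, h1, h2.2⟩
        have hδβ : δ i = β none := by
          obtain ⟨j, hj⟩ := hother i
          have h1 := hf (Sum.inl (Lab.rule i ρ γ'' (fun _ => 0), z i)) j
          have hrowi : Row (Function.update a' j
                (Sum.inl (Lab.rule i ρ γ'' (fun _ => 0), z i)) i)
              (Function.update b' j (f (Sum.inl (Lab.rule i ρ γ'' (fun _ => 0), z i))) i)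
              (i, h.pred ρ 0, γ, (z + h.shift ρ 0) i) (δ i) (N i) := by
            rw [Function.update_of_ne hj.symm, Function.update_of_ne hj.symm, (hout i hiT).1,
              (hout i hiT).2]
            exact hrow i
          have hrowj : Row (Function.update a' j
                (Sum.inl (Lab.rule i ρ γ'' (fun _ => 0), z i)) j)
              (Function.update b' j (f (Sum.inl (Lab.rule i ρ γ'' (fun _ => 0), z i))) j)
              (i, h.pred ρ 0, γ, (z + h.shift ρ 0) i) (β none) (Node.rule i ρ γ'' (z i)) := by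
            rw [Function.update_self, Function.update_self, hfv]
            refine ⟨_, _, _, _, 0, β none, rfl, rfl, hval, ⟨hc i, hβ⟩, rfl, rfl,
              ⟨none, ?_, rfl⟩, ⟨none, ?_, rfl⟩, zero_add _⟩
            · rw [hγ]
              rfl
            · rw [hγ]
              rfl
          have hne : N i ≠ Node.rule i ρ γ'' (z i) := by
            rcases hN i with hg | ⟨ρ', γ', u', hr, hneq⟩
            · rw [hg]
              intro he
              cases he
            · rw [hr]
              intro he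
              obtain ⟨-, he2, he3, -⟩ := Node.rule.inj he
              apply hneq
              rw [he2, he3]
              exact hγ
          refine compare hR h1 hrowi hrowj hne ?_
          intro v w hv hv' hw hw'
          exact vars_inter_subsingleton hp.good.P0_ne hne.symm hv' hv hw' hw ⟨_, _, _, _, rfl⟩
        refine ⟨_, _, hf (Sum.inl (Lab.rule i ρ γ'' (fun _ => 0), z i)) i, ?_, ?_⟩
        · intro k hk
          have hki : k ≠ i := fun he => hk (he ▸ Finset.mem_insert_self i T)
          have hkT : k ∉ T := fun he => hk (Finset.mem_insert_of_mem he)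
          rw [Function.update_of_ne hki, Function.update_of_ne hki]
          exact hout k hkT
        · intro k hk
          by_cases hki : k = i
          · subst hki
            rw [Function.update_self, Function.update_self, hfv]
            refine ⟨_, _, rfl, rfl, by simp, hβ, ?_⟩
            rw [hδβ, zero_add]
          · rw [Function.update_of_ne hki, Function.update_of_ne hki]
            exact hin k ((Finset.mem_insert.1 hk).resolve_left hki)
    obtain ⟨a', b', hab', -, hin⟩ := hrepl Finset.univ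
    choose α β ha hb hα hβ hd using fun i => hin i (Finset.mem_univ i)
    -- a body slot with difference one
    obtain ⟨s, hs, hs1⟩ : ∃ s : Slot B, s ≠ none ∧ ∑ i, (α i s + β i s) = 1 := by
      by_contra hcon
      push Not at hcon
      have h0 : ∀ s : Slot B, s ≠ none → ∑ i, (α i s + β i s) = 0 := by
        intro s hs
        have hz : ∀ c : ZMod 2, c ≠ 1 → c = 0 := by decide
        exact hz _ (hcon s hs)
      have h3 : ∑ s : Slot B, ∑ i, (α i s + β i s) = 0 := by
        rw [Finset.sum_comm]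
        apply Finset.sum_eq_zero
        intro i _
        rw [Finset.sum_add_distrib, hα, hβ, add_zero]
      rw [Finset.sum_eq_single none (fun s _ hs => h0 s hs)
        (fun hn => absurd (Finset.mem_univ _) hn)] at h3
      rw [Finset.sum_congr rfl (fun i _ => hd i), hδ] at h3
      exact one_ne_zero h3
    -- the rows for the induction hypothesis
    have hrow' : ∀ i, Row (a' i) (b' i) (i, h.pred ρ s.part, γ'' + wireGen (ρ, s),
        (z + h.shift ρ s.part) i) (α i s + β i s) (Node.rule i ρ γ'' (z i)) := by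
      intro i
      exact ⟨_, _, _, _, α i s, β i s, ha i, hb i, ⟨hc i, hα i⟩, ⟨hc i, hβ i⟩, rfl, rfl,
        ⟨s, rfl, rfl⟩, ⟨s, rfl, rfl⟩, rfl⟩
    have hN' : ∀ i : Fin M, (Node.rule i ρ γ'' (z i) : Node h B) = Node.goal ∨
        ∃ ρ' γ' u', (Node.rule i ρ γ'' (z i) : Node h B) = Node.rule i ρ' γ' u' ∧
          γ'' + wireGen (ρ, s) ≠ γ' + wireGen (ρ', none) := by
      intro i
      refine Or.inr ⟨ρ, γ'', z i, rfl, ?_⟩
      intro he
      exact hs (Prod.mk.inj (wireGen_inj2 (add_left_cancel he))).2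
    obtain ⟨c, k, rfl⟩ : ∃ c k, s = some (c, k) := by
      cases s with
      | none => exact absurd rfl hs
      | some ck => exact ⟨ck.1, ck.2, rfl⟩
    fin_cases c
    · exact ih1 _ a' b' _ _ hab' hrow' hs1 hN'
    · exact ih2 _ a' b' _ _ hab' hrow' hs1 hN'

end game

/-- Spoiler wins. -/
theorem spo {J : Type} {cidx : Cls M h.Rule B → ℕ} {rank : X → ℕ}
    (hp : PairOk h B D cidx rank) [Finite J] [Fintype ((Lab M h.Rule B D × X) ⊕ J)]
    (hgoal : h.Known h.Pg 0) :
    ¬ WLEquiv M (pairGraph h D J cidx rank false) (pairGraph h D J cidx rank true) := by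
  intro hwl
  obtain ⟨R, hR, hRx⟩ := exists_backForth_of_wlEquiv hwl
  have hM : 0 < M := lt_of_lt_of_le (by norm_num) hp.hM
  obtain ⟨y, hy⟩ := hRx (fun _ => Sum.inl (Lab.goal (fun _ => 0), 0))
  have hval : (Lab.goal (fun _ => 0) : Lab M h.Rule B D).Valid h false 0 := ⟨rfl, by simp⟩
  obtain ⟨m, t, h1, h2, h3⟩ := same_node hp hR hy (i := ⟨0, hM⟩) rfl hval
  obtain ⟨β, rfl⟩ := lab_of_goal (h3.trans rfl)
  obtain ⟨rfl, hβ⟩ := h2
  have hyi : ∀ i, y i = Sum.inl (Lab.goal β, 0) := by
    intro i
    rw [← h1]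
    exact (hR.eq_iff _ _ hy i ⟨0, hM⟩).1 rfl
  refine main_induction hp hR hgoal 0 _ y β (fun _ => Node.goal) hy ?_ ?_
    (fun i => Or.inl rfl)
  · intro i
    refine ⟨_, _, _, _, 0, β i, rfl, hyi i, hval, ⟨rfl, hβ⟩, rfl, rfl, ⟨i, rfl, rfl⟩,
      ⟨i, rfl, rfl⟩, zero_add _⟩
  · simpa using hβ

end Vale.Agent.P310
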