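import Vale.Agent.Lib.P310.SM

/-!
# P310: from Mathlib's `FinTM2` to stack machines in normal form (module TM2SM)

Control states: (substatement of the program, internal state) or the halting state; the finitely
many substatements are `Turing.TM2.stmts₁`. The alphabet is the finite set of the input symbols
and of the symbols that occur in push statements (and the output symbol for `true`).
-/

namespace Vale.Agent.P310

namespace TM2SM

open Turing

section
variable (tm : FinTM2)

/-- the substatements of the program -/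
def stSet : Set (TM2.Stmt tm.Γ tm.Λ tm.σ) := {s | ∃ l, s ∈ TM2.stmts₁ (tm.m l)}

theorem stSet_finite : (stSet tm).Finite := by
  classical
  have hf := tm.ΛFin
  have : stSet tm = ⋃ l : tm.Λ, (↑(TM2.stmts₁ (tm.m l)) : Set (TM2.Stmt tm.Γ tm.Λ tm.σ)) := by
    ext s; simp [stSet]
  rw [this]
  exact Set.finite_iUnion fun l => Finset.finite_toSet _

theorem main_mem (l : tm.Λ) : tm.m l ∈ stSet tm := ⟨l, TM2.stmts₁_self⟩

theorem sub_mem {s s' : TM2.Stmt tm.Γ tm.Λ tm.σ} (h : s ∈ stSet tm) (h' : s' ∈ TM2.stmts₁ s) :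
    s' ∈ stSet tm := by
  obtain ⟨l, hl⟩ := h
  exact ⟨l, TM2.stmts₁_trans hl h'⟩

/-- all symbols with their stack -/
abbrev Sig : Type := Σ k, tm.Γ k

/-- the symbols which can be pushed by a statement -/
def pushed : TM2.Stmt tm.Γ tm.Λ tm.σ → Set (Sig tm)
  | .push k f _ => Set.range fun v => (⟨k, f v⟩ : Sig tm)
  | _ => ∅

/-- the finite alphabet -/
def alph (out : tm.Γ tm.k₁) : Set (Sig tm) :=
  (⋃ s ∈ stSet tm, pushed tm s) ∪ (Set.range fun a : tm.Γ tm.k₀ => (⟨tm.k₀, a⟩ : Sig tm)) ∪
    {⟨tm.k₁, out⟩}

theorem alph_finite (out : tm.Γ tm.k₁) : (alph tm out).Finite := by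
  have h1 := tm.Γk₀Fin
  have h2 := tm.σFin
  refine Set.Finite.union (Set.Finite.union ?_ (Set.finite_range _)) (Set.finite_singleton _)
  refine (stSet_finite tm).biUnion fun s _ => ?_
  cases s <;> simp only [pushed, Set.finite_empty]
  exact Set.finite_range _

variable (out : tm.Γ tm.k₁)

theorem out_mem : (⟨tm.k₁, out⟩ : Sig tm) ∈ alph tm out := Or.inr rfl

open Classical in
/-- the letter of a symbol -/
noncomputable def mkG (x : Sig tm) : alph tm out :=
  if h : x ∈ alph tm out then ⟨x, h⟩ else ⟨⟨tm.k₁, out⟩, out_mem tm out⟩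

theorem mkG_val {x : Sig tm} (h : x ∈ alph tm out) : (mkG tm out x).val = x := by
  simp [mkG, h]

open Classical in
/-- the control state of a statement -/
noncomputable def mkS (s : TM2.Stmt tm.Γ tm.Λ tm.σ) : stSet tm :=
  if h : s ∈ stSet tm then ⟨s, h⟩ else ⟨tm.m tm.main, main_mem tm tm.main⟩

theorem mkS_val {s : TM2.Stmt tm.Γ tm.Λ tm.σ} (h : s ∈ stSet tm) : (mkS tm s).val = s := by
  simp [mkS, h]

open Classical in
/-- decoding of the top symbol of stack `k` -/
noncomputable def dec (k : tm.K) (o : Option (alph tm out)) : Option (tm.Γ k) :=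
  o.bind fun g => if h : g.val.1 = k then some (h ▸ g.val.2) else none

theorem dec_head {k : tm.K} {L : List (alph tm out)} {S : List (tm.Γ k)}
    (h : L.map Subtype.val = S.map (Sigma.mk k)) : dec tm out k L.head? = S.head? := by
  cases S with
  | nil =>
    cases L with
    | nil => rfl
    | cons g L => simp at h
  | cons a S =>
    cases L with
    | nil => simp at h
    | cons g L =>
      obtain ⟨⟨k', a'⟩, hg⟩ := g
      simp only [List.map_cons, List.cons.injEq, Sigma.mk.injEq] at h
      obtain ⟨⟨rfl, h2⟩, -⟩ := h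
      simp only [heq_eq_eq] at h2
      subst h2
      simp [dec]

/-- next control state, given statement, internal state and top of the stack -/
noncomputable def nxtS : TM2.Stmt tm.Γ tm.Λ tm.σ → tm.σ → Option (alph tm out) →
    Option (stSet tm × tm.σ)
  | .push _ _ q, v, _ => some (mkS tm q, v)
  | .peek k f q, v, o => some (mkS tm q, f v (dec tm out k o))
  | .pop k f q, v, o => some (mkS tm q, f v (dec tm out k o))
  | .load a q, v, _ => some (mkS tm q, a v)
  | .branch f q₁ q₂, v, _ => some (mkS tm (cond (f v) q₁ q₂), v)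
  | .goto f, v, _ => some (mkS tm (tm.m (f v)), v)
  | .halt, _, _ => none

/-- the stack operation -/
noncomputable def opS : TM2.Stmt tm.Γ tm.Λ tm.σ → tm.σ → Option (Option (alph tm out))
  | .push k f _, v => some (some (mkG tm out ⟨k, f v⟩))
  | .peek _ _ _, _ => none
  | .pop _ _ _, _ => some none
  | .load _ _, _ => none
  | .branch _ _ _, _ => none
  | .goto _, _ => none
  | .halt, _ => none

/-- the stack looked at -/
def selS : TM2.Stmt tm.Γ tm.Λ tm.σ → tm.K
  | .push k _ _ => k
  | .peek k _ _ => k
  | .pop k _ _ => k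
  | .load _ _ => tm.k₀
  | .branch _ _ _ => tm.k₀
  | .goto _ => tm.k₀
  | .halt => tm.k₀

/-- the normal form machine -/
noncomputable def machine : SM where
  K := tm.K
  G := alph tm out
  Q := Option (stSet tm × tm.σ)
  finK := @Finite.of_fintype _ tm.kFin
  finG := (alph_finite tm out).to_subtype
  finQ := by
    have h1 : Finite (stSet tm) := (stSet_finite tm).to_subtype
    have h2 := tm.σFin
    infer_instance
  sel := fun q => match q with
    | none => tm.k₀
    | some (s, _) => selS tm s.val
  nxt := fun q o => match q with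
    | none => none
    | some (s, v) => nxtS tm out s.val v o
  op := fun q _ => match q with
    | none => none
    | some (s, v) => opS tm out s.val v
  halt := fun q => q = none
  q0 := some (mkS tm (tm.m tm.main), tm.initialState)

/-- number of simple steps of a statement -/
def sz : TM2.Stmt tm.Γ tm.Λ tm.σ → ℕ
  | .push _ _ q => sz q + 1
  | .peek _ _ q => sz q + 1
  | .pop _ _ q => sz q + 1
  | .load _ q => sz q + 1
  | .branch _ q₁ q₂ => max (sz q₁) (sz q₂) + 1
  | .goto _ => 1
  | .halt => 1

/-- coding of configurations -/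
def Rel (c : TM2.Cfg tm.Γ tm.Λ tm.σ) (d : (machine tm out).Cfg) : Prop :=
  d.q = c.l.map (fun l => (mkS tm (tm.m l), c.var)) ∧
    ∀ k, (d.stk k).map Subtype.val = (c.stk k).map (Sigma.mk k)

open Classical in
theorem step_some (s : stSet tm) (v : tm.σ) (T : tm.K → List (alph tm out)) :
    (machine tm out).step ⟨some (s, v), T⟩ =
      ⟨nxtS tm out s.val v (T (selS tm s.val)).head?,
        match opS tm out s.val v with
        | none => T
        | some none => Function.update T (selS tm s.val) (T (selS tm s.val)).tail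
        | some (some g) => Function.update T (selS tm s.val) (g :: T (selS tm s.val))⟩ := by
  unfold SM.step
  rw [if_neg (by simp [machine])]
  rcases s with ⟨s, hs⟩
  cases s <;> rfl

theorem rel_update {S : ∀ k, List (tm.Γ k)} {T : tm.K → List (alph tm out)}
    (h : ∀ k, (T k).map Subtype.val = (S k).map (Sigma.mk k)) (k : tm.K)
    (i1 i2 : DecidableEq tm.K)
    (L : List (alph tm out)) (M : List (tm.Γ k)) (hLM : L.map Subtype.val = M.map (Sigma.mk k)) :
    ∀ k', ((@Function.update _ _ i1 T k L) k').map Subtype.val =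
      ((@Function.update _ _ i2 S k M) k').map (Sigma.mk k') := by
  intro k'
  by_cases hk : k' = k
  · subst hk
    rw [@Function.update_self _ _ i1, @Function.update_self _ _ i2]
    exact hLM
  · rw [@Function.update_of_ne _ _ i1 _ _ hk, @Function.update_of_ne _ _ i2 _ _ hk]
    exact h k'

theorem sim_stmt (s : TM2.Stmt tm.Γ tm.Λ tm.σ) : ∀ (_ : s ∈ stSet tm) (v : tm.σ)
    (S : ∀ k, List (tm.Γ k)) (T : tm.K → List (alph tm out))
    (_ : ∀ k, (T k).map Subtype.val = (S k).map (Sigma.mk k)),
    ∃ n ≤ sz tm s, Rel tm out (TM2.stepAux s v S)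
      ((machine tm out).step^[n] ⟨some (mkS tm s, v), T⟩) := by
  induction s with
  | push k f q ih =>
    intro hs v S T hT
    have hq : q ∈ stSet tm := sub_mem tm hs (by
      simp only [TM2.stmts₁, Finset.mem_insert]; exact Or.inr TM2.stmts₁_self)
    have hg : (⟨k, f v⟩ : Sig tm) ∈ alph tm out := by
      refine Or.inl (Or.inl ?_)
      simp only [Set.mem_iUnion]
      exact ⟨_, hs, v, rfl⟩
    obtain ⟨n, hn, hR⟩ := ih hq v (Function.update S k (f v :: S k))
      (@Function.update _ _ (fun a b => Classical.propDecidable (a = b)) T k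
        (mkG tm out ⟨k, f v⟩ :: T k))
      (rel_update tm out hT k _ _ _ _ (by
        rw [List.map_cons, List.map_cons, mkG_val tm out hg, hT k]))
    refine ⟨n + 1, by simp only [sz]; omega, ?_⟩
    rw [Function.iterate_succ_apply, step_some, mkS_val tm hs]
    exact hR
  | peek k f q ih =>
    intro hs v S T hT
    have hq : q ∈ stSet tm := sub_mem tm hs (by
      simp only [TM2.stmts₁, Finset.mem_insert]; exact Or.inr TM2.stmts₁_self)
    obtain ⟨n, hn, hR⟩ := ih hq (f v (S k).head?) S T hT
    refine ⟨n + 1, by simp only [sz]; omega, ?_⟩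
    rw [Function.iterate_succ_apply, step_some, mkS_val tm hs]
    simp only [nxtS, opS, selS]
    rw [dec_head tm out (hT k)]
    exact hR
  | pop k f q ih =>
    intro hs v S T hT
    have hq : q ∈ stSet tm := sub_mem tm hs (by
      simp only [TM2.stmts₁, Finset.mem_insert]; exact Or.inr TM2.stmts₁_self)
    obtain ⟨n, hn, hR⟩ := ih hq (f v (S k).head?) (Function.update S k (S k).tail)
      (@Function.update _ _ (fun a b => Classical.propDecidable (a = b)) T k (T k).tail)
      (rel_update tm out hT k _ _ _ _ (by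
        rw [List.map_tail, List.map_tail, hT k]))
    refine ⟨n + 1, by simp only [sz]; omega, ?_⟩
    rw [Function.iterate_succ_apply, step_some, mkS_val tm hs]
    simp only [nxtS, opS, selS]
    rw [dec_head tm out (hT k)]
    exact hR
  | load a q ih =>
    intro hs v S T hT
    have hq : q ∈ stSet tm := sub_mem tm hs (by
      simp only [TM2.stmts₁, Finset.mem_insert]; exact Or.inr TM2.stmts₁_self)
    obtain ⟨n, hn, hR⟩ := ih hq (a v) S T hT
    refine ⟨n + 1, by simp only [sz]; omega, ?_⟩
    rw [Function.iterate_succ_apply, step_some, mkS_val tm hs]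
    exact hR
  | branch f q₁ q₂ ih₁ ih₂ =>
    intro hs v S T hT
    have hq₁ : q₁ ∈ stSet tm := sub_mem tm hs (by
      simp only [TM2.stmts₁, Finset.mem_insert, Finset.mem_union]
      exact Or.inr (Or.inl TM2.stmts₁_self))
    have hq₂ : q₂ ∈ stSet tm := sub_mem tm hs (by
      simp only [TM2.stmts₁, Finset.mem_insert, Finset.mem_union]
      exact Or.inr (Or.inr TM2.stmts₁_self))
    cases hf : f v with
    | true =>
      obtain ⟨n, hn, hR⟩ := ih₁ hq₁ v S T hT
      refine ⟨n + 1, by simp only [sz]; omega, ?_⟩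
      rw [Function.iterate_succ_apply, step_some, mkS_val tm hs]
      simp only [nxtS, opS, TM2.stepAux, hf, cond_true]
      exact hR
    | false =>
      obtain ⟨n, hn, hR⟩ := ih₂ hq₂ v S T hT
      refine ⟨n + 1, by simp only [sz]; omega, ?_⟩
      rw [Function.iterate_succ_apply, step_some, mkS_val tm hs]
      simp only [nxtS, opS, TM2.stepAux, hf, cond_false]
      exact hR
  | goto f =>
    intro hs v S T hT
    refine ⟨1, by simp only [sz]; omega, ?_⟩
    rw [Function.iterate_one, step_some, mkS_val tm hs]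
    exact ⟨rfl, hT⟩
  | halt =>
    intro hs v S T hT
    refine ⟨1, by simp only [sz]; omega, ?_⟩
    rw [Function.iterate_one, step_some, mkS_val tm hs]
    exact ⟨rfl, hT⟩

/-- the constant -/
noncomputable def cst : ℕ := @Finset.sup _ _ _ _ (@Finset.univ _ tm.ΛFin) fun l => sz tm (tm.m l)

theorem sim_step {c c' : TM2.Cfg tm.Γ tm.Λ tm.σ} (h : TM2.step tm.m c = some c')
    {d : (machine tm out).Cfg} (hd : Rel tm out c d) :
    ∃ n ≤ cst tm, Rel tm out c' ((machine tm out).step^[n] d) := by
  obtain ⟨l, v, S⟩ := c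
  cases l with
  | none => simp at h
  | some l =>
    simp only [TM2.step, Option.some.injEq] at h
    subst h
    obtain ⟨h1, h2⟩ := hd
    obtain ⟨q, T⟩ := d
    simp only [Option.map_some] at h1
    subst h1
    obtain ⟨n, hn, hR⟩ := sim_stmt tm out (tm.m l) (main_mem tm l) v S T h2
    refine ⟨n, hn.trans ?_, hR⟩
    exact @Finset.le_sup _ _ _ _ (@Finset.univ _ tm.ΛFin) (fun l => sz tm (tm.m l)) l
      (@Finset.mem_univ _ tm.ΛFin l)

theorem sim_steps (t : ℕ) : ∀ {c c' : TM2.Cfg tm.Γ tm.Λ tm.σ}
    (_ : (flip bind (TM2.step tm.m))^[t] (some c) = some c')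
    {d : (machine tm out).Cfg} (_ : Rel tm out c d),
    ∃ n ≤ cst tm * t, Rel tm out c' ((machine tm out).step^[n] d) := by
  induction t with
  | zero =>
    intro c c' h d hd
    simp only [Function.iterate_zero, id_eq, Option.some.injEq] at h
    subst h
    exact ⟨0, by simp, hd⟩
  | succ t ih =>
    intro c c' h d hd
    rw [Function.iterate_succ_apply] at h
    change (flip bind (TM2.step tm.m))^[t] (TM2.step tm.m c) = some c' at h
    cases hc : TM2.step tm.m c with
    | none =>
      rw [hc] at h
      have : ∀ t : ℕ, (flip bind (TM2.step tm.m))^[t] none = none := by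
        intro t
        induction t with
        | zero => rfl
        | succ t ih => rw [Function.iterate_succ_apply]; exact ih
      rw [this] at h
      simp at h
    | some c1 =>
      rw [hc] at h
      obtain ⟨n1, hn1, hR1⟩ := sim_step tm out hc hd
      obtain ⟨n2, hn2, hR2⟩ := ih h hR1
      refine ⟨n2 + n1, ?_, ?_⟩
      · rw [Nat.mul_succ]; omega
      · rw [Function.iterate_add_apply]; exact hR2

theorem init_stk (l : List (tm.Γ tm.k₀)) : (initList tm l).stk tm.k₀ = l := by
  simp [initList]

theorem init_stk_ne (l : List (tm.Γ tm.k₀)) {k : tm.K} (hk : k ≠ tm.k₀) :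
    (initList tm l).stk k = [] := by
  simp [initList, hk]

theorem halt_stk (l : List (tm.Γ tm.k₁)) : (haltList tm l).stk tm.k₁ = l := by
  simp [haltList]

theorem head_iff (eo : tm.Γ tm.k₁ ≃ Bool) (b : Bool) (L : List (alph tm (eo.invFun true)))
    (h : L.map Subtype.val = ([b].map eo.invFun).map (Sigma.mk tm.k₁)) :
    L.head? = some ⟨⟨tm.k₁, eo.invFun true⟩, out_mem tm _⟩ ↔ b = true := by
  cases L with
  | nil => exact absurd (congrArg List.length h) (by simp)
  | cons g L =>
    obtain ⟨g, hg⟩ := g
    have h1 : g = ⟨tm.k₁, eo.invFun b⟩ := by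
      have := congrArg List.head? h
      simpa using this
    subst h1
    rw [List.head?_cons, Option.some_inj, Subtype.mk.injEq, Sigma.mk.injEq]
    constructor
    · rintro ⟨-, h2⟩
      exact eo.symm.injective (eq_of_heq h2)
    · rintro rfl
      exact ⟨rfl, HEq.rfl⟩

theorem code_map (f : Bool → tm.Γ tm.k₀) (hf : ∀ b, (⟨tm.k₀, f b⟩ : Sig tm) ∈ alph tm out)
    (w : List Bool) :
    (w.map fun b => (⟨⟨tm.k₀, f b⟩, hf b⟩ : alph tm out)).map Subtype.val =
      (w.map f).map (Sigma.mk tm.k₀) := by
  induction w with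
  | nil => rfl
  | cons b w ih => rw [List.map_cons, List.map_cons, ih]; rfl

theorem sm_init_self (N : SM) (kin : N.K) {I : Type} (sym : I → N.G) (w : List I) :
    (N.init kin sym w).stk kin = w.map sym := by
  simp [SM.init]

theorem sm_init_ne (N : SM) (kin : N.K) {I : Type} (sym : I → N.G) (w : List I) {k : N.K}
    (hk : k ≠ kin) : (N.init kin sym w).stk k = [] := by
  simp [SM.init, hk]

end

end TM2SM

open Turing TM2SM in
theorem exists_sm (A : Turing.TM2ComputableAux Bool Bool) :
    ∃ (N : SM) (kin kout : N.K) (sym : Bool → N.G) (gacc : N.G) (C : ℕ),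
      ∀ (w : List Bool) (b : Bool) (t : ℕ),
        Nonempty (Turing.TM2OutputsInTime A.tm (w.map A.inputAlphabet.invFun)
          (some ([b].map A.outputAlphabet.invFun)) t) →
        ∃ n ≤ C * (t + 1), N.halt (N.step^[n] (N.init kin sym w)).q ∧
          (((N.step^[n] (N.init kin sym w)).stk kout).head? = some gacc ↔ b = true) := by
  classical
  obtain ⟨tm, ei, eo⟩ := A
  have hsym : ∀ b : Bool, (⟨tm.k₀, ei.invFun b⟩ : Sig tm) ∈ alph tm (eo.invFun true) := fun b =>
    Or.inl (Or.inr ⟨_, rfl⟩)
  refine ⟨machine tm (eo.invFun true), tm.k₀, tm.k₁, fun b => ⟨⟨tm.k₀, ei.invFun b⟩, hsym b⟩,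
    ⟨⟨tm.k₁, eo.invFun true⟩, out_mem tm _⟩, cst tm, ?_⟩
  rintro w b t ⟨⟨⟨m, hm⟩, hmt⟩⟩
  have h0 : Rel tm (eo.invFun true) (initList tm (w.map ei.invFun))
      ((machine tm (eo.invFun true)).init tm.k₀ (fun b => ⟨⟨tm.k₀, ei.invFun b⟩, hsym b⟩) w) := by
    refine ⟨rfl, fun k => ?_⟩
    by_cases hk : k = tm.k₀
    · subst hk
      rw [init_stk]
      refine (congrArg (List.map Subtype.val) (sm_init_self (machine tm (eo.invFun true)) _ _ w)).trans ?_
      exact code_map tm (eo.invFun true) ei.invFun hsym w
    · rw [init_stk_ne tm _ hk]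
      exact congrArg (List.map Subtype.val) (sm_init_ne (machine tm (eo.invFun true)) _ _ w hk)
  obtain ⟨n, hn, hq, hs⟩ := sim_steps tm (eo.invFun true) m hm h0
  refine ⟨n, hn.trans (Nat.mul_le_mul_left _ (by simp only at hmt; omega)), ?_, ?_⟩
  · exact hq
  · have := hs tm.k₁
    rw [halt_stk] at this
    exact head_iff tm eo b _ this

end Vale.Agent.P310
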