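import Vale.Agent.Lib.P310.EncDefs

/-!
# P310: the numbering of the vertices (module VERTEX)
-/

namespace Vale.Agent.P310

/-- the seven digits of the vertex with label code `c` and view `u` -/
private def vtxDigits {p : ℕ} (c : ZMod p) (u : Fin 5 → ZMod p) : Fin 7 → ZMod p :=
  Fin.snoc (Fin.cons c u : Fin 6 → ZMod p) 0

private theorem vtxDigits_zero {p : ℕ} (c : ZMod p) (u : Fin 5 → ZMod p) :
    vtxDigits c u 0 = c := by
  have h : (0 : Fin 7) = Fin.castSucc (0 : Fin 6) := rfl
  unfold vtxDigits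
  rw [h, Fin.snoc_castSucc, Fin.cons_zero]

private theorem vtxDigits_mid {p : ℕ} (c : ZMod p) (u : Fin 5 → ZMod p) (j : Fin 5) :
    vtxDigits c u (j.succ.castSucc) = u j := by
  unfold vtxDigits
  rw [Fin.snoc_castSucc, Fin.cons_succ]

private theorem vtxDigits_last {p : ℕ} (c : ZMod p) (u : Fin 5 → ZMod p) :
    vtxDigits c u 6 = 0 := by
  have h : (6 : Fin 7) = Fin.last 6 := rfl
  unfold vtxDigits
  rw [h, Fin.snoc_last]

private theorem vtx_digits_iff {p : ℕ} (c : ZMod p) (u : Fin 5 → ZMod p) (w : Fin 7 → ZMod p) :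
    w = vtxDigits c u ↔ c = w 0 ∧ (∀ j : Fin 5, u j = w (j.succ.castSucc)) ∧ w 6 = 0 := by
  constructor
  · rintro rfl
    exact ⟨(vtxDigits_zero c u).symm, fun j => (vtxDigits_mid c u j).symm, vtxDigits_last c u⟩
  · rintro ⟨h1, h2, h3⟩
    funext i
    refine Fin.lastCases ?_ (fun i => ?_) i
    · have h : Fin.last 6 = (6 : Fin 7) := rfl
      rw [h, h3, vtxDigits_last]
    · refine Fin.cases ?_ (fun j => ?_) i
      · have h : Fin.castSucc (0 : Fin 6) = (0 : Fin 7) := rfl
        rw [h, ← h1, vtxDigits_zero]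
      · rw [← h2, vtxDigits_mid]

private theorem vtxDigits_lt {p : ℕ} [NeZero p] (c : ZMod p) (u : Fin 5 → ZMod p) :
    numOf (vtxDigits c u) < p ^ 6 := by
  have h := numOf_lt (Fin.cons c u : Fin 6 → ZMod p)
  have e : numOf (vtxDigits c u) = numOf (Fin.cons c u : Fin 6 → ZMod p) := by
    unfold numOf vtxDigits
    rw [Fin.sum_univ_castSucc]
    simp only [Fin.snoc_castSucc, Fin.snoc_last, ZMod.val_zero, zero_mul, add_zero,
      Fin.val_castSucc]
  rw [e]
  exact h

theorem exists_vertexEquiv {A : Type} [Finite A] {p n : ℕ} [NeZero p] (code : A → ZMod p)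
    (hcode : Function.Injective code) (h6 : p ^ 6 ≤ n) (h7 : n ≤ p ^ 7) :
    ∃ (J : Type) (_ : Finite J) (e : Fin n ≃ (A × (Fin 5 → ZMod p)) ⊕ J), VertexOk code e := by
  classical
  let g : A × (Fin 5 → ZMod p) → Fin n := fun x =>
    ⟨numOf (vtxDigits (code x.1) x.2), lt_of_lt_of_le (vtxDigits_lt _ _) h6⟩
  have hgval : ∀ x, ((g x : Fin n) : ℕ) = numOf (vtxDigits (code x.1) x.2) := fun x => rfl
  have hg : Function.Injective g := by
    intro x y hxy
    have h1 : numOf (vtxDigits (code x.1) x.2) = numOf (vtxDigits (code y.1) y.2) := by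
      rw [← hgval, ← hgval, hxy]
    have h2 := numOf_injective h1
    have h3 := (vtx_digits_iff (code y.1) y.2 (vtxDigits (code x.1) x.2)).1 h2
    rw [vtxDigits_zero] at h3
    have h4 : x.2 = y.2 := by
      funext j
      rw [h3.2.1 j, vtxDigits_mid]
    exact Prod.ext (hcode h3.1.symm) h4
  refine ⟨((Set.range g)ᶜ : Set (Fin n)), inferInstance,
    ((Equiv.sumCongr (Equiv.ofInjective g hg) (Equiv.refl _)).trans
      (Equiv.Set.sumCompl (Set.range g))).symm, ?_⟩
  intro a l u
  rw [Equiv.symm_apply_eq]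
  have h1 : ((Equiv.sumCongr (Equiv.ofInjective g hg) (Equiv.refl _)).trans
      (Equiv.Set.sumCompl (Set.range g))) (Sum.inl (l, u)) = g (l, u) := by
    simp [Equiv.ofInjective_apply]
  rw [h1]
  have ha : numOf (dig p (a : ℕ) : Fin 7 → ZMod p) = a :=
    numOf_dig (lt_of_lt_of_le a.isLt h7)
  have h2 : a = g (l, u) ↔ (dig p (a : ℕ) : Fin 7 → ZMod p) = vtxDigits (code l) u := by
    constructor
    · intro h
      apply numOf_injective
      rw [ha, h, hgval]
    · intro h
      apply Fin.ext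
      rw [hgval, ← h, ha]
  rw [h2, vtx_digits_iff]

end Vale.Agent.P310
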