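import Mathlib

/-!
# P310: Horn systems, nodes, wires (definitions of the core construction)
-/

namespace Vale.Agent.P310

/-- A Horn system with `M` rows and views in `X`: rules `head ← body 1 ∧ body 2` with
translations (`shift ρ 0` for the head, `shift ρ 1`, `shift ρ 2` for the bodies) and conditions
on the views of the single rows. -/
structure Horn (M : ℕ) (X : Type) [AddCommGroup X] where
  Pred : Type
  Rule : Type
  pred : Rule → Fin 3 → Pred
  shift : Rule → Fin 3 → Fin M → X
  cond : Rule → Fin M → X → Prop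
  P0 : Pred
  Pg : Pred

section
variable {M : ℕ} {X : Type} [AddCommGroup X] (h : Horn M X)

/-- The derivable atoms. Addresses are the functions `z : Fin M → X` with sum zero. -/
inductive Horn.Known : h.Pred → (Fin M → X) → Prop
  | ax : Horn.Known h.P0 0
  | rule (ρ : h.Rule) (z : Fin M → X) (hz : ∑ i, z i = 0) (hc : ∀ i, h.cond ρ i (z i))
      (h1 : Horn.Known (h.pred ρ 1) (z + h.shift ρ 1))
      (h2 : Horn.Known (h.pred ρ 2) (z + h.shift ρ 2)) :
      Horn.Known (h.pred ρ 0) (z + h.shift ρ 0)

/-- The side conditions of the core theorem. -/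
structure Horn.Good : Prop where
  shift_sum : ∀ ρ j, ∑ i, h.shift ρ j i = 0
  head_ne : ∀ ρ, h.pred ρ 0 ≠ h.P0
  body_ne : ∀ ρ (j : Fin 3), j ≠ 0 → h.pred ρ j ≠ h.Pg
  P0_ne : h.P0 ≠ h.Pg
  goal_zero : ∀ x, h.Known h.Pg x → x = 0

/-- The slots of a rule: the head and `B` copies of each of the two bodies. -/
abbrev Slot (B : ℕ) : Type := Option (Fin 2 × Fin B)

/-- The part of the rule (0 = head, 1, 2 = bodies) of a slot. -/
def Slot.part {B : ℕ} : Slot B → Fin 3
  | none => 0
  | some (c, _) => c.succ

/-- Wire labels: the group `(ZMod 3)^(rules × slots)`. -/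
abbrev Wire (R : Type) (B : ℕ) : Type := R × Slot B → ZMod 3

/-- The generator of a slot. The differences of distinct generators are pairwise distinct. -/
noncomputable def wireGen {R : Type} {B : ℕ} (a : R × Slot B) : Wire R B := by
  classical exact Pi.single a 1

/-- The variables (row, predicate, wire label, view). -/
abbrev Var (B : ℕ) : Type := Fin M × h.Pred × Wire h.Rule B × X

/-- The nodes: rule nodes, one axiom node for every wire label, and the goal node. -/
inductive Node (B : ℕ)
  | rule (i : Fin M) (ρ : h.Rule) (γ : Wire h.Rule B) (u : X)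
  | ax (γ : Wire h.Rule B)
  | goal

variable {h} {B : ℕ}

/-- the variable in slot `s` of a rule node -/
noncomputable def slotVar (i : Fin M) (ρ : h.Rule) (γ : Wire h.Rule B) (u : X) (s : Slot B) :
    Var h B :=
  (i, h.pred ρ s.part, γ + wireGen (ρ, s), u + h.shift ρ s.part i)

/-- The node exists: the condition of the rule holds at the view. -/
def Node.Ok : Node h B → Prop
  | .rule i ρ _ u => h.cond ρ i u
  | _ => True

/-- The set of variables of a node. -/
def Node.vars : Node h B → Set (Var h B)
  | .rule i ρ γ u => {v | ∃ s : Slot B, v = slotVar i ρ γ u s}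
  | .ax γ => {v | ∃ i : Fin M, v = (i, h.P0, γ, 0)}
  | .goal => {v | ∃ i : Fin M, v = (i, h.Pg, 0, 0)}

/-- The equation of a node for the difference of two assignments. -/
def Node.Sat (D : Var h B → ZMod 2) : Node h B → Prop
  | .rule i ρ γ u => ∑ s : Slot B, D (slotVar i ρ γ u s) = 0
  | .ax γ => ∑ i : Fin M, D (i, h.P0, γ, 0) = 0
  | .goal => ∑ i : Fin M, D (i, h.Pg, 0, 0) = 1

/-- All the variables of a set of nodes. -/
def covered (S : Set (Node h B)) : Set (Var h B) := {v | ∃ y ∈ S, v ∈ y.vars}

/-- Good partial assignments (differences) on the variables of a set `S` of nodes. -/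
structure PosOk (S : Set (Node h B)) (D : Var h B → ZMod 2) : Prop where
  sat : ∀ y ∈ S, y.Sat D
  wall : ∀ P γ x, h.Known P x → (∀ i : Fin M, (i, P, γ, x i) ∈ covered S) →
    ∑ i : Fin M, D (i, P, γ, x i) = 0
  goal : (∀ i : Fin M, ((i, h.Pg, 0, 0) : Var h B) ∈ covered S) →
    ∑ i : Fin M, D ((i, h.Pg, 0, 0) : Var h B) = 1

end

end Vale.Agent.P310
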