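import Vale.Agent.Lib.P310.Digits

/-!
# P310: stack machines in normal form (one stack operation per step)
-/

namespace Vale.Agent.P310

/-- A stack machine in normal form. In the control state `q` it looks at the top `o` of the stack
`sel q`, moves to `nxt q o` and performs `op q o` on that stack (`none`: nothing, `some none`: pop,
`some (some g)`: push `g`). -/
structure SM where
  K : Type
  G : Type
  Q : Type
  finK : Finite K
  finG : Finite G
  finQ : Finite Q
  sel : Q → K
  nxt : Q → Option G → Q
  op : Q → Option G → Option (Option G)
  halt : Q → Prop
  q0 : Q

/-- configurations -/
structure SM.Cfg (N : SM) where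
  q : N.Q
  stk : N.K → List N.G

open Classical in
/-- one step; halting configurations stay as they are -/
noncomputable def SM.step (N : SM) (c : N.Cfg) : N.Cfg :=
  if N.halt c.q then c else
    { q := N.nxt c.q (c.stk (N.sel c.q)).head?
      stk := match N.op c.q (c.stk (N.sel c.q)).head? with
        | none => c.stk
        | some none => Function.update c.stk (N.sel c.q) (c.stk (N.sel c.q)).tail
        | some (some g) => Function.update c.stk (N.sel c.q) (g :: c.stk (N.sel c.q)) }

open Classical in
/-- the initial configuration for the input word `w` over `I` -/
noncomputable def SM.init (N : SM) (kin : N.K) {I : Type} (sym : I → N.G) (w : List I) :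
    N.Cfg where
  q := N.q0
  stk := Function.update (fun _ => []) kin (w.map sym)

end Vale.Agent.P310
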