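import Vale.Agent.Lib.P310.SimDefs

/-!
# P310: soundness of the simulation (module SIMSOUND)
-/

namespace Vale.Agent.P310

namespace Sim

theorem conj_eval {m : ℕ} {Y : Type} (num : Y → ℕ) {p : ℕ}
    (T : Set (ZMod p × ZMod p × ZMod p)) (z : Fin m → Fin 2 → ZMod p) (l : List (BF m Y)) :
    (conj l).eval num T z ↔ ∀ φ ∈ l, φ.eval num T z := by
  induction l with
  | nil => simp [conj, BF.eval]
  | cons a l ih => simp [conj, BF.eval, ih]

theorem iffF_eval {m : ℕ} {Y : Type} (num : Y → ℕ) {p : ℕ}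
    (T : Set (ZMod p × ZMod p × ZMod p)) (z : Fin m → Fin 2 → ZMod p) (P : Prop) :
    (iffF (m := m) (Y := Y) P).eval num T z ↔ P := by
  unfold iffF
  split_ifs with h
  · simp [BF.eval, h]
  · simp [BF.eval, h]

theorem zeroF_eval {m : ℕ} {Y : Type} (yZero : Y) (num : Y → ℕ) {p : ℕ}
    (T : Set (ZMod p × ZMod p × ZMod p))
    (hzero : ∀ a b : ZMod p, (((num yZero : ℕ) : ZMod p), a, b) ∈ T ↔ a = 0)
    (z : Fin m → Fin 2 → ZMod p) (r : Fin 2) :
    (zeroF yZero r).eval num T z ↔ ∀ i, z i r = 0 := by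
  unfold zeroF
  rw [conj_eval]
  simp [BF.eval, hzero]

theorem carryF_eval {m : ℕ} {Y : Type} (yMax : Y) (num : Y → ℕ) {p : ℕ}
    (T : Set (ZMod p × ZMod p × ZMod p))
    (hmax : ∀ a b : ZMod p, (((num yMax : ℕ) : ZMod p), a, b) ∈ T ↔ a = -1)
    (z : Fin m → Fin 2 → ZMod p) (r : Fin 2) (j : Fin m) :
    (carryF yMax r j).eval num T z ↔ (∀ i < j, z i r = -1) ∧ z j r ≠ -1 := by
  unfold carryF
  simp only [BF.eval, conj_eval, hmax]
  simp [BF.eval, hmax]

theorem add_e_other {m p : ℕ} (z : Fin m → Fin 2 → ZMod p) (r r' : Fin 2) (h : r' ≠ r)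
    (i i' : Fin m) : (z + modp p (e r i)) i' r' = z i' r' := by
  simp [modp, e, h]

theorem add_up_other {m p : ℕ} (z : Fin m → Fin 2 → ZMod p) (r r' : Fin 2) (h : r' ≠ r)
    (j i' : Fin m) : (z + modp p (up r j)) i' r' = z i' r' := by
  simp [modp, up, h]

theorem add_up_same {m p : ℕ} (z : Fin m → Fin 2 → ZMod p) (r : Fin 2)
    (j i' : Fin m) : (z + modp p (up r j)) i' r = z i' r + if i' ≤ j then 1 else 0 := by
  by_cases h : i' ≤ j <;> simp [modp, up, h]

theorem add_zero_modp {m p : ℕ} (z : Fin m → Fin 2 → ZMod p) : z + modp p 0 = z := by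
  funext i r
  simp [modp]

theorem numOf_add_up {m p : ℕ} (hp : 2 ≤ p) (z : Fin m → Fin 2 → ZMod p) (r : Fin 2)
    (j : Fin m) (h : ∀ i < j, z i r = -1) (hj : z j r ≠ -1) :
    numOf (fun i => (z + modp p (up r j)) i r) = numOf (fun i => z i r) + 1 := by
  have : NeZero p := ⟨by omega⟩
  rw [← numOf_succ hp (fun i => z i r) j h hj]
  simp only [add_up_same]

theorem numOf_zero' {m p : ℕ} [NeZero p] (v : Fin m → ZMod p) (h : ∀ i, v i = 0) :
    numOf v = 0 := by
  simp [numOf, h]

section
variable {N : SM} {I : Type} {m : ℕ} {Y : Type} (kin kout : N.K) (sym : I → N.G)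
  (gacc : N.G) (yZero yMax : Y) (inF : I → BF m Y) (blankF : BF m Y) (num : Y → ℕ)
  {p : ℕ} (hp : 2 ≤ p) (T : Set (ZMod p × ZMod p × ZMod p)) (w : List I)
  (hzero : ∀ a b : ZMod p, (((num yZero : ℕ) : ZMod p), a, b) ∈ T ↔ a = 0)
  (hmax : ∀ a b : ZMod p, (((num yMax : ℕ) : ZMod p), a, b) ∈ T ↔ a = -1)
  (hin : ∀ x, ∀ n < p ^ m, (inF x).eval num T (regs 0 (dig p n)) ↔ w[n]? = some x)
  (hblank : ∀ n < p ^ m, blankF.eval num T (regs 0 (dig p n)) ↔ w[n]? = none)

include hp hzero hmax hin hblank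

theorem sound_step (ρ : Ru N I m) (z : Fin m → Fin 2 → ZMod p)
    (hc : (cnd kin yZero yMax inF blankF ρ).eval num T z)
    (h1 : Sem kout gacc (fun t => N.step^[t] (N.init kin sym w))
      (pr kin kout sym gacc ρ).2.1 (z + modp p (sh ρ).2.1))
    (h2 : Sem kout gacc (fun t => N.step^[t] (N.init kin sym w))
      (pr kin kout sym gacc ρ).2.2 (z + modp p (sh ρ).2.2)) :
    Sem kout gacc (fun t => N.step^[t] (N.init kin sym w))
      (pr kin kout sym gacc ρ).1 (z + modp p (sh ρ).1) := by
  have : NeZero p := ⟨by omega⟩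
  -- the register `r` as a number
  have hz : (∀ i, z i 0 = 0) → z = regs 0 (dig p (numOf fun i => z i 1)) := by
    intro h
    funext i j
    unfold regs
    fin_cases j
    · simp [h]
    · simp [dig_numOf]
  cases ρ with
  | zt0 =>
    simp only [pr, sh, Sem, add_zero_modp] at *
    intro i
    simp [h1]
  | ztS i =>
    simp only [pr, sh, Sem, add_zero_modp] at *
    intro i'
    rw [add_e_other _ _ _ (by decide)]
    exact h1 i'
  | ictl =>
    simp only [pr, sh, Sem, add_zero_modp] at *
    rw [numOf_zero' _ h1]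
    rfl
  | icell x =>
    simp only [pr, sh, Sem, add_zero_modp, cnd] at *
    rw [numOf_zero' _ h1]
    rw [hz h1, hin x _ (numOf_lt _)] at hc
    simp [SM.init, hc]
  | iblank =>
    simp only [pr, sh, Sem, add_zero_modp, cnd] at *
    rw [numOf_zero' _ h1]
    rw [hz h1, hblank _ (numOf_lt _)] at hc
    simp [SM.init, hc]
  | iother k =>
    simp only [pr, sh, Sem, add_zero_modp, cnd, iffF_eval] at *
    rw [numOf_zero' _ h1]
    classical
    simp [SM.init, Function.update_of_ne hc]
  | a0 q o =>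
    simp only [pr, sh, Sem, add_zero_modp, cnd, BF.eval, iffF_eval,
      zeroF_eval yZero num T hzero] at *
    refine ⟨hc.2, hc.1, h1, ?_⟩
    rw [numOf_zero' (fun i => z i 1) hc.2] at h2
    rw [List.head?_eq_getElem?]
    exact h2
  | a q o =>
    simp only [pr, sh, Sem, add_zero_modp] at *
    exact h1.2
  | aS q o i =>
    simp only [pr, sh, Sem, add_zero_modp] at *
    simp only [add_e_other _ (1 : Fin 2) 0 (by decide)]
    exact h1
  | nc q o =>
    simp only [pr, sh, Sem, add_zero_modp] at *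
    obtain ⟨ha, hb, hd⟩ := h1
    rw [Function.iterate_succ_apply']
    generalize N.step^[numOf fun i => z i 0] (N.init kin sym w) = c at *
    subst hb
    simp [SM.step, ha, hd]
  | keep q o k o' =>
    simp only [pr, sh, Sem, add_zero_modp, cnd, iffF_eval] at *
    obtain ⟨ha, hb, hd⟩ := h1
    rw [Function.iterate_succ_apply']
    generalize N.step^[numOf fun i => z i 0] (N.init kin sym w) = c at *
    subst hb
    simp only [SM.step, ha, if_false, hd]
    rcases hc with hc | hc
    · classical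
      rcases N.op c.q o with _ | _ | g <;> simp [Function.update_of_ne hc, h2]
    · rw [hc]
      exact h2
  | pop q o o' j =>
    simp only [pr, sh, Sem, add_zero_modp, cnd, BF.eval, iffF_eval,
      carryF_eval yMax num T hmax] at *
    obtain ⟨ha, hb, hd⟩ := h1
    rw [numOf_add_up hp z 1 j hc.2.1 hc.2.2] at h2
    simp only [add_up_other z (1 : Fin 2) 0 (by decide)] at h2
    rw [Function.iterate_succ_apply']
    generalize N.step^[numOf fun i => z i 0] (N.init kin sym w) = c at *
    subst hb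
    simp only [SM.step, ha, if_false, hd, hc.1]
    simp [h2]
  | push0 q o g =>
    simp only [pr, sh, Sem, add_zero_modp, cnd, iffF_eval] at *
    obtain ⟨hr, ha, hb, hd⟩ := h1
    rw [numOf_zero' (fun i => z i 1) hr]
    rw [Function.iterate_succ_apply']
    generalize N.step^[numOf fun i => z i 0] (N.init kin sym w) = c at *
    subst hb
    simp only [SM.step, ha, if_false, hd, hc]
    simp
  | push q o g o' j =>
    simp only [pr, sh, Sem, add_zero_modp, cnd, BF.eval, iffF_eval,
      carryF_eval yMax num T hmax] at *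
    obtain ⟨ha, hb, hd⟩ := h1
    rw [numOf_add_up hp z 1 j hc.2.1 hc.2.2]
    simp only [add_up_other z (1 : Fin 2) 0 (by decide)]
    rw [Function.iterate_succ_apply']
    generalize N.step^[numOf fun i => z i 0] (N.init kin sym w) = c at *
    subst hb
    simp only [SM.step, ha, if_false, hd, hc.1]
    simp [h2]
  | tctl q j =>
    simp only [pr, sh, Sem, add_zero_modp, cnd, carryF_eval yMax num T hmax] at *
    rw [numOf_add_up hp z 0 j hc.1 hc.2]
    exact h1
  | tcell k o j =>
    simp only [pr, sh, Sem, add_zero_modp, cnd, carryF_eval yMax num T hmax] at *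
    rw [numOf_add_up hp z 0 j hc.1 hc.2]
    simp only [add_up_other z (0 : Fin 2) 1 (by decide)]
    exact h1
  | ac0 q =>
    simp only [pr, sh, Sem, add_zero_modp, cnd, BF.eval, iffF_eval,
      zeroF_eval yZero num T hzero] at *
    rw [numOf_zero' (fun i => z i 1) hc.2] at h2
    refine ⟨hc.2, by rw [h1]; exact hc.1, ?_⟩
    rw [List.head?_eq_getElem?]
    exact h2
  | ac =>
    simp only [pr, sh, Sem, add_zero_modp] at *
    exact ⟨h1.1, _, h1.2⟩
  | acS i =>
    simp only [pr, sh, Sem, add_zero_modp] at *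
    refine ⟨fun i' => ?_, h1.2⟩
    rw [add_e_other _ _ _ (by decide)]
    exact h1.1 i'

end

section
variable {N : SM} {I : Type} [Finite I] {m : ℕ} {Y : Type} (kin kout : N.K) (sym : I → N.G)
  (gacc : N.G) (yZero yMax : Y) (inF : I → BF m Y) (blankF : BF m Y) (num : Y → ℕ)
  {p : ℕ} (hp : 2 ≤ p) (T : Set (ZMod p × ZMod p × ZMod p)) (w : List I)
  (hzero : ∀ a b : ZMod p, (((num yZero : ℕ) : ZMod p), a, b) ∈ T ↔ a = 0)
  (hmax : ∀ a b : ZMod p, (((num yMax : ℕ) : ZMod p), a, b) ∈ T ↔ a = -1)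
  (hin : ∀ x, ∀ n < p ^ m, (inF x).eval num T (regs 0 (dig p n)) ↔ w[n]? = some x)
  (hblank : ∀ n < p ^ m, blankF.eval num T (regs 0 (dig p n)) ↔ w[n]? = none)

include hp hzero hmax hin hblank

/-- Soundness: induction on `CShape.Known`. -/
theorem sound (P : Pr N) (z : Fin m → Fin 2 → ZMod p)
    (hk : (shape kin kout sym gacc yZero yMax inF blankF).Known num T P z) :
    Sem kout gacc (fun t => N.step^[t] (N.init kin sym w)) P z := by
  have key : ∀ (P' : (shape kin kout sym gacc yZero yMax inF blankF).Pred)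
      (z' : Fin m → Fin 2 → ZMod p),
      (shape kin kout sym gacc yZero yMax inF blankF).Known num T P' z' →
      Sem kout gacc (fun t => N.step^[t] (N.init kin sym w)) P' z' := by
    intro P' z' h
    induction h with
    | start => rfl
    | rule ρ z hc h1 h2 ih1 ih2 =>
      exact sound_step kin kout sym gacc yZero yMax inF blankF num hp T w hzero hmax hin hblank
        ρ z hc ih1 ih2
  exact key P z hk

end

end Sim

end Vale.Agent.P310
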